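import Vale.Agent.P247L.Defs
import Vale.Agent.P247.H620.LFin

/-!
# P247, local currents: from the Puiseux structure to the local structure (port of `H620`)
-/

open scoped ContDiff Topology
open Set MeasureTheory Filter Metric

noncomputable section

namespace Vale.Agent.P247L.H620

open Vale.Agent.P247.H74 Vale.Agent.P247.H574 Vale.Agent.P247.H620

theorem GoodBox.norm {D : Data} {S : ICur D} {b : Box D} {ρ : ℝ} (h : GoodBox S b ρ) :
    GoodBox S (Box.norm b) ρ := by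
  obtain ⟨h1, h2, h3, h4⟩ := h
  refine ⟨h1, h2, fun z hz y hy hρ => ?_, ?_⟩
  swap
  · rintro _ ⟨p, hp, rfl⟩
    exact h4 ⟨_, lamP_mem (b.m_lt (0, 0) (by simp [PD])) hp, rfl⟩
  refine h3 (lam (b.m (0, 0)) z) ?_ y hy hρ
  rw [mem_closedBall_zero_iff] at hz ⊢
  have := norm_lam_le (b.m_lt (0, 0) (by simp [PD])) z
  have := norm_nonneg z
  linarith

section

variable {D : Data} {S : ICur D} {b : Box D} {ρ : ℝ} {N : ℕ} {Y P : ℂ → Fin N → ℂ}
  {R : Measure (ℂ × ℂ)} {δ : ℝ} {L : ℕ} {k μ : Fin L → ℕ} {W : Fin L → ℂ → ℂ}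

theorem T_branches (hρ : ρ < 1) (hM : MG2 N b.m b.A ρ Y P R)
    (hT : ∀ φ, CF φ → tsupport φ ⊆ b.Θ '' (ball (0 : ℂ) 1 ×ˢ ball (0 : ℂ) 1) →
      S.T φ = (∫ z in ball (0 : ℂ) 1,
        ∑ i, φ (b.Θ (z, Y z i)) (tan1 b z (Y z i) (P z i)) (tan2 b z (Y z i) (P z i))) +
        ∫ p, φ (b.Θ p) (fderiv ℝ b.Θ p (0, 1)) (fderiv ℝ b.Θ p (0, Complex.I)) ∂(R))
    (h : Pui b.m b.A Y δ k μ W) (hδ : δ ≤ 1) (hR : R (ball (0 : ℂ) δ ×ˢ univ) = 0)
    {φ : R4 → F2} (hφ : CF φ) (hs : tsupport φ ⊆ b.Θ '' (ball (0 : ℂ) δ ×ˢ ball (0 : ℂ) 1)) :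
    (∀ l, IntegrableOn (brd φ (bm b (k l) (W l))) {s | ‖s‖ ^ k l < δ}) ∧
    S.T φ = ∑ l, (μ l : ℝ) * ∫ s in {s | ‖s‖ ^ k l < δ}, brd φ (bm b (k l) (W l)) s := by
  classical
  have hb := hM.bdd
  have hYPD : ∀ z ∈ ball (0 : ℂ) 1, ∀ i, (z, Y z i) ∈ PD 2 := by
    intro z hz i
    have h1 := hb z i
    rw [mem_ball_zero_iff] at hz
    rw [PD, mem_prod, mem_ball_zero_iff, mem_ball_zero_iff]
    exact ⟨by linarith, by linarith⟩
  set T0 : ℂ → Fin N → ℝ := fun z i =>
    φ (b.Θ (z, Y z i)) (tan1 b z (Y z i) (P z i)) (tan2 b z (Y z i) (P z i)) with hT0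
  -- the vertical part
  have hR0 : ∫ p, φ (b.Θ p) (fderiv ℝ b.Θ p (0, 1)) (fderiv ℝ b.Θ p (0, Complex.I)) ∂(R) = 0 := by
    refine integral_eq_zero_of_ae ?_
    have h1 : ∀ᵐ p ∂(R), p ∉ ball (0 : ℂ) δ ×ˢ (univ : Set ℂ) := compl_mem_ae_iff.2 hR
    filter_upwards [h1, hM.Rsupp] with p hp1 hp2
    have h3 : φ (b.Θ p) = 0 := by
      refine not_mem_of_far hδ hs ?_ fun h => hp1 ⟨h.1, mem_univ _⟩
      rw [PD, mem_prod, mem_ball_zero_iff, mem_ball_zero_iff]
      exact ⟨by linarith [hp2.1], by linarith [hp2.2]⟩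
    simp [h3]
  -- restriction to the small disc
  have hsm : ∫ z in ball (0 : ℂ) 1, ∑ i, T0 z i = ∫ z in ball (0 : ℂ) δ, ∑ i, T0 z i := by
    refine setIntegral_eq_of_subset_of_forall_sdiff_eq_zero measurableSet_ball
      (ball_subset_ball hδ) fun z hz => ?_
    refine Finset.sum_eq_zero fun i _ => ?_
    have h3 : φ (b.Θ (z, Y z i)) = 0 :=
      not_mem_of_far hδ hs (hYPD z hz.1 i) fun h => hz.2 h.1
    simp [hT0, h3]
  have hall := h.ae_all
  have hPe := h.P_eq hM.toMG hδ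
  have hsub1 : ball (0 : ℂ) δ ⊆ ball 0 1 := ball_subset_ball hδ
  -- the value at a root
  have hval : ∀ᵐ z ∂volume.restrict (ball (0 : ℂ) δ), ∀ l s, s ^ k l = z → ∀ i, Y z i = W l s →
      T0 z i = Hd b φ (k l) (W l) s := by
    filter_upwards [hall, hPe, ae_restrict_mem measurableSet_ball] with z hz1 hz2 hzb l s hls i hi
    have hs0 : s ≠ 0 := by
      rintro rfl
      rw [zero_pow (by have := h.one_k l; omega)] at hls
      exact hz1.1 hls.symm
    have hsU : s ∈ Up (k l) δ := by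
      refine ⟨?_, hs0⟩
      show ‖s‖ ^ k l < δ
      rw [← norm_pow, hls]; exact mem_ball_zero_iff.1 hzb
    rw [h.Hd_eq hb hρ hδ l hsU hφ rfl, hT0]
    simp only
    rw [hz2 l s hls i hi, hi, hls]
  have hsum : ∀ᵐ z ∂volume.restrict (ball (0 : ℂ) δ), ∑ i, T0 z i =
      ∑ l, (μ l : ℝ) * ∑ j ∈ Finset.range (k l), Hd b φ (k l) (W l) (om (k l) j * rt (k l) z) := by
    filter_upwards [hall, hval, h.sum, ae_restrict_mem measurableSet_ball] with z hz1 hz2 hz3 hzb
    have h1 := hz3 (fun l => rt (k l) z) (fun l => rt_pow (h.one_k l) z)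
      (fun y => if hy : ∃ i, Y z i = y then T0 z hy.choose else 0)
    have h2 : ∀ i, (if hy : ∃ i', Y z i' = Y z i then T0 z hy.choose else 0) = T0 z i := by
      intro i
      have hy : ∃ i', Y z i' = Y z i := ⟨i, rfl⟩
      rw [dif_pos hy]
      have h3 := hy.choose_spec
      simp only [hT0]
      rw [hM.same z _ _ h3, h3]
    simp only [h2] at h1
    rw [h1]
    refine Finset.sum_congr rfl fun l _ => ?_
    congr 1
    refine Finset.sum_congr rfl fun j _ => ?_
    have h4 := (root_mem h l j hzb hz1.1).1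
    have h5 := hz1.2.2 l _ h4
    rw [dif_pos h5]
    exact hz2 l _ h4 _ h5.choose_spec
  -- integrability
  have hint : ∀ l, ∀ j < k l,
      IntegrableOn (fun z => Hd b φ (k l) (W l) (om (k l) j * rt (k l) z)) (ball 0 δ) := by
    intro l j _
    obtain ⟨C, hC0, hC⟩ := bound_term hφ b
    have i1 : IntegrableOn (fun z => C * (1 + ∑ i, ‖P z i‖ ^ 2)) (ball 0 δ) := by
      have j1 := hM.energy.mono_set hsub1
      have j2 : IntegrableOn (fun _ : ℂ => (1 : ℝ)) (ball 0 δ) :=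
        integrableOn_const measure_ball_lt_top.ne
      exact (j2.add j1).const_mul C
    refine i1.mono' ?_ ?_
    · -- measurability
      have hc : ContinuousOn (Hd b φ (k l) (W l)) (Up (k l) δ) := by
        have h1 := h.bm_smooth hb hρ hδ l
        have h2 : ContinuousOn (fderiv ℝ (bm b (k l) (W l))) (Up (k l) δ) :=
          (h1.of_le (by simp) : ContDiffOn ℝ 1 _ _).continuousOn_fderiv_of_isOpen
            (Up_open _ _) le_rfl
        have h3 : ContinuousOn (fun s => φ (bm b (k l) (W l) s)) (Up (k l) δ) :=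
          hφ.cont.comp_continuousOn h1.continuousOn
        have h4 : ContinuousOn (brd φ (bm b (k l) (W l))) (Up (k l) δ) :=
          (h3.clm_apply (h2.clm_apply continuousOn_const)).clm_apply
            (h2.clm_apply continuousOn_const)
        refine ContinuousOn.mul (ContinuousOn.inv₀ (by fun_prop) fun s hs => ?_) h4
        have hs0 : s ≠ 0 := hs.2
        have hk := h.one_k l
        have hD : (k l : ℂ) * s ^ (k l - 1) ≠ 0 :=
          mul_ne_zero (Nat.cast_ne_zero.2 (by omega)) (pow_ne_zero _ hs0)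
        exact pow_ne_zero _ (norm_ne_zero_iff.2 hD)
      have hm : Measurable ((Up (k l) δ).piecewise (Hd b φ (k l) (W l)) 0) :=
        hc.measurable_piecewise continuousOn_const (Up_open _ _).measurableSet
      have hm2 : Measurable fun z => (Up (k l) δ).piecewise (Hd b φ (k l) (W l)) 0
          (om (k l) j * rt (k l) z) := hm.comp ((rt_measurable _).const_mul _)
      refine hm2.aestronglyMeasurable.congr ?_
      filter_upwards [hall, ae_restrict_mem measurableSet_ball] with z hz1 hzb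
      exact piecewise_eq_of_mem _ _ _ (root_mem h l j hzb hz1.1).2
    · filter_upwards [hall, hval, ae_restrict_mem measurableSet_ball] with z hz1 hz2 hzb
      have h4 := (root_mem h l j hzb hz1.1).1
      obtain ⟨i, hi⟩ := hz1.2.2 l _ h4
      rw [← hz2 l _ h4 i hi, Real.norm_eq_abs]
      have hz' : ‖z‖ ≤ 1 := by
        have := mem_ball_zero_iff.1 (hsub1 hzb); exact this.le
      refine (hC z (Y z i) (P z i) hz' ((hb z i).trans hρ.le)).trans ?_
      refine mul_le_mul_of_nonneg_left ?_ hC0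
      have := Finset.single_le_sum (f := fun i => ‖P z i‖ ^ 2) (fun j _ => by positivity)
        (Finset.mem_univ i)
      linarith
  have hfib := fun l => fibre_integral (h.one_k l) δ (Hd b φ (k l) (W l)) (hint l)
  have hcong : ∀ l, (fun s => ‖(k l : ℂ) * s ^ (k l - 1)‖ ^ 2 * Hd b φ (k l) (W l) s)
      =ᵐ[volume.restrict {s | ‖s‖ ^ k l < δ}] brd φ (bm b (k l) (W l)) := by
    intro l
    have h0 : ∀ᵐ s ∂volume.restrict {s : ℂ | ‖s‖ ^ k l < δ}, s ≠ 0 :=
      ae_restrict_of_ae (by rw [ae_iff]; simp)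
    filter_upwards [h0] with s hs0
    have hk := h.one_k l
    have hD : (k l : ℂ) * s ^ (k l - 1) ≠ 0 :=
      mul_ne_zero (Nat.cast_ne_zero.2 (by omega)) (pow_ne_zero _ hs0)
    rw [Hd, mul_inv_cancel_left₀]
    exact pow_ne_zero _ (norm_ne_zero_iff.2 hD)
  refine ⟨fun l => (hfib l).1.congr (hcong l), ?_⟩
  rw [hT φ hφ (hs.trans (image_mono (prod_mono hsub1 le_rfl))), hR0, add_zero]
  show ∫ z in ball (0 : ℂ) 1, ∑ i, T0 z i = _
  rw [hsm, integral_congr_ae hsum, integral_finsetSum]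
  · refine Finset.sum_congr rfl fun l _ => ?_
    rw [integral_const_mul, (hfib l).2, integral_congr_ae (hcong l)]
  · intro l _
    refine Integrable.const_mul ?_ _
    exact integrable_finsetSum _ fun j hj => hint l j (Finset.mem_range.1 hj)

end

section

variable {D : Data} {S : ICur D} {b : Box D} {ρ : ℝ} {N : ℕ} {Y P : ℂ → Fin N → ℂ}
  {R : Measure (ℂ × ℂ)} {δ : ℝ} {L : ℕ} {k μ : Fin L → ℕ} {W : Fin L → ℂ → ℂ}

theorem T_small (hρ : ρ < 1) (hM : MG2 N b.m b.A ρ Y P R)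
    (hT : ∀ φ, CF φ → tsupport φ ⊆ b.Θ '' (ball (0 : ℂ) 1 ×ˢ ball (0 : ℂ) 1) →
      S.T φ = (∫ z in ball (0 : ℂ) 1,
        ∑ i, φ (b.Θ (z, Y z i)) (tan1 b z (Y z i) (P z i)) (tan2 b z (Y z i) (P z i))) +
        ∫ p, φ (b.Θ p) (fderiv ℝ b.Θ p (0, 1)) (fderiv ℝ b.Θ p (0, Complex.I)) ∂(R))
    (h : Pui b.m b.A Y δ k μ W) (hδ : δ ≤ 1) (hδ0 : 0 < δ) (hR : R (ball (0 : ℂ) δ ×ˢ univ) = 0)
    {r : ℝ} {σ : Fin L → ℂ → ℂ} (hσ : ∀ l, W l 0 = 0 → Cnf b (k l) (W l) δ r (σ l))
    {c : ℝ} (hc : 0 < c) (hcr : c < r) :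
    ∃ ε > 0, (∀ l, W l 0 = 0 → ∀ t ∈ ball (0 : ℂ) r, c ≤ ‖t‖ →
        ε ≤ dist (bm b (k l) (W l) (σ l t)) (b.Θ (0, 0))) ∧
      ∀ φ, CF φ → tsupport φ ⊆ ball (b.Θ (0, 0)) ε →
        S.T φ = ∑ l, if W l 0 = 0 then
          (μ l : ℝ) * ∫ t in ball (0 : ℂ) c, brd φ (fun t => bm b (k l) (W l) (σ l t)) t else 0 := by
  have hb := hM.bdd
  -- the choice of `η`
  have e1 : ∀ᶠ η in 𝓝[>] (0 : ℝ), ∀ l, (W l 0 ≠ 0 → ∀ s, ‖s‖ ^ k l < η → η ≤ ‖W l s‖) ∧
      (W l 0 = 0 → (∀ s, ‖s‖ ^ k l < η → s ∈ σ l '' (ball 0 c ∩ ball 0 r)) ∧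
        η ≤ (c / 2) ^ k l) := by
    rw [eventually_all]
    intro l
    have hk := h.one_k l
    by_cases hl : W l 0 = 0
    · obtain ⟨r₂, hr₂, h2⟩ := (hσ l hl).onto c hc
      filter_upwards [ev_le (show 0 < r₂ ^ k l by positivity),
        ev_le (show 0 < (c / 2) ^ k l by positivity)] with η h3 h4
      refine ⟨fun h5 => absurd hl h5, fun _ => ⟨fun s hs => h2 ?_, h4⟩⟩
      rw [mem_ball_zero_iff]
      exact lt_of_pow_lt_pow_left₀ (k l) hr₂.le (hs.trans_le h3)
    · have hcont : ContinuousAt (W l) 0 := by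
        have ho : IsOpen {s : ℂ | ‖s‖ ^ k l < δ} := isOpen_lt (by fun_prop) continuous_const
        refine (h.cont l).continuousAt (ho.mem_nhds ?_)
        show ‖(0 : ℂ)‖ ^ k l < δ
        rw [norm_zero, zero_pow (by omega)]
        exact hδ0
      have hpos : 0 < ‖W l 0‖ := norm_pos_iff.2 hl
      have h3 : ∀ᶠ s in 𝓝 (0 : ℂ), ‖W l 0‖ / 2 < ‖W l s‖ :=
        hcont.norm.eventually (lt_mem_nhds (by linarith))
      obtain ⟨r', hr', h4⟩ := Metric.eventually_nhds_iff_ball.1 h3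
      filter_upwards [ev_le (show 0 < r' ^ k l by positivity),
        ev_le (show 0 < ‖W l 0‖ / 2 by positivity)] with η h5 h6
      refine ⟨fun _ s hs => ?_, fun h7 => absurd h7 hl⟩
      refine h6.trans (h4 s ?_).le
      rw [mem_ball_zero_iff]
      exact lt_of_pow_lt_pow_left₀ (k l) hr'.le (hs.trans_le h5)
  obtain ⟨η, ⟨⟨hη1, hηδ⟩, hη2⟩, hη0⟩ :=
    ((e1.and (ev_le hδ0)).and (ev_le one_pos) |>.and self_mem_nhdsWithin).exists
  have hη0' : 0 < η := hη0
  obtain ⟨ε1, hε1, hne⟩ := box_near b hη0'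
  obtain ⟨ε2, hε2, hop⟩ := box_open b hη0'
  refine ⟨min ε1 ε2, lt_min hε1 hε2, fun l hl t ht hct => ?_, fun φ hφ hs => ?_⟩
  · -- far from the point
    by_contra hlt
    rw [not_le] at hlt
    have hcn := hσ l hl
    have ht0 : 0 < ‖σ l t‖ := by
      have := hcn.low t ht
      linarith
    have hsU := ball_Up (h.one_k l) hδ ⟨hcn.mem t ht, norm_pos_iff.1 ht0⟩
    have h1 := hne _ (h.mem_K1 hb hρ hδ l hsU) (hlt.trans_le (min_le_left _ _))
    have h2 : ‖σ l t‖ ^ k l < η := by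
      have := mem_ball_zero_iff.1 h1.1
      rwa [norm_pow] at this
    have h3 := ((hη1 l).2 hl).2
    have h4 := lt_of_pow_lt_pow_left₀ (k l) (by positivity) (h2.trans_le h3)
    have := hcn.low t ht
    linarith
  · have hsub : tsupport φ ⊆ b.Θ '' (ball (0 : ℂ) δ ×ˢ ball (0 : ℂ) 1) :=
      (hs.trans (ball_subset_ball (min_le_right _ _))).trans
        (hop.trans (image_mono (prod_mono (ball_subset_ball hηδ) (ball_subset_ball hη2))))
    obtain ⟨-, hTb⟩ := T_branches hρ hM hT h hδ hR hφ hsub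
    rw [hTb]
    refine Finset.sum_congr rfl fun l _ => ?_
    -- where the density does not vanish
    have hval : ∀ s ∈ Up (k l) δ, brd φ (bm b (k l) (W l)) s ≠ 0 →
        ‖s‖ ^ k l < η ∧ ‖W l s‖ < η := by
      intro s hsU h1
      have h2 : φ (bm b (k l) (W l) s) ≠ 0 := by
        intro h3
        apply h1
        rw [brd, h3]
        simp
      have h3 := hs (subset_tsupport φ h2)
      have h4 := hne _ (h.mem_K1 hb hρ hδ l hsU)
        ((mem_ball.1 h3).trans_le (min_le_left _ _))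
      refine ⟨?_, mem_ball_zero_iff.1 h4.2⟩
      have := mem_ball_zero_iff.1 h4.1
      rwa [norm_pow] at this
    have hn0 : ∀ᵐ s ∂volume.restrict {s : ℂ | ‖s‖ ^ k l < δ}, s ≠ 0 :=
      ae_restrict_of_ae (by rw [ae_iff]; simp)
    have hms : MeasurableSet {s : ℂ | ‖s‖ ^ k l < δ} :=
      (isOpen_lt (by fun_prop) continuous_const).measurableSet
    by_cases hl : W l 0 = 0
    · rw [if_pos hl]
      congr 1
      have hcn := hσ l hl
      have hcc : ball (0 : ℂ) c ⊆ ball 0 r := ball_subset_ball hcr.le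
      have hinter : ball (0 : ℂ) c ∩ ball 0 r = ball 0 c := inter_eq_left.2 hcc
      have hAsub : σ l '' ball 0 c ⊆ {s : ℂ | ‖s‖ ^ k l < δ} := by
        rintro _ ⟨t, ht, rfl⟩
        by_cases h0 : σ l t = 0
        · rw [h0]
          show ‖(0 : ℂ)‖ ^ k l < δ
          rw [norm_zero, zero_pow (by have := h.one_k l; omega)]
          exact hδ0
        · exact (ball_Up (h.one_k l) hδ ⟨hcn.mem t (hcc ht), h0⟩).1
      have h1 : ∫ s in {s : ℂ | ‖s‖ ^ k l < δ}, brd φ (bm b (k l) (W l)) s =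
          ∫ s in σ l '' ball 0 c, brd φ (bm b (k l) (W l)) s := by
        refine setIntegral_eq_of_subset_of_forall_sdiff_eq_zero hms hAsub fun s hsd => ?_
        by_contra h2
        have hs0 : s ≠ 0 := by
          rintro rfl
          exact hsd.2 ⟨0, mem_ball_self hc, hcn.zero⟩
        have h3 := (hval s ⟨hsd.1, hs0⟩ h2).1
        have h4 := ((hη1 l).2 hl).1 s h3
        rw [hinter] at h4
        exact hsd.2 h4
      rw [h1, integral_image_eq_integral_abs_det_fderiv_smul volume measurableSet_ball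
        (fun t ht => ((hcn.c1.contDiffAt (isOpen_ball.mem_nhds (hcc ht))).differentiableAt
          (by simp)).hasFDerivAt.hasFDerivWithinAt) (hcn.inj.mono hcc)]
      refine integral_congr_ae ?_
      have hn1 : ∀ᵐ s ∂volume.restrict (ball (0 : ℂ) c), s ≠ 0 :=
        ae_restrict_of_ae (by rw [ae_iff]; simp)
      filter_upwards [hn1, ae_restrict_mem measurableSet_ball] with t ht0 ht
      have htr := hcc ht
      have hst0 : σ l t ≠ 0 := by
        intro h2
        have h3 := hcn.low t htr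
        rw [h2, norm_zero] at h3
        have := norm_pos_iff.2 ht0
        linarith
      have hsU := ball_Up (h.one_k l) hδ ⟨hcn.mem t htr, hst0⟩
      have hd1 : HasFDerivAt (fun t => bm b (k l) (W l) (σ l t))
          ((fderiv ℝ (bm b (k l) (W l)) (σ l t)).comp (fderiv ℝ (σ l) t)) t :=
        HasFDerivAt.comp (g := bm b (k l) (W l)) t
          ((((h.bm_smooth hb hρ hδ l).contDiffAt ((Up_open _ _).mem_nhds hsU)).differentiableAt
            (by simp)).hasFDerivAt)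
          (((hcn.c1.contDiffAt (isOpen_ball.mem_nhds htr)).differentiableAt
            (by simp)).hasFDerivAt)
      simp only [smul_eq_mul]
      rw [brd, brd, hd1.fderiv, abs_of_pos (hcn.det t htr)]
      simp only [ContinuousLinearMap.comp_apply]
      rw [form_det (hφ.alt _)]
    · rw [if_neg hl, integral_eq_zero_of_ae, mul_zero]
      filter_upwards [hn0, ae_restrict_mem hms] with s hs0 hsδ
      by_contra h1
      obtain ⟨h2, h3⟩ := hval s ⟨hsδ, hs0⟩ h1
      exact absurd ((hη1 l).1 hl s h2) (not_le.2 h3)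

end

theorem LSX (hC : CONF_statement) (hJ : JREG_statement) (hGB : GB_statement)
    (hMGX : MGX_statement) (hPUI : PUI_statement) : LS_statement := by
  classical
  intro D S x hx hxW
  -- a frame
  obtain ⟨v, h, hvh⟩ : ∃ v h : R4, ∀ a b : ℂ, cm D x a v + cm D x b h = 0 → a = 0 ∧ b = 0 :=
    exists_frame D x
  obtain ⟨b₀, ρ, hx0, hgood₀, -⟩ := hGB D S x hxW v h 1 one_pos hvh
  -- the normalised box
  set b := Box.norm b₀ with hbdef
  have hgood : GoodBox S b ρ := GoodBox.norm hgood₀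
  have hbx : b.Θ (0, 0) = x := by rw [hbdef, Box.norm_zero, hx0]
  have hm0 : b.m (0, 0) = 0 := Box.norm_m_zero b₀
  clear_value b
  have hρ : ρ < 1 := hgood.2.1
  obtain ⟨N, Y, P, R, hM, hT⟩ := hMGX D S b ρ hgood
  obtain ⟨δ', hδ', L, k, μ, W, hR', hk, -, hWs, ⟨C, γ, hγ, hgr'⟩, heq, hinj, hsum⟩ :=
    hPUI N b.m b.A ρ Y P R b.m_smooth b.A_smooth b.m_lt hρ hM
  have hP' : Pui b.m b.A Y δ' k μ W :=
    ⟨fun l => (hk l).1, fun l => (hk l).2, fun l => (hWs l).1, fun l => (hWs l).2, heq, hinj, hsum⟩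
  set δ := min δ' 1 with hδdef
  have hδ0 : 0 < δ := lt_min hδ' one_pos
  have hδ : δ ≤ 1 := min_le_right _ _
  have hδδ : δ ≤ δ' := min_le_left _ _
  have hP := hP'.mono hδδ
  have hR : R (ball (0 : ℂ) δ ×ˢ univ) = 0 :=
    measure_mono_null (prod_mono (ball_subset_ball hδδ) le_rfl) hR'
  have hgr : Gr δ k W C γ := fun l s h0 hs => hgr' l s h0 (hs.trans_le hδδ)
  have hb := hM.bdd
  -- conformal parameters
  have hex : ∀ l, ∃ (r₁ : ℝ) (σ : ℂ → ℂ), 0 < r₁ ∧ (W l 0 = 0 → Cnf b (k l) (W l) δ r₁ σ) := by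
    intro l
    by_cases hl : W l 0 = 0
    · obtain ⟨r₁, σ, hc⟩ := hP.exists_cnf hC hJ hb hρ hδ hδ0 hγ hgr hm0 l hl
      exact ⟨r₁, σ, hc.pos, fun _ => hc⟩
    · exact ⟨1, id, one_pos, fun h => absurd h hl⟩
  choose rr σ hrr hσ' using hex
  obtain ⟨r, hrle, hr0⟩ : ∃ r : ℝ, (∀ l, r ≤ rr l) ∧ 0 < r := by
    have h1 : ∀ᶠ r in 𝓝[>] (0 : ℝ), ∀ l, r ≤ rr l := by
      rw [eventually_all]
      exact fun l => ev_le (hrr l)
    exact (h1.and self_mem_nhdsWithin).exists
  have hσ : ∀ l, W l 0 = 0 → Cnf b (k l) (W l) δ r (σ l) := fun l hl =>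
    (hσ' l hl).mono hr0 (hrle l)
  set U : Fin L → ℂ → R4 := fun l t => bm b (k l) (W l) (σ l t) with hU
  have hU0 : ∀ l, W l 0 = 0 → U l 0 = x := by
    intro l hl
    show b.Θ (σ l 0 ^ k l, W l (σ l 0)) = x
    rw [(hσ l hl).zero, hl, zero_pow (by have := hP.one_k l; omega), hbx]
  -- first level
  obtain ⟨ε₁, hε₁, hfar₁, hT₁⟩ := T_small hρ hM hT hP hδ hδ0 hR hσ (show 0 < r / 2 by positivity)
    (show r / 2 < r by linarith)
  rw [hbx] at hfar₁ hT₁
  have hsubr : ball (0 : ℂ) (r / 2) ⊆ ball 0 r := ball_subset_ball (by linarith)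
  have hmemS : ∀ l, W l 0 = 0 → ∀ t ∈ ball (0 : ℂ) (r / 2), U l t ∈ ball x ε₁ → U l t ∈ S.supp := by
    intro l hl t ht hte
    by_cases h0 : t = 0
    · rw [h0, hU0 l hl]; exact hx
    intro ε' hε'
    have hd : 0 < ε₁ - dist (U l t) x := by
      have := mem_ball.1 hte
      linarith
    set ε'' := min (ε' / 2) ((ε₁ - dist (U l t) x) / 2) with hε''
    have hε0 : 0 < ε'' := lt_min (by linarith) (by linarith)
    have hs1 : tsupport (bf D (U l t) ε'') ⊆ ball (U l t) ε' := by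
      refine (bf_supp _ _ _).trans (closedBall_subset_ball ?_)
      have := min_le_left (ε' / 2) ((ε₁ - dist (U l t) x) / 2)
      linarith
    have hs2 : tsupport (bf D (U l t) ε'') ⊆ ball x ε₁ := by
      refine (bf_supp _ _ _).trans fun y hy => ?_
      rw [mem_ball]
      have h1 := dist_triangle y (U l t) x
      have h2 := mem_closedBall.1 hy
      have h3 := min_le_right (ε' / 2) ((ε₁ - dist (U l t) x) / 2)
      linarith
    refine ⟨bf D (U l t) ε'', bf_CF _ _ _, hs1, ?_⟩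
    rw [hT₁ _ (bf_CF _ _ _) hs2]
    have hnn : ∀ l', W l' 0 = 0 → ∀ t' ∈ ball (0 : ℂ) r, 0 ≤ brd (bf D (U l t) ε'') (U l') t' :=
      fun l' hl' t' ht' => (brd_bf ((hσ l' hl').hol t' ht')).1
    apply ne_of_gt
    have hterm : ∀ l', 0 ≤ (if W l' 0 = 0 then (μ l' : ℝ) * ∫ t' in ball (0 : ℂ) (r / 2),
        brd (bf D (U l t) ε'') (U l') t' else 0) := by
      intro l'
      split_ifs with hl'
      · refine mul_nonneg (by positivity) ?_
        exact setIntegral_nonneg measurableSet_ball fun t' ht' => hnn l' hl' t' (hsubr ht')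
      · exact le_rfl
    refine Finset.sum_pos' (fun l' _ => hterm l') ⟨l, Finset.mem_univ l, ?_⟩
    rw [if_pos hl]
    have hμ : 0 < (μ l : ℝ) := by exact_mod_cast hP.one_μ l
    refine mul_pos hμ ?_
    have hcn := hσ l hl
    have hcb : ContinuousOn (brd (bf D (U l t) ε'') (U l)) (ball 0 r) := by
      have h2 : ContinuousOn (fderiv ℝ (U l)) (ball 0 r) :=
        hcn.smooth.continuousOn_fderiv_of_isOpen isOpen_ball (by simp)
      have h3 : ContinuousOn (fun s => bf D (U l t) ε'' (U l s)) (ball 0 r) :=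
        (bf_CF D (U l t) ε'').cont.comp_continuousOn hcn.smooth.continuousOn
      exact (h3.clm_apply (h2.clm_apply continuousOn_const)).clm_apply
        (h2.clm_apply continuousOn_const)
    have hcl : closedBall (0 : ℂ) (r / 2) ⊆ ball 0 r := closedBall_subset_ball (by linarith)
    have hint : IntegrableOn (brd (bf D (U l t) ε'') (U l)) (ball 0 (r / 2)) :=
      ((hcb.mono hcl).integrableOn_compact (isCompact_closedBall _ _)).mono_set
        ball_subset_closedBall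
    rw [setIntegral_pos_iff_support_of_nonneg_ae _ hint]
    · have hpos : 0 < brd (bf D (U l t) ε'') (U l) t :=
        (brd_bf (hcn.hol t (hsubr ht))).2 (by rw [dist_self]; exact hε0)
          (Cnf.imm hP hb hρ hδ hcn (hsubr ht) h0)
      have hev : ∀ᶠ t' in 𝓝 t, 0 < brd (bf D (U l t) ε'') (U l) t' ∧ t' ∈ ball (0 : ℂ) (r / 2) :=
        ((hcb.continuousAt (isOpen_ball.mem_nhds (hsubr ht))).eventually
          (lt_mem_nhds hpos)).and (isOpen_ball.mem_nhds ht)
      obtain ⟨q, hq, hball⟩ := Metric.eventually_nhds_iff_ball.1 hev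
      refine (measure_ball_pos volume t hq).trans_le (measure_mono fun t' ht' => ?_)
      exact ⟨(hball t' ht').1.ne', (hball t' ht').2⟩
    · filter_upwards [ae_restrict_mem measurableSet_ball] with t' ht'
      exact hnn l hl t' (hsubr ht')
  -- second level
  obtain ⟨c, hcall, hc0⟩ : ∃ c : ℝ, ((∀ l, W l 0 = 0 → ∀ t ∈ ball (0 : ℂ) (2 * c), U l t ∈ ball x ε₁)
      ∧ c ≤ r / 4) ∧ 0 < c := by
    have h1 : ∀ᶠ c in 𝓝[>] (0 : ℝ), ∀ l, W l 0 = 0 → ∀ t ∈ ball (0 : ℂ) (2 * c),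
        U l t ∈ ball x ε₁ := by
      rw [eventually_all]
      intro l
      by_cases hl : W l 0 = 0
      · have hcu : ContinuousAt (U l) 0 := (hσ l hl).smooth.continuousOn.continuousAt
          (isOpen_ball.mem_nhds (mem_ball_self hr0))
        have h2 : ∀ᶠ t in 𝓝 (0 : ℂ), U l t ∈ ball x ε₁ := by
          refine hcu.eventually (isOpen_ball.mem_nhds ?_)
          rw [hU0 l hl]; exact mem_ball_self hε₁
        obtain ⟨q, hq, hball⟩ := Metric.eventually_nhds_iff_ball.1 h2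
        filter_upwards [ev_le (show 0 < q / 2 by positivity)] with c hc _ t ht
        exact hball t (ball_subset_ball (by linarith) ht)
      · exact Eventually.of_forall fun c h => absurd h hl
    obtain ⟨c, ⟨h2, h3⟩, h4⟩ := ((h1.and (ev_le (show 0 < r / 4 by positivity))).and
      self_mem_nhdsWithin).exists
    exact ⟨c, ⟨h2, h3⟩, h4⟩
  obtain ⟨hcall, hcr⟩ := hcall
  obtain ⟨ε₂, hε₂, hfar₂, hT₂⟩ := T_small hρ hM hT hP hδ hδ0 hR hσ hc0 (show c < r by linarith)
  rw [hbx] at hfar₂ hT₂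
  -- the index set
  let ι := {l : Fin L // W l 0 = 0}
  let e := Fintype.equivFin ι
  have h2c : ∀ z ∈ ball (0 : ℂ) 2, c • z ∈ ball (0 : ℂ) (2 * c) := by
    intro z hz
    rw [mem_ball_zero_iff] at hz ⊢
    rw [norm_smul, Real.norm_of_nonneg hc0.le]
    nlinarith
  have h2r : ball (0 : ℂ) (2 * c) ⊆ ball 0 (r / 2) := ball_subset_ball (by linarith)
  set u : Fin (Fintype.card ι) → ℂ → R4 := fun i z => U (e.symm i).1 (c • z) with hu
  have hW0 : ∀ i, W (e.symm i).1 0 = 0 := fun i => (e.symm i).2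
  have hder : ∀ i, ∀ z ∈ ball (0 : ℂ) 2, ∀ w, fderiv ℝ (u i) z w =
      c • fderiv ℝ (U (e.symm i).1) (c • z) w := by
    intro i z hz w
    have h1 : DifferentiableAt ℝ (U (e.symm i).1) (c • z) :=
      (((hσ _ (hW0 i)).smooth).contDiffAt (isOpen_ball.mem_nhds
        (hsubr (h2r (h2c z hz))))).differentiableAt (by simp)
    have h2 : HasFDerivAt (fun z : ℂ => c • z) (c • ContinuousLinearMap.id ℝ ℂ) z :=
      (hasFDerivAt_id z).const_smul c
    have h3 : HasFDerivAt (u i) _ z := h1.hasFDerivAt.comp z h2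
    rw [h3.fderiv]
    simp
  have hbrI : ∀ (φ : R4 → F2) i, brI (u i) φ = ∫ t in ball (0 : ℂ) c, brd φ (U (e.symm i).1) t := by
    intro φ i
    have h1 : brI (u i) φ = ∫ z in ball (0 : ℂ) 1, c ^ 2 * brd φ (U (e.symm i).1) (c • z) := by
      refine setIntegral_congr_fun measurableSet_ball fun z hz => ?_
      have hz2 : z ∈ ball (0 : ℂ) 2 := ball_subset_ball (by norm_num) hz
      rw [hder i z hz2, hder i z hz2, brd]
      simp only [map_smul, smul_apply, smul_eq_mul]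
      ring
    rw [h1, integral_const_mul, Measure.setIntegral_comp_smul_of_pos volume _ _ hc0,
      smul_unitBall_of_pos hc0, Complex.finrank_real_complex, smul_eq_mul, mul_inv_cancel_left₀]
    positivity
  have hTfin : ∀ φ, CF φ → tsupport φ ⊆ ball x ε₂ →
      S.T φ = ∑ i, (μ (e.symm i).1 : ℝ) * brI (u i) φ := by
    intro φ hφ hs
    rw [hT₂ φ hφ hs]
    have h1 : ∑ i, (μ (e.symm i).1 : ℝ) * brI (u i) φ =
        ∑ l : ι, (μ l.1 : ℝ) * ∫ t in ball (0 : ℂ) c, brd φ (U l.1) t := by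
      rw [← e.symm.sum_comp]
      exact Finset.sum_congr rfl fun i _ => by rw [hbrI]
    rw [h1, ← Finset.sum_filter]
    exact Finset.sum_subtype _ (fun l => by simp) _
  refine ⟨Fintype.card ι, u, fun i => μ (e.symm i).1, ε₂, ?_, fun i => hP.one_μ _, hTfin⟩
  refine ⟨?_, hε₂, fun i => ⟨?_, ?_⟩, ?_, ?_, ?_, ?_, ?_, ?_⟩
  · -- there is a branch
    by_contra hN
    obtain ⟨φ, hφ, hs, hne⟩ := hx ε₂ hε₂
    apply hne
    rw [hTfin φ hφ hs]
    refine Finset.sum_eq_zero fun i _ => ?_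
    exact absurd (Fin.pos i) hN
  · -- smoothness
    have h1 : ContDiffOn ℝ ∞ (U (e.symm i).1) (ball 0 r) := (hσ _ (hW0 i)).smooth
    exact h1.comp (contDiff_const_smul c).contDiffOn fun z hz => hsubr (h2r (h2c z hz))
  · intro z hz
    rw [hder i z hz, hder i z hz, map_smul]
    congr 1
    exact (hσ _ (hW0 i)).hol _ (hsubr (h2r (h2c z hz)))
  · intro i
    show U (e.symm i).1 (c • (0 : ℂ)) = x
    rw [smul_zero]; exact hU0 _ (hW0 i)
  · intro i z hz h0
    rw [hder i z hz]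
    refine smul_ne_zero hc0.ne' ?_
    exact Cnf.imm hP hb hρ hδ (hσ _ (hW0 i)) (hsubr (h2r (h2c z hz))) (smul_ne_zero hc0.ne' h0)
  · intro i i' z hz z' hz' he
    rcases Cnf.inj' hP hb hρ hδ hσ (hW0 i) (hW0 i') (hsubr (h2r (h2c z hz)))
      (hsubr (h2r (h2c z' hz'))) he with h1 | h1
    · left
      exact ⟨e.symm.injective (Subtype.ext h1.1), smul_right_injective ℂ hc0.ne' h1.2⟩
    · right
      exact ⟨(smul_eq_zero.1 h1.1).resolve_left hc0.ne', (smul_eq_zero.1 h1.2).resolve_left hc0.ne'⟩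
  · intro i z hz h1
    refine hfar₂ _ (hW0 i) _ (hsubr (h2r (h2c z hz))) ?_
    rw [norm_smul, Real.norm_of_nonneg hc0.le]
    nlinarith
  · intro i z hz
    exact hmemS _ (hW0 i) _ (h2r (h2c z hz)) (hcall _ (hW0 i) _ (h2c z hz))
  · -- the branches cover the support
    intro y hy hyS
    by_contra hcon
    push Not at hcon
    have hK : IsCompact (⋃ i, U (e.symm i).1 '' closedBall (0 : ℂ) c) := by
      refine isCompact_iUnion fun i => (isCompact_closedBall _ _).image_of_continuousOn ?_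
      exact (hσ _ (hW0 i)).smooth.continuousOn.mono (closedBall_subset_ball (by linarith))
    have hyK : y ∉ ⋃ i, U (e.symm i).1 '' closedBall (0 : ℂ) c := by
      rw [mem_iUnion]
      rintro ⟨i, t, ht, rfl⟩
      rw [mem_closedBall_zero_iff] at ht
      rcases ht.lt_or_eq with h1 | h1
      · refine hcon i (c⁻¹ • t) ?_ ?_
        · rw [mem_ball_zero_iff, norm_smul, norm_inv, Real.norm_of_nonneg hc0.le,
            inv_mul_lt_iff₀ hc0, mul_one]
          exact h1
        · show U (e.symm i).1 (c • c⁻¹ • t) = _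
          rw [smul_inv_smul₀ hc0.ne']
      · have h2 := hfar₂ _ (hW0 i) t (by rw [mem_ball_zero_iff]; linarith) h1.ge
        exact absurd (mem_ball.1 hy) (not_lt.2 h2)
    have h1 : (⋃ i, U (e.symm i).1 '' closedBall (0 : ℂ) c)ᶜ ∩ ball x ε₂ ∈ 𝓝 y :=
      (hK.isClosed.isOpen_compl.inter isOpen_ball).mem_nhds ⟨hyK, hy⟩
    obtain ⟨ε', hε', hb'⟩ := Metric.mem_nhds_iff.1 h1
    obtain ⟨φ, hφ, hs, hne⟩ := hyS ε' hε'
    apply hne
    rw [hTfin φ hφ (hs.trans (hb'.trans inter_subset_right))]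
    refine Finset.sum_eq_zero fun i _ => ?_
    rw [hbrI, setIntegral_eq_zero_of_forall_eq_zero, mul_zero]
    intro t ht
    have h2 : U (e.symm i).1 t ∉ tsupport φ := by
      intro h3
      exact (hb' (hs h3)).1 (mem_iUnion.2 ⟨i, t, ball_subset_closedBall ht, rfl⟩)
    rw [brd, image_eq_zero_of_notMem_tsupport h2]
    simp

end Vale.Agent.P247L.H620
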