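import Vale.Agent.P247L.CO
import Vale.Agent.P247L.GB
import Vale.Agent.P247L.MMGX
import Vale.Agent.P247L.LSX
import Vale.Agent.P247.H575.BX
import Vale.Agent.P247.H743.JD
import Vale.Agent.P247.H957.Asm6
import Vale.Agent.P247.H324.MG.Top
import Vale.Agent.P247.H683.Q5
import Vale.Agent.P247.H914.OrbFin
import Vale.Agent.P247.H743.Edec
import Vale.Agent.P247.H462.Main

/-!
# P247, local currents: the local structure theorem
-/

namespace Vale.Agent.P247L

open Vale.Agent.P247 Vale.Agent.P247.H574

theorem BX : BX_statement := H575.BX H743.JD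

theorem BXS : H683.BXS_statement := by
  intro D K δ hK hδ
  obtain ⟨C, hC, ε₀, hε₀, h⟩ := BX D K δ hK hδ
  refine ⟨C, hC, ε₀, hε₀, fun ε h1 h2 x₀ v w hv hw hvw => ?_⟩
  obtain ⟨Ξ, h3, h4, h5, h6, h7⟩ := h ε h1 h2 x₀ v w hv hw hvw
  exact ⟨Ξ, h3, fun q hq => (h4 q hq).2, h6⟩

theorem PUI : PUI_statement :=
  H957.Asm.pui (H324.CLU P247.H683.QQ.PUIS H914.ORB) H743.E.EDEC H462.PA

theorem MASS : MASS_statement := H264.MASS

theorem CO : CO_statement := H683.CO BXS

theorem GB : GB_statement := H264.GB BX CO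

theorem MGX : MGX_statement := H899.MGX

/-- The local structure theorem for currents which are closed and integral in an open set. -/
theorem LS : LS_statement := H620.LSX P247.H620.CONF H734.JREG GB MGX PUI

end Vale.Agent.P247L
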