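import Vale.Agent.P247L.Pb2
import Vale.Agent.P247L.LS

/-!
# P247: the local structure of integral currents on a four-manifold
-/

set_option linter.all false

open scoped BigOperators ContDiff Topology Manifold
open Set Filter Metric MeasureTheory

noncomputable section

namespace Vale.Agent.P247L

open Vale.Agent.P204.Mfd
open Vale.Agent.P247.SCY
open Vale.Agent.P247.H74 (R4 Data CForm e)
open Vale.Agent.P247.H574 (F2 Good CF dd Box PD IsPush Brs brI JDisc)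
open Vale.Agent.P247X

variable {X : Type} [Cl4 X] {w : Tri X} {t : LocT w}

theorem z_sm (a : F2) : (0 : ℝ) • a = 0 := by ext1 u; ext1 v; simp
theorem sm_z (r : ℝ) : r • (0 : F2) = 0 := by ext1 u; ext1 v; simp
theorem sm_ad (r : ℝ) (a b : F2) : r • (a + b) = r • a + r • b := by
  ext1 u; ext1 v; simp [mul_add]

/-- a cut-off function in the chart, equal to one on `W` -/
structure Cut (t : LocT w) where
  χ : R4 → ℝ
  W : Set R4
  cont : Continuous χ
  cpt : HasCompactSupport χ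
  sub : tsupport χ ⊆ t.κ.target
  nn : ∀ y, 0 ≤ χ y
  opn : IsOpen W
  one : ∀ y ∈ W, χ y = 1

theorem exists_Cut (t : LocT w) {y : R4} (hy : y ∈ t.κ.target) : ∃ c : Cut t, y ∈ c.W := by
  obtain ⟨r, hr, hb⟩ := Metric.nhds_basis_closedBall.mem_iff.1 (t.κ.open_target.mem_nhds hy)
  let b : ContDiffBump y := ⟨r / 2, r, by positivity, by linarith⟩
  exact ⟨⟨b, ball y (r / 2), b.continuous, b.hasCompactSupport, by rw [b.tsupport_eq]; exact hb,
    fun _ => b.nonneg, isOpen_ball, fun z hz => b.one_of_mem_closedBall (ball_subset_closedBall hz)⟩,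
    mem_ball_self (by positivity)⟩

namespace Cut

variable (c : Cut t)

/-- the cut-off form -/
def sm (φ : R4 → F2) : R4 → F2 := fun y => c.χ y • φ y

theorem W_sub : c.W ⊆ t.κ.target := fun y hy =>
  c.sub (subset_tsupport _ (by rw [Function.mem_support, c.one y hy]; exact one_ne_zero))

theorem sm_zero (φ : R4 → F2) {y : R4} (hy : y ∉ tsupport c.χ) : c.sm φ y = 0 := by
  rw [sm, image_eq_zero_of_notMem_tsupport hy, z_sm]

theorem cont_pb {φ : R4 → F2} (h : CF φ) : Cont (pb t (c.sm φ)) :=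
  P247L.cont_pb t (c.cont.smul h.cont).continuousOn c.cpt c.sub fun _ hy => c.sm_zero φ hy

theorem sm_eq {φ : R4 → F2} (h : ∀ y, y ∉ c.W → φ y = 0) : c.sm φ = φ := by
  funext y
  by_cases hy : y ∈ c.W
  · rw [sm, c.one y hy, one_smul]
  · rw [sm, h y hy, sm_z]

/-- the current in the chart -/
def cur {T : HS.Form X 2 → ℝ} (hT : ICurX w T) : ICur t.D where
  W := c.W
  T := fun φ => T (pb t (c.sm φ))
  add := fun φ ψ hφ hψ => by
    have : c.sm (φ + ψ) = c.sm φ + c.sm ψ := by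
      funext y; simp only [sm, Pi.add_apply, sm_ad]
    rw [this, pb_add]
    exact hT.add _ _ (c.cont_pb hφ) (c.cont_pb hψ)
  smul := fun r φ hφ => by
    have : c.sm (r • φ) = r • c.sm φ := by
      funext y; simp only [sm, Pi.smul_apply, smul_comm r]
    rw [this, pb_smul]
    exact hT.smul _ _ (c.cont_pb hφ)
  closed := fun l hl hc hW => by
    rw [c.sm_eq fun y hy => dd_zero fun h => hy (hW h)]
    obtain ⟨h1, h2⟩ := exact_pb t hl hc (hW.trans c.W_sub)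
    exact hT.closed _ h1 h2
  pos := fun φ hφ hp => hT.pos _ (c.cont_pb hφ) (pb_pos t
    (fun y u => by simp [sm, hφ.alt]) fun y _ u => mul_nonneg (c.nn y) (hp y u))
  int := fun b hb => by
    obtain ⟨ν, h1, h2⟩ := hT.int t b (hb.trans c.W_sub)
    refine ⟨ν, h1, fun f hf hf' hs => ⟨(h2 f hf hf' hs).1, fun φ hφ => ?_⟩⟩
    show T (pb t (c.sm φ)) = _
    rw [c.sm_eq fun y hy => hφ.off y fun h => hy (hb h)]
    exact (h2 f hf hf' hs).2 φ _ hφ (isPb_pb t hφ.cf.alt)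

variable {T : HS.Form X 2 → ℝ} (hT : ICurX w T)

theorem cur_pf {φ : HS.Form X 2} (hφ : Cont φ) {V : Set R4} (hV : V ⊆ c.W)
    (hs : SuppIn φ (t.κ.source ∩ t.κ ⁻¹' V)) :
    CF (pf t φ) ∧ tsupport (pf t φ) ⊆ V ∧ (c.cur hT).T (pf t φ) = T φ := by
  obtain ⟨h1, h2, h3⟩ := cf_pf t hφ inter_subset_left hs
  have h4 : tsupport (pf t φ) ⊆ V := h2.trans (by rintro _ ⟨x, hx, rfl⟩; exact hx.2)
  refine ⟨h1, h4, ?_⟩
  show T (pb t (c.sm (pf t φ))) = T φ
  rw [c.sm_eq fun y hy => image_eq_zero_of_notMem_tsupport fun h => hy (hV (h4 h)), h3]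

theorem mem_supp {x : X} (hx : x ∈ t.κ.source) (hW : t.κ x ∈ c.W) (h : x ∈ suppT T) :
    t.κ x ∈ (c.cur hT).supp := by
  intro ε hε
  obtain ⟨φ, h1, h2, h3⟩ := h (t.κ.source ∩ t.κ ⁻¹' (c.W ∩ ball (t.κ x) ε))
    ((t.κ.isOpen_inter_preimage (c.opn.inter isOpen_ball)).mem_nhds ⟨hx, hW, mem_ball_self hε⟩)
  obtain ⟨e1, e2, e3⟩ := c.cur_pf hT h1 inter_subset_left h2
  exact ⟨_, e1, e2.trans inter_subset_right, by rw [e3]; exact h3⟩

theorem supp_sub {y : R4} (h : y ∈ (c.cur hT).supp) :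
    y ∈ t.κ.target ∧ t.κ.symm y ∈ suppT T := by
  have hy : y ∈ tsupport c.χ := by
    by_contra hn
    obtain ⟨ε, hε, hb⟩ := Metric.isOpen_iff.1 (isClosed_tsupport c.χ).isOpen_compl y hn
    obtain ⟨φ, h1, h2, h3⟩ := h ε hε
    have h4 : c.sm φ = (0 : ℝ) • c.sm φ := by
      funext z
      rw [Pi.smul_apply, z_sm]
      by_cases hz : z ∈ tsupport φ
      · exact c.sm_zero φ (hb (h2 hz))
      · rw [sm, image_eq_zero_of_notMem_tsupport hz, sm_z]
    apply h3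
    show T (pb t (c.sm φ)) = 0
    rw [h4, pb_smul, hT.smul _ _ (c.cont_pb h1), zero_mul]
  refine ⟨c.sub hy, fun U hU => ?_⟩
  obtain ⟨ε, hε, hb⟩ := Metric.mem_nhds_iff.1
    ((t.κ.continuousAt_symm (c.sub hy)).preimage_mem_nhds hU)
  obtain ⟨φ, h1, h2, h3⟩ := h ε hε
  refine ⟨_, c.cont_pb h1, suppIn_pb t (C := tsupport c.χ ∩ tsupport φ)
    (c.cpt.isCompact.inter_right (isClosed_tsupport φ)) (inter_subset_left.trans c.sub)
    (fun z hz => ?_) ?_, h3⟩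
  · by_cases hz' : z ∈ tsupport φ
    · exact c.sm_zero φ fun h => hz ⟨h, hz'⟩
    · rw [sm, image_eq_zero_of_notMem_tsupport hz', sm_z]
  · rintro _ ⟨z, hz, rfl⟩
    exact hb (h2 hz.2)

end Cut

theorem dm_symm (t : LocT w) {u : ℂ → R4} {z : ℂ} (hu : DifferentiableAt ℝ u z)
    (hz : u z ∈ t.κ.target) (a : ℂ) :
    (P247X.dm (t.κ.symm ∘ u) z a : E4) = dki t (u z) (fderiv ℝ u z a) := by
  have h1 := mfderiv_comp (I := 𝓘(ℝ, ℂ)) (I' := 𝓘(ℝ, R4)) (I'' := 𝓡 4) z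
    ((smAt_symm t hz).mdifferentiableAt (by simp)) hu.mdifferentiableAt
  rw [mfderiv_eq_fderiv] at h1
  exact DFunLike.congr_fun h1 a

theorem brX_symm (t : LocT w) {u : ℂ → R4} (hu : ContDiffOn ℝ ∞ u (ball 0 2))
    (ht : ∀ z ∈ ball (0 : ℂ) 2, u z ∈ t.κ.target) (φ : HS.Form X 2) :
    brX (t.κ.symm ∘ u) φ = brI u (pf t φ) := by
  refine setIntegral_congr_fun measurableSet_ball fun z hz => ?_
  have hz' : z ∈ ball (0 : ℂ) 2 := ball_subset_ball (by norm_num) hz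
  have hd := (hu.contDiffAt (isOpen_ball.mem_nhds hz')).differentiableAt (by simp)
  show vl φ (t.κ.symm (u z)) ![(P247X.dm (t.κ.symm ∘ u) z 1 : E4),
    (P247X.dm (t.κ.symm ∘ u) z Complex.I : E4)] = _
  rw [dm_symm t hd (ht z hz'), dm_symm t hd (ht z hz'), pf_apply t φ (ht z hz')]

/-- transfer of branches from the chart to the manifold -/
theorem brsX_of_brs (t : LocT w) {K : Set R4} {K' : Set X} {x : X} (hx : x ∈ t.κ.source) {N : ℕ}
    {u : Fin N → ℂ → R4} {ε : ℝ} (h : Brs t.D K (t.κ x) N u ε)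
    (hK : ∀ y ∈ K, y ∈ t.κ.target ∧ t.κ.symm y ∈ K') {V : Set R4} (hV : IsOpen V)
    (hxV : t.κ x ∈ V) (hK' : ∀ y ∈ t.κ.source, t.κ y ∈ V → y ∈ K' → t.κ y ∈ K) :
    BrsX (Jw w) K' x N (fun l => t.κ.symm ∘ u l)
      (t.κ.source ∩ t.κ ⁻¹' (V ∩ ball (t.κ x) ε)) := by
  have ht : ∀ l, ∀ z ∈ ball (0 : ℂ) 2, u l z ∈ t.κ.target := fun l z hz =>
    (hK _ (h.mem l z hz)).1
  have hd : ∀ l, ∀ z ∈ ball (0 : ℂ) 2, DifferentiableAt ℝ (u l) z := fun l z hz =>
    ((h.disc l).smooth.contDiffAt (isOpen_ball.mem_nhds hz)).differentiableAt (by simp)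
  refine ⟨h.posN, t.κ.isOpen_inter_preimage (hV.inter isOpen_ball),
    ⟨hx, hxV, mem_ball_self h.posε⟩,
    fun l => t.smooth_symm.comp (h.disc l).smooth.contMDiffOn (ht l), fun l z hz => ?_,
    fun l => ?_, fun l z hz hz0 h0 => ?_, fun l l' z hz z' hz' he => ?_, fun l z hz h1 hm => ?_,
    fun l z hz => (hK _ (h.mem l z hz)).2, fun y hy hy' => ?_⟩
  · show (P247X.dm (t.κ.symm ∘ u l) z Complex.I : E4) =
      Jat (Jw w) (t.κ.symm (u l z)) (P247X.dm (t.κ.symm ∘ u l) z 1 : E4)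
    rw [dm_symm t (hd l z hz) (ht l z hz), dm_symm t (hd l z hz) (ht l z hz), (h.disc l).hol z hz]
    exact t.J _ (ht l z hz) _
  · show t.κ.symm (u l 0) = x
    rw [h.zero, t.κ.left_inv hx]
  · have h2 : dki t (u l z) (fderiv ℝ (u l) z 1) = 0 :=
      (dm_symm t (hd l z hz) (ht l z hz) 1).symm.trans h0
    apply h.imm l z hz hz0
    rw [← dk_dki t (ht l z hz) (fderiv ℝ (u l) z 1), h2, map_zero]
  · exact h.inj l l' z hz z' hz' (t.κ.symm.injOn (ht l z hz) (ht l' z' hz') he)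
  · have h2 : t.κ (t.κ.symm (u l z)) ∈ ball (t.κ x) ε := hm.2.2
    rw [t.κ.right_inv (ht l z hz)] at h2
    exact absurd (mem_ball.1 h2) (not_lt.2 (h.far l z hz h1))
  · obtain ⟨l, z, hz, he⟩ := h.cov _ hy.2.2 (hK' y hy.1 hy.2.1 hy')
    refine ⟨l, z, hz, ?_⟩
    show t.κ.symm (u l z) = y
    rw [he, t.κ.left_inv hy.1]

theorem LSXX : P247X.LSX_statement := by
  intro X _ μ hμ w hw T hT x hx
  obtain ⟨t, hxt, -⟩ := TRANS X μ hμ w hw x univ univ_mem
  obtain ⟨c, hc⟩ := exists_Cut t (t.κ.map_source hxt)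
  obtain ⟨N, u, k, ε, hB, hk, hrep⟩ := LS t.D (c.cur hT) (t.κ x) (c.mem_supp hT hxt hc hx)
    (c.opn.mem_nhds hc)
  refine ⟨N, fun l => t.κ.symm ∘ u l, k, _, brsX_of_brs t hxt hB (fun y hy => c.supp_sub hT hy)
    c.opn hc fun y hy hW hy' => c.mem_supp hT hy hW hy', hk, fun φ hφ hs => ?_⟩
  obtain ⟨e1, e2, e3⟩ := c.cur_pf hT hφ inter_subset_left hs
  rw [← e3, hrep _ e1 (e2.trans inter_subset_right)]
  refine Finset.sum_congr rfl fun l _ => ?_
  rw [brX_symm t (hB.disc l).smooth fun z hz => (c.supp_sub hT (hB.mem l z hz)).1]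

end Vale.Agent.P247L
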