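import Vale.Agent.P247L.T2
import Vale.Agent.P247X.Base

/-!
# P247: transplant charts exist
-/

set_option linter.all false

open scoped BigOperators ContDiff Topology Manifold
open Set Filter Metric

noncomputable section

namespace Vale.Agent.P247L

open Vale.Agent.P204 Vale.Agent.P204.T4 Vale.Agent.P204.Mfd Vale.Agent.P247.SCY
open Vale.Agent.P247.H74 (R4 Data CForm e)
open Vale.Agent.P247.H574 (F2 Good w4)
open Vale.Agent.P247X

/-- homotheties -/
def hom (ε : ℝ) (h : ε ≠ 0) : V4 ≃L[ℝ] V4 :=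
  ContinuousLinearEquiv.equivOfInverse (ε • ContinuousLinearMap.id ℝ V4)
    (ε⁻¹ • ContinuousLinearMap.id ℝ V4) (fun v => by simp [smul_smul, h])
    (fun v => by simp [smul_smul, h])

theorem hom_apply (ε : ℝ) (h : ε ≠ 0) (v : V4) : hom ε h v = ε • v := rfl

variable {X : Type} [Cl4 X]

theorem cp_hom (p : Par X) (ε : ℝ) (h : ε ≠ 0) (α : HS.Form X 2) (y : V4) :
    cp (p.precomp (hom ε h)) α y = (ε * ε) • cp p α (ε • y) := by
  apply ext_ev
  intro u v
  have h1 := ev_cp p α (ε • y) (ε • u) (ε • v)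
  rw [ev_smul_left, ev_smul_right] at h1
  rw [ev_cp, Par.precomp_dpsi, ev_smul, mul_assoc, h1]
  rfl

/-- the chart inverse to a parametrisation, on the ball of radius `1 / 4` -/
def parChart (q : Par X) : OpenPartialHomeomorph X R4 where
  toFun := q.inv
  invFun := q.psi
  source := q.psi '' ball 0 (1 / 4)
  target := ball 0 (1 / 4)
  map_source' := by
    rintro _ ⟨y, hy, rfl⟩
    rwa [q.inv_psi]
  map_target' := fun y hy => ⟨y, hy, rfl⟩
  left_inv' := by
    rintro _ ⟨y, -, rfl⟩
    rw [q.inv_psi]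
  right_inv' := fun y _ => q.inv_psi y
  open_source := q.isOpenEmbedding.isOpenMap _ isOpen_ball
  open_target := isOpen_ball
  continuousOn_toFun := q.contMDiffOn_inv.continuousOn.mono (image_subset_range _ _)
  continuousOn_invFun := q.isOpenEmbedding.continuous.continuousOn

theorem dpsi_tam (q : Par X) {A B C : HS.Form X 2} (h : DefAt A B C) (y u : V4) :
    q.dpsi y (app (tam (cp q A y) (cp q B y) (cp q C y)) u) =
      Jat (Jf A B C) (q.psi y) (q.dpsi y u) := by
  obtain ⟨s, hs⟩ := h (q.psi y)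
  have hP : ∀ v, app (P247.SCY.dm q y) v = toE.symm (q.dpsi y v) := fun v => by
    rw [P247.SCY.dm, app_matL]; rfl
  have h1 := tam_pull hs (det_dm_ne q y)
    (fun w => ⟨q.dinv (q.psi y) (toE w), by rw [hP, q.dpsi_dinv, toE.symm_apply_apply]⟩)
    (fun v hv => by
      rw [hP] at hv
      have h2 : q.dpsi y v = 0 := by simpa using congrArg toE hv
      rw [← q.dinv_dpsi y v, h2, map_zero]) u
  rw [cp_cx, cp_cx, cp_cx, Jat_Jf, ← hP, ← h1, hP, toE.apply_symm_apply]

theorem TRANS : TRANS_statement := by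
  intro X _ μ hμ w hw x U hU
  have hw' : HS.Hypersymplectic μ fun i => w ((![2, 0, 1] : Fin 3 → Fin 3) i) :=
    ⟨fun i => hw.smooth _, fun i => hw.closed _, fun x =>
      (hw.posDef x).submatrix (e := (![2, 0, 1] : Fin 3 → Fin 3)) (by decide)⟩
  haveI : Nonempty X := ⟨x⟩
  obtain ⟨p, hp, -, a2, a0, a1⟩ := exists_adapted hw' x
  set T : Fin 3 → L2 := fun j => cp p (w j) 0 with hT
  change pP J0 (T 2) = GX.F0 at a2
  change pM J0 (T 0) = T 0 at a0
  change pM J0 (T 1) = T 1 at a1
  have hdef := defAt hw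
  have hT1 : Def3 1 (T 2) (T 0) (T 1) := by
    obtain ⟨s, hs⟩ := hdef (p.psi 0)
    have h1 := def3_pull hs (det_dm_ne p 0)
    rw [← cp_cx, ← cp_cx, ← cp_cx] at h1
    have h2 := (J0_triple h1 (anti_form a0) (anti_form a1)).1
    intro a b c habc
    rw [one_mul]
    exact (pos_iff_pos_of_mul_pos (h1 a b c habc)).1 h2
  obtain ⟨δ, hδ, hext⟩ := exists_ext hT1 (anti_form a0).2.1 (anti_form a1).2.1
    (by rw [(inv_form a2).2.1]; exact one_pos)
  have hev : ∀ᶠ y in 𝓝 (0 : V4), p.psi y ∈ U ∧ ∀ j, ‖cp p (w j) y - T j‖ ≤ δ := by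
    refine Eventually.and (p.isOpenEmbedding.continuous.continuousAt.eventually_mem (hp ▸ hU))
      (eventually_all.2 fun j => ?_)
    have h1 := (cp_smooth p (hw.smooth j)).continuous.continuousAt (x := 0)
    filter_upwards [h1.eventually_mem (closedBall_mem_nhds _ hδ)] with y hy
    exact mem_closedBall_iff_norm.1 hy
  obtain ⟨ε, hε, hb⟩ := Metric.nhds_basis_closedBall.eventually_iff.1 hev
  have hb' : ∀ y : V4, ‖y‖ ≤ 1 → ε • y ∈ closedBall (0 : V4) ε := fun y hy => by
    rw [mem_closedBall_zero_iff, norm_smul, Real.norm_eq_abs, abs_of_pos hε]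
    exact mul_le_of_le_one_right hε.le hy
  set q := p.precomp (hom ε hε.ne') with hq
  obtain ⟨D, hD, hag⟩ := hext (ε * ε) (by positivity) (fun j => cp q (w j))
    (fun j => cp_smooth q (hw.smooth j)) (fun j => cp_closed q (hw.smooth j) (hw.closed j))
    (fun j y hy => by
      rw [hq, cp_hom, ← smul_sub, norm_smul, Real.norm_eq_abs, abs_of_pos (by positivity)]
      exact mul_le_mul_of_nonneg_left ((hb (hb' y hy)).2 j) (by positivity))
  refine ⟨{ κ := parChart q
            smooth := q.contMDiffOn_inv.mono (image_subset_range _ _)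
            smooth_symm := q.contMDiff_psi.contMDiffOn
            small := Subset.rfl
            D := D
            good := hD
            eta := fun j y hy u v => ?_
            om := fun y hy u v => ?_
            J := fun y hy u => ?_ }, ⟨0, mem_ball_self (by norm_num), ?_⟩, ?_⟩
  · rw [(hag y (mem_ball_zero_iff.1 hy)).1, ev_cp]; rfl
  · rw [(hag y (mem_ball_zero_iff.1 hy)).2.1, ev_cp]; rfl
  · rw [(hag y (mem_ball_zero_iff.1 hy)).2.2]
    exact dpsi_tam q hdef y u
  · rw [hq, Par.precomp_psi, map_zero, hp]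
  · rintro _ ⟨y, hy, rfl⟩
    exact (hb (hb' y ((mem_ball_zero_iff.1 hy).le.trans (by norm_num)))).1

end Vale.Agent.P247L
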