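import Vale.Agent.P247L.Defs
import Vale.Agent.P247.H683.Mass

/-!
# P247, local currents: the lower density bound (port of `H683`)
-/

open scoped ContDiff Topology
open Set MeasureTheory Filter Metric

noncomputable section

namespace Vale.Agent.P247L.H683

open Vale.Agent.P247.H74 Vale.Agent.P247.H574 Vale.Agent.P247.H683

export Vale.Agent.P247.H683 (sq inv ext)

section

variable {D : Data} (S : ICur D)

theorem T_zero : S.T 0 = 0 := by
  have h : CF (0 : R4 → F2) := ⟨continuous_zero, HasCompactSupport.zero, fun x u => rfl⟩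
  have h1 := S.smul 0 0 h
  have h2 : (0 : ℝ) • (0 : R4 → F2) = 0 := by
    funext x
    exact f2_ext fun u v => zero_mul _
  rw [h2, zero_mul] at h1
  exact h1

theorem T_mono {φ ψ : R4 → F2} (h : CF φ) (h' : CF ψ)
    (hle : ∀ x u, φ x u (D.J x u) ≤ ψ x u (D.J x u)) : S.T φ ≤ S.T ψ := by
  have h1 := cf_smul (-1) h
  have := S.pos (ψ + (-1 : ℝ) • φ) (cf_add h' h1) fun x u => by
    show 0 ≤ (ψ x + (-1 : ℝ) • φ x) u (D.J x u)
    rw [add_ap, smul_ap]
    linarith [hle x u]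
  rw [S.add _ _ h' h1, S.smul _ _ h] at this
  linarith

/-- domination by the mass measure -/
theorem dom (D : Data) : ∃ C > 0, ∀ (S : ICur D) (μ : Measure R4), IsMass S μ →
    ∀ φ, CF φ → |S.T φ| ≤ C * ∫ x, ‖φ x‖ ∂μ := by
  obtain ⟨c, hc, hct⟩ := K2A.tame_bound D
  obtain ⟨B, hB1, hB⟩ := K2H.exists_bound D
  have hB0 : 0 < B := by linarith
  refine ⟨B / c, by positivity, fun S μ hμ φ hφ => ?_⟩
  have hn : Continuous fun x => ‖φ x‖ := norm_cont hφ.cont
  have hnc : HasCompactSupport fun x => ‖φ x‖ := supp_norm hφ.supp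
  have hF : CF fun x => ‖φ x‖ • cf2 D.om x := cf_mul hn hnc (cf2_cont D.om) (cf2_self D.om)
  have hT : S.T (fun x => ‖φ x‖ • cf2 D.om x) = ∫ x, ‖φ x‖ ∂μ := hμ.2 _ hn hnc
  have hF' : CF ((B / c) • fun x => ‖φ x‖ • cf2 D.om x) := cf_smul _ hF
  have hT' : S.T ((B / c) • fun x => ‖φ x‖ • cf2 D.om x) = B / c * ∫ x, ‖φ x‖ ∂μ := by
    rw [S.smul _ _ hF, hT]
  have key : ∀ x u, |φ x u (D.J x u)| ≤
      ((B / c) • fun x => ‖φ x‖ • cf2 D.om x) x u (D.J x u) := by
    intro x u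
    have h1 : |φ x u (D.J x u)| ≤ ‖φ x‖ * (B * ‖u‖ ^ 2) := by
      rw [← Real.norm_eq_abs]
      refine ((φ x).le_opNorm₂ u (D.J x u)).trans ?_
      have h2 : ‖D.J x u‖ ≤ B * ‖u‖ := ((D.J x).le_opNorm u).trans
        (mul_le_mul_of_nonneg_right (hB x).1 (norm_nonneg _))
      calc ‖φ x‖ * ‖u‖ * ‖D.J x u‖ ≤ ‖φ x‖ * ‖u‖ * (B * ‖u‖) :=
            mul_le_mul_of_nonneg_left h2 (by positivity)
        _ = ‖φ x‖ * (B * ‖u‖ ^ 2) := by ring
    refine h1.trans ?_
    show _ ≤ ((B / c) • (‖φ x‖ • cf2 D.om x)) u (D.J x u)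
    rw [smul_ap, smul_ap, cf2_apply]
    have h3 := hct x u
    have h4 : B * ‖u‖ ^ 2 ≤ B / c * D.om.val x u (D.J x u) := by
      rw [div_mul_eq_mul_div, le_div_iff₀ hc]
      nlinarith
    calc ‖φ x‖ * (B * ‖u‖ ^ 2) ≤ ‖φ x‖ * (B / c * D.om.val x u (D.J x u)) :=
          mul_le_mul_of_nonneg_left h4 (f2_nonneg _)
      _ = B / c * (‖φ x‖ * D.om.val x u (D.J x u)) := by ring
  rw [abs_le]
  constructor
  · have h1 := T_mono S (cf_smul (-1) hF') hφ fun x u => by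
      have := (abs_le.1 (key x u)).1
      show ((-1 : ℝ) • ((B / c) • fun x => ‖φ x‖ • cf2 D.om x) x) u (D.J x u) ≤ _
      rw [smul_ap]
      linarith
    rw [S.smul _ _ hF', hT'] at h1
    linarith
  · have h1 := T_mono S hφ hF' fun x u => (le_abs_self _).trans (key x u)
    rwa [hT'] at h1

/-- points of the support have positive mass -/
theorem mass_pos {S : ICur D} {μ : Measure R4} (hμ : IsMass S μ) {x : R4} (hx : x ∈ S.supp)
    {ε : ℝ} (hε : 0 < ε) : 0 < μ (ball x ε) := by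
  obtain ⟨C, hC, h⟩ := dom D
  obtain ⟨φ, hφ, hs, hT⟩ := hx ε hε
  rw [pos_iff_ne_zero]
  intro h0
  apply hT
  have h1 := h S μ hμ φ hφ
  have h2 : ∫ x, ‖φ x‖ ∂μ = 0 := by
    rw [← setIntegral_eq_integral_of_forall_compl_eq_zero (s := ball x ε)
      (fun y hy => by
        have : y ∉ tsupport φ := fun h => hy (hs h)
        rw [image_eq_zero_of_notMem_tsupport this]
        exact f2_norm_zero)]
    exact setIntegral_measure_zero _ h0
  rw [h2, mul_zero] at h1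
  exact abs_eq_zero.1 (le_antisymm h1 (abs_nonneg _))

end

/-- bound for the vertical part -/
theorem closed_bound {D : Data} (b : Box D) {S : ICur D} (hW : b.Θ '' PD 2 ⊆ S.W)
    {μ : Measure R4} {Cd : ℝ} (hCd : 0 ≤ Cd)
    (hdom : ∀ φ, CF φ → |S.T φ| ≤ Cd * ∫ x, ‖φ x‖ ∂μ)
    {M : ℝ} (hM : 0 ≤ M) (lo : ∀ p ∈ PD 2, ∀ q ∈ PD 2, ‖p - q‖ ≤ M * ‖b.Θ p - b.Θ q‖)
    {G : ℂ × ℂ → ℝ} (hG : ContDiff ℝ ∞ G) (hc : HasCompactSupport G)
    (hs : tsupport G ⊆ PD 2) {N : ℝ} (hN : 0 ≤ N) (hGN : ∀ p w, |fderiv ℝ G p (0, w)| ≤ N * ‖w‖)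
    {V : Set R4} (hV : MeasurableSet V) (hVf : μ V ≠ ⊤) (hGV : b.Θ '' tsupport G ⊆ V) (e : ℂ)
    (he : ‖e‖ ≤ 1) :
    |S.T (pf b fun p => fderiv ℝ G p (e, 0))| ≤ Cd * (4 * N * M ^ 2 * μ.real V) := by
  set g : ℂ × ℂ → ℝ := fun p => fderiv ℝ G p (e, 0) with hg
  have hgc : Continuous g := (hG.continuous_fderiv (by simp)).clm_apply continuous_const
  have hgs : tsupport g ⊆ tsupport G := by
    refine closure_minimal (fun p hp => ?_) (isClosed_tsupport G)
    by_contra h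
    apply hp
    rw [hg]
    simp only
    rw [fderiv_of_notMem_tsupport ℝ h]
    rfl
  have hgcs : HasCompactSupport g := hc.of_isClosed_subset (isClosed_tsupport g) hgs
  have hpf : CF (pf b g) := pf_cf b hgc hgcs (hgs.trans hs)
  have hl := lf_smooth b hG hc hs e
  have hlc := lf_comp b hc hs e
  have hlW : tsupport (lf b G e) ⊆ S.W := by
    refine (closure_minimal (fun x hx => ?_) (K_comp b hc hs).isClosed).trans
      ((image_mono hs).trans hW)
    by_contra h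
    exact hx (by rw [lf, ext_K b h, zero_smul])
  have hdl : CF (dd (lf b G e)) := by
    refine ⟨?_, ?_, fun x u => ?_⟩
    · refine f2_cont fun u v => ?_
      have h1 : Continuous (fderiv ℝ (lf b G e)) := hl.continuous_fderiv (by simp)
      exact (ap_cont h1 u v).sub (ap_cont h1 v u)
    · exact HasCompactSupport.intro (K_comp b hc hs) fun x hx =>
        f2_ext fun u v => dd_off b hc hs e hx u v
    · exact sub_self _
  have hvt : CF (dd (lf b G e) + (-1 : ℝ) • pf b g) := cf_add hdl (cf_smul _ hpf)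
  have hT : S.T (dd (lf b G e) + (-1 : ℝ) • pf b g) = - S.T (pf b g) := by
    rw [S.add _ _ hdl (cf_smul _ hpf), S.smul _ _ hpf, S.closed _ hl hlc hlW]
    ring
  have hbd : ∀ x, ‖(dd (lf b G e) + (-1 : ℝ) • pf b g) x‖ ≤
      V.indicator (fun _ => 4 * N * M ^ 2) x := by
    intro x
    by_cases hx : x ∈ b.Θ '' tsupport G
    · rw [indicator_of_mem (hGV hx)]
      have hx2 : x ∈ b.Θ '' PD 2 := image_mono hs hx
      refine f2_norm_le (by positivity) fun u v => ?_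
      show |(dd (lf b G e) x + (-1 : ℝ) • pf b g x) u v| ≤ _
      rw [add_ap, smul_ap, dd_on b hG e hx2, pf_ap, ext_on b g hx2, hg]
      simp only
      set p := inv b x
      set U := fderiv ℝ (inv b) x u with hU
      set W := fderiv ℝ (inv b) x v with hW
      have hUP : P1 b x u = U.1 := rfl
      have hWP : P1 b x v = W.1 := rfl
      rw [hUP, hWP, ar_ap, ar_ap]
      have hUn : ‖U‖ ≤ M * ‖u‖ := (ContinuousLinearMap.le_opNorm _ _).trans
        (mul_le_mul_of_nonneg_right (dinv_bound b hM lo hx2) (norm_nonneg _))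
      have hWn : ‖W‖ ≤ M * ‖v‖ := (ContinuousLinearMap.le_opNorm _ _).trans
        (mul_le_mul_of_nonneg_right (dinv_bound b hM lo hx2) (norm_nonneg _))
      have hdec : ∀ q : ℂ × ℂ, fderiv ℝ G p q = fderiv ℝ G p (1, 0) * q.1.re +
          fderiv ℝ G p (Complex.I, 0) * q.1.im + fderiv ℝ G p (0, q.2) := by
        intro q
        have : q = q.1.re • ((1 : ℂ), (0 : ℂ)) + q.1.im • (Complex.I, (0 : ℂ)) + (0, q.2) := by
          ext <;> simp
        conv_lhs => rw [this]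
        rw [map_add, map_add, map_smul, map_smul, smul_eq_mul, smul_eq_mul]
        ring
      rw [hdec U, hdec W, hdec (e, 0)]
      have h0 : fderiv ℝ G p (0, (0 : ℂ)) = 0 := by
        have : ((0 : ℂ), (0 : ℂ)) = 0 := rfl
        rw [this, map_zero]
      simp only [h0]
      have hid : (fderiv ℝ G p (1, 0) * U.1.re + fderiv ℝ G p (Complex.I, 0) * U.1.im +
            fderiv ℝ G p (0, U.2)) * (e.re * W.1.im - e.im * W.1.re) -
          (fderiv ℝ G p (1, 0) * W.1.re + fderiv ℝ G p (Complex.I, 0) * W.1.im +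
            fderiv ℝ G p (0, W.2)) * (e.re * U.1.im - e.im * U.1.re) +
          -1 * ((fderiv ℝ G p (1, 0) * e.re + fderiv ℝ G p (Complex.I, 0) * e.im + 0) *
            (U.1.re * W.1.im - U.1.im * W.1.re)) =
          fderiv ℝ G p (0, U.2) * (e.re * W.1.im - e.im * W.1.re) -
            fderiv ℝ G p (0, W.2) * (e.re * U.1.im - e.im * U.1.re) := by ring
      rw [hid]
      have har : ∀ w : ℂ, |e.re * w.im - e.im * w.re| ≤ 2 * ‖w‖ := by
        intro w
        have h1 := Complex.abs_re_le_norm e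
        have h2 := Complex.abs_im_le_norm e
        have h3 := Complex.abs_re_le_norm w
        have h4 := Complex.abs_im_le_norm w
        calc |e.re * w.im - e.im * w.re| ≤ |e.re * w.im| + |e.im * w.re| := abs_sub _ _
          _ = |e.re| * |w.im| + |e.im| * |w.re| := by rw [abs_mul, abs_mul]
          _ ≤ 1 * ‖w‖ + 1 * ‖w‖ := by
            gcongr
            · exact h1.trans he
            · exact h2.trans he
          _ = 2 * ‖w‖ := by ring
      have g1 : |fderiv ℝ G p (0, U.2)| ≤ N * ‖U‖ :=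
        (hGN p U.2).trans (mul_le_mul_of_nonneg_left (norm_snd_le U) hN)
      have g2 : |fderiv ℝ G p (0, W.2)| ≤ N * ‖W‖ :=
        (hGN p W.2).trans (mul_le_mul_of_nonneg_left (norm_snd_le W) hN)
      have g3 : |e.re * W.1.im - e.im * W.1.re| ≤ 2 * ‖W‖ :=
        (har W.1).trans (mul_le_mul_of_nonneg_left (norm_fst_le W) (by norm_num))
      have g4 : |e.re * U.1.im - e.im * U.1.re| ≤ 2 * ‖U‖ :=
        (har U.1).trans (mul_le_mul_of_nonneg_left (norm_fst_le U) (by norm_num))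
      calc _ ≤ |fderiv ℝ G p (0, U.2) * (e.re * W.1.im - e.im * W.1.re)| +
            |fderiv ℝ G p (0, W.2) * (e.re * U.1.im - e.im * U.1.re)| := abs_sub _ _
        _ = |fderiv ℝ G p (0, U.2)| * |e.re * W.1.im - e.im * W.1.re| +
            |fderiv ℝ G p (0, W.2)| * |e.re * U.1.im - e.im * U.1.re| := by
              rw [abs_mul, abs_mul]
        _ ≤ (N * ‖U‖) * (2 * ‖W‖) + (N * ‖W‖) * (2 * ‖U‖) := by gcongr
        _ = 4 * N * (‖U‖ * ‖W‖) := by ring
        _ ≤ 4 * N * ((M * ‖u‖) * (M * ‖v‖)) := by gcongr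
        _ = 4 * N * M ^ 2 * ‖u‖ * ‖v‖ := by ring
    · have h0 : (dd (lf b G e) + (-1 : ℝ) • pf b g) x = 0 := by
        refine f2_ext fun u v => ?_
        show (dd (lf b G e) x + (-1 : ℝ) • pf b g x) u v = 0
        have hx' : x ∉ b.Θ '' tsupport g := fun h => hx (image_mono hgs h)
        rw [add_ap, smul_ap, dd_off b hc hs e hx, pf_ap, ext_K b hx']
        ring
      rw [h0, f2_norm_zero]
      exact indicator_nonneg (fun _ _ => by positivity) x
  have h1 := hdom _ hvt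
  rw [hT, abs_neg] at h1
  refine h1.trans (mul_le_mul_of_nonneg_left ?_ hCd)
  have h2 : Integrable (V.indicator fun _ => 4 * N * M ^ 2) μ := by
    rw [integrable_indicator_iff hV]
    exact integrableOn_const hVf
  calc _ ≤ ∫ x, V.indicator (fun _ => 4 * N * M ^ 2) x ∂μ :=
        integral_mono_of_nonneg (Eventually.of_forall fun x => f2_nonneg _) h2
          (Eventually.of_forall hbd)
    _ = 4 * N * M ^ 2 * μ.real V := by
        rw [integral_indicator hV, setIntegral_const, smul_eq_mul]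
        ring

/-- the gradient of the slice function -/
theorem grad_slice {D : Data} {S : ICur D} {μ : Measure R4} {Cd : ℝ} (hCd : 0 ≤ Cd)
    (hdom : ∀ φ, CF φ → |S.T φ| ≤ Cd * ∫ x, ‖φ x‖ ∂μ) (b : Box D) (hW : b.Θ '' PD 2 ⊆ S.W)
    {M : ℝ} (hM : 0 ≤ M) (lo : ∀ p ∈ PD 2, ∀ q ∈ PD 2, ‖p - q‖ ≤ M * ‖b.Θ p - b.Θ q‖)
    {V : Set R4} (hV : MeasurableSet V) (hVf : μ V ≠ ⊤) (hPV : b.Θ '' PD 1 ⊆ V)
    {N : ℝ} (hN : 0 < N) (hNc : ∀ z w, |fderiv ℝ c2 z w| ≤ N * ‖w‖)
    {ν : ℂ → Measure ℂ}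
    (hint : ∀ f : ℂ × ℂ → ℝ, Continuous f → HasCompactSupport f → tsupport f ⊆ PD 1 →
      IntegrableOn (fun z => ∫ y, f (z, y) ∂(ν z)) (ball 0 1) ∧
      ∀ φ, IsPush b f φ → S.T φ = ∫ z in ball (0 : ℂ) 1, ∫ y, f (z, y) ∂(ν z))
    {e : ℂ} (he : ‖e‖ ≤ 1) {e' : ℝ × ℝ} (hee : Lc e = (2 : ℝ) • e') :
    GradLe (fun q => ∫ y, tp c3 c2 ((⟨q.1 / 2, q.2 / 2⟩ : ℂ), y) ∂(ν ⟨q.1 / 2, q.2 / 2⟩)) e'
      (2 * (Cd * (4 * N * M ^ 2 * μ.real V))) := by
  intro ψ hψ hψc hψs hψ1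
  set φ : ℂ → ℝ := fun z => ψ (Lc z) with hφ
  have hφs : ContDiff ℝ ∞ φ := hψ.comp Lc.contDiff
  have hφ0 : ∀ z : ℂ, 3 / 4 ≤ ‖z‖ → φ =ᶠ[𝓝 z] fun _ => 0 := by
    intro z hz
    have h1 : Lc z ∉ tsupport ψ := by
      intro h
      have h2 := hψs h
      rw [Sq, mem_prod, Lc_ap] at h2
      have h3 : ‖z‖ ^ 2 < (3 / 4) ^ 2 := by
        rw [Complex.sq_norm, Complex.normSq_apply]
        have h4 := h2.1
        have h5 := h2.2
        simp only [mem_Ioo] at h4 h5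
        nlinarith [h4.1, h4.2, h5.1, h5.2]
      have := abs_lt_of_sq_lt_sq h3 (by norm_num)
      rw [abs_norm] at this
      linarith
    have h2 : ∀ᶠ q in 𝓝 (Lc z), ψ q = 0 := by
      filter_upwards [(isClosed_tsupport ψ).isOpen_compl.mem_nhds h1] with q hq
      exact image_eq_zero_of_notMem_tsupport hq
    exact Lc.continuous.continuousAt.eventually h2
  have hφd : ∀ z : ℂ, 3 / 4 ≤ ‖z‖ → fderiv ℝ φ z = 0 := fun z hz => by
    rw [(hφ0 z hz).fderiv_eq]
    exact (hasFDerivAt_const _ _).fderiv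
  have hφ00 : ∀ z : ℂ, 7 / 8 ≤ ‖z‖ → φ z = 0 := fun z hz =>
    (hφ0 z (by linarith)).self_of_nhds
  set G : ℂ × ℂ → ℝ := tp φ c2 with hG
  have hGs : ContDiff ℝ ∞ G := (hφs.comp contDiff_fst).mul (c2.contDiff.comp contDiff_snd)
  have hGd : ∀ p q : ℂ × ℂ, fderiv ℝ G p q = fderiv ℝ φ p.1 q.1 * c2 p.2 +
      φ p.1 * fderiv ℝ c2 p.2 q.2 := by
    intro p q
    have h1 : HasFDerivAt (fun p : ℂ × ℂ => φ p.1)
        ((fderiv ℝ φ p.1).comp (ContinuousLinearMap.fst ℝ ℂ ℂ)) p :=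
      ((hφs.differentiable (by simp)) p.1).hasFDerivAt.comp p hasFDerivAt_fst
    have h2 : HasFDerivAt (fun p : ℂ × ℂ => c2 p.2)
        ((fderiv ℝ c2 p.2).comp (ContinuousLinearMap.snd ℝ ℂ ℂ)) p :=
      (((c2.contDiff (n := 1)).differentiable (by simp)) p.2).hasFDerivAt.comp p hasFDerivAt_snd
    have h3 := h1.mul h2
    have h4 : fderiv ℝ G p = _ := h3.fderiv
    rw [h4]
    simp
    ring
  have hGc := tp_comp hφ00 c2_off
  have hG1 : tsupport G ⊆ PD 1 := (tp_supp hφ00 c2_off).trans sub_PD1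
  have hcb := closed_bound b hW hCd hdom hM lo hGs hGc (hG1.trans PD12) hN.le
    (fun p w => by
      rw [hGd]
      simp only [map_zero, zero_mul, zero_add]
      rw [abs_mul]
      calc |φ p.1| * |fderiv ℝ c2 p.2 w| ≤ 1 * (N * ‖w‖) := by
            gcongr
            · exact hψ1 _
            · exact hNc _ _
        _ = N * ‖w‖ := one_mul _) hV hVf ((image_mono hG1).trans hPV) e he
  set f : ℂ × ℂ → ℝ := fun p => fderiv ℝ G p (e, 0) with hf
  have hftp : f = tp (fun z => fderiv ℝ φ z e) c2 := by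
    funext p
    rw [hf]
    simp only [hGd, map_zero, mul_zero, add_zero, tp]
  have hfd0 : ∀ z : ℂ, 7 / 8 ≤ ‖z‖ → fderiv ℝ φ z e = 0 := fun z hz => by
    rw [hφd z (by linarith)]; rfl
  have hfc : Continuous f := (hGs.continuous_fderiv (by simp)).clm_apply continuous_const
  have hfcs : HasCompactSupport f := by rw [hftp]; exact tp_comp hfd0 c2_off
  have hfs : tsupport f ⊆ PD 1 := by rw [hftp]; exact (tp_supp hfd0 c2_off).trans sub_PD1
  have hT := (hint f hfc hfcs hfs).2 _ (pf_push b hfc hfcs (hfs.trans PD12))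
  rw [int_sq]
  have hTe : 4 * ∫ z : ℂ, (fun q : ℝ × ℝ => (∫ y, tp c3 c2 ((⟨q.1 / 2, q.2 / 2⟩ : ℂ), y)
      ∂(ν ⟨q.1 / 2, q.2 / 2⟩)) * fderiv ℝ ψ q e') (2 * z.re, 2 * z.im) = 2 * S.T (pf b f) := by
    rw [hT, setIntegral_eq_integral_of_forall_compl_eq_zero]
    · rw [← integral_const_mul, ← integral_const_mul]
      refine integral_congr_ae (Eventually.of_forall fun z => ?_)
      have hz : (⟨2 * z.re / 2, 2 * z.im / 2⟩ : ℂ) = z := by
        apply Complex.ext <;> simp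
      simp only [hz]
      have hd : fderiv ℝ φ z e = 2 * fderiv ℝ ψ (2 * z.re, 2 * z.im) e' := by
        have h1 : HasFDerivAt φ ((fderiv ℝ ψ (Lc z)).comp Lc) z :=
          ((hψ.differentiable (by simp)) (Lc z)).hasFDerivAt.comp z Lc.hasFDerivAt
        rw [h1.fderiv, ContinuousLinearMap.comp_apply, hee, map_smul, smul_eq_mul, Lc_ap]
      rw [hftp, slice_tp, slice_tp, hd]
      by_cases hz3 : ‖z‖ ≤ 3 / 4
      · rw [bump_on c3 hz3]
        ring
      · have h0 : fderiv ℝ φ z e = 0 := by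
          rw [hφd z (not_le.1 hz3).le]; rfl
        have h1 : fderiv ℝ ψ (2 * z.re, 2 * z.im) e' = 0 := by linarith
        rw [h1]
        ring
    · intro z hz
      rw [mem_ball_zero_iff, not_lt] at hz
      rw [hftp, slice_tp, hfd0 z (by linarith), zero_mul]
  rw [hTe, abs_mul, abs_two]
  exact mul_le_mul_of_nonneg_left hcb (by norm_num)

/-- the main inequality -/
theorem core {Cd : ℝ} (hCd : 0 ≤ Cd) : ∃ C₁ > 0, ∀ {D : Data} {S : ICur D} {μ : Measure R4}
    (_ : ∀ φ, CF φ → |S.T φ| ≤ Cd * ∫ x, ‖φ x‖ ∂μ) (b : Box D) (_ : b.Θ '' PD 2 ⊆ S.W)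
    {M : ℝ} (_ : 0 ≤ M) (_ : ∀ p ∈ PD 2, ∀ q ∈ PD 2, ‖p - q‖ ≤ M * ‖b.Θ p - b.Θ q‖)
    {V : Set R4} (_ : MeasurableSet V) (_ : μ V ≠ ⊤) (_ : b.Θ '' PD 1 ⊆ V),
    S.T (pf b f2) ≤ (C₁ * (M ^ 2 * μ.real V)) ^ 2 := by
  obtain ⟨N, hN, hNc⟩ := nrm_Dc
  refine ⟨8 * Cd + 8 * Cd * N + 1, by positivity, 
    fun {D} {S} {μ} hdom b hW {M} hM lo {V} hV hVf hPV => ?_⟩
  obtain ⟨ν, hν, hint⟩ := S.int b hW
  have hg1 := grad_slice hCd hdom b hW hM lo hV hVf hPV hN hNc hint (e := 1) (e' := (1, 0))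
    (by simp) (by rw [Lc_ap]; simp)
  have hg2 := grad_slice hCd hdom b hW hM lo hV hVf hPV hN hNc hint (e := Complex.I) (e' := (0, 1))
    (by simp) (by rw [Lc_ap]; simp)
  set F : ℂ → ℝ := fun z => ∫ y, tp c3 c2 (z, y) ∂(ν z) with hF
  have hfc : Continuous (tp c3 c2) := (c3.continuous.comp continuous_fst).mul
    (c2.continuous.comp continuous_snd)
  have hfcs : HasCompactSupport (tp c3 c2) := tp_comp c3_off c2_off
  have hfs : tsupport (tp c3 c2) ⊆ PD 1 := (tp_supp c3_off c2_off).trans sub_PD1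
  have hF0 : ∀ z ∉ ball (0 : ℂ) 1, F z = 0 := by
    intro z hz
    rw [mem_ball_zero_iff, not_lt] at hz
    rw [hF]
    simp only
    rw [slice_tp, c3_off z (by linarith), zero_mul]
  have hFnn : ∀ z, 0 ≤ F z := fun z => integral_nonneg fun y => mul_nonneg c3.nonneg c2.nonneg
  have hFint : Integrable F := by
    have h1 := (hint _ hfc hfcs hfs).1
    refine (integrableOn_iff_integrable_of_support_subset ?_).1 h1
    intro z hz
    by_contra h
    exact hz (hF0 z h)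
  have hFT : ∫ z, F z = S.T (pf b (tp c3 c2)) := by
    rw [(hint _ hfc hfcs hfs).2 _ (pf_push b hfc hfcs (hfs.trans PD12)),
      setIntegral_eq_integral_of_forall_compl_eq_zero hF0]
  have hFb : ∫ z, F z ≤ Cd * (2 * M ^ 2 * μ.real V) := by
    rw [hFT]
    refine (le_abs_self _).trans ((hdom _ (pf_cf b hfc hfcs (hfs.trans PD12))).trans ?_)
    refine mul_le_mul_of_nonneg_left ?_ hCd
    have h2 : Integrable (V.indicator fun _ => 2 * M ^ 2) μ := by
      rw [integrable_indicator_iff hV]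
      exact integrableOn_const hVf
    calc _ ≤ ∫ x, V.indicator (fun _ => 2 * M ^ 2) x ∂μ :=
          integral_mono_of_nonneg (Eventually.of_forall fun x => f2_nonneg _) h2
            (Eventually.of_forall (pf_norm b hM lo (hfs.trans PD12) (fun p => by
              rw [tp, abs_mul, abs_of_nonneg c3.nonneg, abs_of_nonneg c2.nonneg]
              exact mul_le_one₀ c3.le_one c2.nonneg c2.le_one) ((image_mono hfs).trans hPV)))
      _ = 2 * M ^ 2 * μ.real V := by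
          rw [integral_indicator hV, setIntegral_const, smul_eq_mul]
          ring
  set g : ℝ × ℝ → ℝ := fun q => F (⟨q.1 / 2, q.2 / 2⟩ : ℂ) with hg
  have hgint : Integrable g := integrable_sq hFint
  have hre : ∀ z : ℂ, (⟨2 * z.re / 2, 2 * z.im / 2⟩ : ℂ) = z := fun z => by
    apply Complex.ext <;> simp
  have hgab : ∫ q, |g q| = 4 * ∫ z, F z := by
    rw [int_sq]
    congr 1
    refine integral_congr_ae (Eventually.of_forall fun z => ?_)
    simp only [hg, hre]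
    exact abs_of_nonneg (hFnn z)
  have hpl := planar hgint hg1 hg2
  set B : ℝ := (∫ x, |g x|) + 2 * (Cd * (4 * N * M ^ 2 * μ.real V)) with hB
  have hmr : 0 ≤ μ.real V := measureReal_nonneg
  have hB0 : 0 ≤ B := by
    have : 0 ≤ ∫ x, |g x| := integral_nonneg fun _ => abs_nonneg _
    positivity
  have hB1 : B ≤ (8 * Cd + 8 * Cd * N + 1) * (M ^ 2 * μ.real V) := by
    rw [hB, hgab]
    have : 0 ≤ M ^ 2 * μ.real V := by positivity
    nlinarith
  -- square integrability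
  have hmsq : MeasurableSet sq := measurableSet_Icc.prod measurableSet_Icc
  have hgsm : AEStronglyMeasurable (fun q => g q ^ 2) (volume.restrict sq) :=
    (hgint.aestronglyMeasurable.pow 2).restrict
  have hg2i : IntegrableOn (fun q => g q ^ 2) sq := by
    refine ⟨hgsm, ?_⟩
    rw [hasFiniteIntegral_iff_ofReal (Eventually.of_forall fun q => sq_nonneg _)]
    exact hpl.trans_lt ENNReal.ofReal_lt_top
  have hg2b : ∫ q in sq, g q ^ 2 ≤ B ^ 2 := by
    rw [integral_eq_lintegral_of_nonneg_ae (Eventually.of_forall fun q => sq_nonneg _) hgsm]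
    exact ENNReal.toReal_le_of_le_ofReal (by positivity) hpl
  set H : ℝ × ℝ → ℝ := sq.indicator fun q => g q ^ 2 with hH
  have hHi : Integrable H := (integrable_indicator_iff hmsq).2 hg2i
  have hHb : ∫ q, H q ≤ B ^ 2 := by
    rw [hH, integral_indicator hmsq]
    exact hg2b
  have hHnn : ∀ q, 0 ≤ H q := fun q => indicator_nonneg (fun _ _ => sq_nonneg _) q
  have hHz := integrable_sq' hHi
  rw [int_sq] at hHb
  -- the slice function
  have hT2 := (hint _ f2_cont' f2_comp f2_supp)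
  have hT2' := hT2.2 _ (pf_push b f2_cont' f2_comp (f2_supp.trans PD12))
  rw [hT2']
  have hle : ∫ z in ball (0 : ℂ) 1, ∫ y, f2 (z, y) ∂(ν z) ≤
      ∫ z in ball (0 : ℂ) 1, H (2 * z.re, 2 * z.im) := by
    refine integral_mono_ae hT2.1 hHz.integrableOn ?_
    filter_upwards [hν] with z hz
    rw [f2, slice_tp]
    by_cases hz4 : ‖z‖ ≤ 1 / 4
    · have h1 : ((2 * z.re, 2 * z.im) : ℝ × ℝ) ∈ sq := by
        rw [sq, mem_prod]
        have h2 := abs_le.1 ((Complex.abs_re_le_norm z).trans hz4)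
        have h3 := abs_le.1 ((Complex.abs_im_le_norm z).trans hz4)
        constructor <;> constructor <;> simp only <;> linarith [h2.1, h2.2, h3.1, h3.2]
      rw [hH, indicator_of_mem h1]
      simp only [hg, hre, hF]
      rw [slice_tp, bump_on c3 (hz4.trans (by
        show (1 / 4 : ℝ) ≤ 3 / 4
        norm_num)), one_mul]
      have h5 := intM_sq hz (f := c1) (g := c2) (fun p => c1.le_one) (fun p => c2.nonneg) c12
        (fun p hp => bump_off c2 (by
          rw [mem_ball_zero_iff, not_lt] at hp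
          show (1 / 2 : ℝ) ≤ ‖p‖
          linarith))
      refine le_trans ?_ h5
      have h6 : 0 ≤ ∫ y, c1 y ∂(ν z) := integral_nonneg fun _ => c1.nonneg
      calc c1 z * ∫ y, c1 y ∂(ν z) ≤ 1 * ∫ y, c1 y ∂(ν z) :=
            mul_le_mul_of_nonneg_right c1.le_one h6
        _ = _ := one_mul _
    · rw [bump_off c1 (not_le.1 hz4).le, zero_mul]
      exact hHnn _
  have hle2 : ∫ z in ball (0 : ℂ) 1, H (2 * z.re, 2 * z.im) ≤
      ∫ z : ℂ, H (2 * z.re, 2 * z.im) :=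
    setIntegral_le_integral hHz (Eventually.of_forall fun z => hHnn _)
  have hHz0 : 0 ≤ ∫ z : ℂ, H (2 * z.re, 2 * z.im) := integral_nonneg fun z => hHnn _
  calc _ ≤ ∫ z : ℂ, H (2 * z.re, 2 * z.im) := hle.trans hle2
    _ ≤ B ^ 2 := by linarith
    _ ≤ _ := pow_le_pow_left₀ hB0 hB1 2

theorem density {μ : Measure (Fin 4 → ℝ)} [IsLocallyFiniteMeasure μ] {κ C : ℝ} (hκ : 1 < κ)
    (hC : 0 < C) (x : Fin 4 → ℝ) {ρ : ℝ} (hρ : 0 < ρ)
    (h : ∀ y ∈ ball x (ρ / 2), ∀ r, 0 < r → r ≤ ρ / 2 →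
      r ^ 2 * μ.real (ball y (r / κ)) ≤ C * μ.real (ball y r) ^ 2)
    (hd : μ.real (ball x ρ) < 1 / (8 * C * κ ^ 4) * ρ ^ 2) : μ (ball x (ρ / 4)) = 0 := by
  have hκ0 : 0 < κ := by linarith
  set c : ℝ := 1 / (8 * C * κ ^ 4) with hc
  have hc0 : 0 < c := by positivity
  set η : ℝ := 1 / (2 * κ ^ 2) with hη
  have hη0 : 0 < η := by positivity
  have hη1 : η ≤ 1 := by
    rw [hη, div_le_one (by positivity)]
    nlinarith
  set r : ℕ → ℝ := fun k => ρ / 2 / κ ^ k with hr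
  have hr0 : ∀ k, 0 < r k := fun k => by positivity
  have hrρ : ∀ k, r k ≤ ρ / 2 := fun k =>
    div_le_self (by positivity) (one_le_pow₀ hκ.le)
  have hfin : ∀ y s, μ (ball y s) ≠ ⊤ := fun y s => measure_ball_lt_top.ne
  have key : ∀ k, ∀ y ∈ ball x (ρ / 2), μ.real (ball y (r k)) ≤ 4 * c * η ^ k * r k ^ 2 := by
    intro k
    induction k with
    | zero =>
      intro y hy
      have h1 : ball y (r 0) ⊆ ball x ρ := by
        refine ball_subset_ball' ?_
        have : r 0 = ρ / 2 := by simp [hr]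
        rw [this]
        rw [mem_ball] at hy
        linarith
      refine (measureReal_mono h1 (hfin _ _)).trans (hd.le.trans ?_)
      simp only [hr, pow_zero, mul_one, div_one]
      linarith
    | succ k ih =>
      intro y hy
      have h1 := h y hy (r k) (hr0 k) (hrρ k)
      have h2 : r k / κ = r (k + 1) := by
        simp only [hr, pow_succ]
        field_simp
      have h2' : r k = κ * r (k + 1) := by
        rw [← h2]; field_simp
      rw [h2] at h1
      have h3 := ih y hy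
      have h4 : μ.real (ball y (r k)) ^ 2 ≤ (4 * c * η ^ k * r k ^ 2) ^ 2 :=
        pow_le_pow_left₀ measureReal_nonneg h3 2
      have h5 : r k ^ 2 * μ.real (ball y (r (k + 1))) ≤
          r k ^ 2 * (C * (4 * c * η ^ k) ^ 2 * r k ^ 2) := by
        calc _ ≤ C * (4 * c * η ^ k * r k ^ 2) ^ 2 := h1.trans (mul_le_mul_of_nonneg_left h4 hC.le)
          _ = _ := by ring
      have h6 := le_of_mul_le_mul_left h5 (by have := hr0 k; positivity)
      refine h6.trans ?_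
      rw [h2']
      have h7 : η ^ k ≤ 1 := pow_le_one₀ hη0.le hη1
      have h8 : C * (4 * c) * κ ^ 2 = η := by
        rw [hc, hη]; field_simp; ring
      calc C * (4 * c * η ^ k) ^ 2 * (κ * r (k + 1)) ^ 2 =
            (C * (4 * c) * κ ^ 2) * (4 * c * η ^ k * r (k + 1) ^ 2) * η ^ k := by ring
        _ ≤ (C * (4 * c) * κ ^ 2) * (4 * c * η ^ k * r (k + 1) ^ 2) * 1 := by
            refine mul_le_mul_of_nonneg_left h7 ?_
            positivity
        _ = 4 * c * η ^ (k + 1) * r (k + 1) ^ 2 := by rw [h8]; ring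
  have hev : ∀ᶠ k : ℕ in atTop, μ (ball x (ρ / 4)) ≤ ENNReal.ofReal (c * ρ ^ 2 * (1 / 2) ^ k) := by
    have h1 : ∀ᶠ k : ℕ in atTop, 2 ≤ κ ^ k :=
      (tendsto_pow_atTop_atTop_of_one_lt hκ).eventually_ge_atTop 2
    filter_upwards [h1] with k hk
    have h2 : r k ≤ ρ / 4 := by
      have : ρ / 2 / κ ^ k ≤ ρ / 2 / 2 := div_le_div_of_nonneg_left (by positivity) (by norm_num) hk
      simp only [hr]
      linarith
    have hB : 0 ≤ 4 * c * η ^ k * r k ^ 2 := by positivity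
    refine (cover x (hr0 k) h2 hB fun y hy => ?_).trans (le_of_eq ?_)
    · rw [← ENNReal.ofReal_toReal (hfin y (r k))]
      exact ENNReal.ofReal_le_ofReal (key k y hy)
    · congr 1
      have h3 : η ^ k = (1 / 2) ^ k / (κ ^ k) ^ 2 := by
        rw [hη, ← pow_mul, mul_comm k 2, pow_mul, ← div_pow]
        congr 1
        field_simp
      rw [h3]
      simp only [hr]
      have : κ ^ k ≠ 0 := by positivity
      field_simp
      ring
  have hlim : Tendsto (fun k : ℕ => ENNReal.ofReal (c * ρ ^ 2 * (1 / 2) ^ k)) atTop (𝓝 0) := by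
    have h1 : Tendsto (fun k : ℕ => c * ρ ^ 2 * (1 / 2 : ℝ) ^ k) atTop (𝓝 (c * ρ ^ 2 * 0)) :=
      (tendsto_pow_atTop_nhds_zero_of_lt_one (by norm_num) (by norm_num)).const_mul _
    have h2 := ENNReal.tendsto_ofReal h1
    simpa using h2
  exact le_antisymm (ge_of_tendsto hlim hev) bot_le

theorem mass_ineq (hBX : BXS_statement) (D : Data) : ∃ κ > 1, ∃ C > 0, ∃ ρ₀ > 0,
    ∀ (S : ICur D) (μ : Measure R4), IsMass S μ → ∀ (x₀ : R4) (ρ : ℝ), 0 < ρ → ρ ≤ ρ₀ →
      ball x₀ (2 * ρ) ⊆ S.W →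
      ρ ^ 2 * μ.real (ball x₀ (ρ / κ)) ≤ C * μ.real (ball x₀ ρ) ^ 2 := by
  obtain ⟨c, hc, ε₀, hε₀, hp⟩ := pairs hBX D
  obtain ⟨Cd, hCd, hdom⟩ := dom D
  obtain ⟨C₁, hC₁, hcore⟩ := core hCd.le
  obtain ⟨B, hB, hom⟩ := om_up D
  obtain ⟨ct, hct, hct'⟩ := K2A.tame_bound D
  refine ⟨16 * c ^ 2 + 1, by nlinarith [sq_nonneg c, pow_pos hc 2], 12 * B * C₁ ^ 2 * c ^ 8,
    by positivity, c * ε₀, by positivity, fun S μ hμ x₀ ρ hρ hρρ hW => ?_⟩
  set ε : ℝ := ρ / c with hεd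
  have hε : 0 < ε := by positivity
  have hρε : ρ = c * ε := by rw [hεd]; field_simp
  have hεε : ε ≤ ε₀ := by
    rw [hεd, div_le_iff₀ hc]; linarith
  obtain ⟨b, b', P⟩ := hp ε hε hεε x₀
  have hlf : IsLocallyFiniteMeasure μ := hμ.1
  have hM : 0 < c / ε := by positivity
  set V : Set R4 := ball x₀ ρ with hV
  have hVm : MeasurableSet V := measurableSet_ball
  have hVf : μ V ≠ ⊤ := measure_ball_lt_top.ne
  have h0 : (0 : ℂ × ℂ) ∈ PD 2 := ball8 (mem_ball_self (by norm_num))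
  have hsub : ∀ b : Box D, b.Θ 0 = x₀ → (∀ p ∈ PD 2, ∀ q ∈ PD 2,
      ‖b.Θ p - b.Θ q‖ ≤ c * ε * ‖p - q‖) → b.Θ '' PD 1 ⊆ V := by
    rintro b hb hup _ ⟨p, hp, rfl⟩
    have h1 := hup p (PD12 hp) 0 h0
    rw [sub_zero, hb] at h1
    rw [hV, mem_ball, dist_eq_norm, hρε]
    have h2 : ‖p‖ < 1 := by
      rw [Prod.norm_def]
      exact max_lt (by simpa using hp.1) (by simpa using hp.2)
    calc ‖b.Θ p - x₀‖ ≤ c * ε * ‖p‖ := h1
      _ < c * ε * 1 := mul_lt_mul_of_pos_left h2 (by positivity)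
      _ = c * ε := mul_one _
  have hsubW : ∀ b : Box D, b.Θ 0 = x₀ → (∀ p ∈ PD 2, ∀ q ∈ PD 2,
      ‖b.Θ p - b.Θ q‖ ≤ c * ε * ‖p - q‖) → b.Θ '' PD 2 ⊆ S.W := by
    rintro b hb hup _ ⟨p, hp, rfl⟩
    have h1 := hup p hp 0 h0
    rw [sub_zero, hb] at h1
    apply hW
    rw [mem_ball, dist_eq_norm, hρε]
    have h2 : ‖p‖ < 2 := by
      rw [Prod.norm_def]
      exact max_lt (by simpa using hp.1) (by simpa using hp.2)
    calc ‖b.Θ p - x₀‖ ≤ c * ε * ‖p‖ := h1
      _ < c * ε * 2 := mul_lt_mul_of_pos_left h2 (by positivity)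
      _ = 2 * (c * ε) := by ring
  have hc1 := hcore (hdom S μ hμ) b (hsubW b P.c0 P.up) hM.le P.lo hVm hVf (hsub b P.c0 P.up)
  have hc2 := hcore (hdom S μ hμ) b' (hsubW b' P.c0' P.up') hM.le P.lo' hVm hVf (hsub b' P.c0' P.up')
  set r : ℝ := 1 / 8 / (c / ε) with hr
  have hr0 : 0 < r := by positivity
  have hb1 : ball x₀ r ⊆ b.Θ '' ball 0 (1 / 8) := by
    have := ball_sub b hM P.lo (r := 1 / 8) (by norm_num) (by norm_num)
    rwa [P.c0] at this
  have hb2 : ball x₀ r ⊆ b'.Θ '' ball 0 (1 / 8) := by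
    have := ball_sub b' hM P.lo' (r := 1 / 8) (by norm_num) (by norm_num)
    rwa [P.c0'] at this
  have hχ : CF fun x => cut x₀ r x • cf2 D.om x :=
    cf_mul (cut_cont x₀ r) (cut_comp hr0) (cf2_cont D.om) (cf2_self D.om)
  have hTχ := hμ.2 _ (cut_cont x₀ r) (cut_comp hr0)
  have hpf1 : CF (pf b f2) := pf_cf b f2_cont' f2_comp (f2_supp.trans PD12)
  have hpf2 : CF (pf b' f2) := pf_cf b' f2_cont' f2_comp (f2_supp.trans PD12)
  have hA : CF ((6 * B * (c * ε) ^ 2) • (pf b f2 + pf b' f2)) := cf_smul _ (cf_add hpf1 hpf2)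
  have hpt : ∀ x u, (fun x => cut x₀ r x • cf2 D.om x) x u (D.J x u) ≤
      ((6 * B * (c * ε) ^ 2) • (pf b f2 + pf b' f2)) x u (D.J x u) := by
    intro x u
    show (cut x₀ r x • cf2 D.om x) u (D.J x u) ≤
      ((6 * B * (c * ε) ^ 2) • (pf b f2 x + pf b' f2 x)) u (D.J x u)
    rw [smul_ap, smul_ap, add_ap, cf2_apply]
    by_cases hx : x ∈ ball x₀ r
    · obtain ⟨p, hp, hpx⟩ := hb1 hx
      obtain ⟨p', hp', hpx'⟩ := hb2 hx
      have h1 := pf_pos b P.m f2_nn x u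
      have h2 := pf_pos b' P.m' f2_nn x u
      have e1 : ext b f2 x = 1 := by
        rw [← hpx, ext_Θ b f2 (ball8 hp)]
        exact f2_one (by rw [mem_ball_zero_iff] at hp; exact hp.le)
      have e2 : ext b' f2 x = 1 := by
        rw [← hpx', ext_Θ b' f2 (ball8 hp')]
        exact f2_one (by rw [mem_ball_zero_iff] at hp'; exact hp'.le)
      rw [e1, one_mul] at h1
      rw [e2, one_mul] at h2
      obtain ⟨X, hX⟩ := (b.imm p (ball8 hp)).2 u
      obtain ⟨X', hX'⟩ := (b'.imm p' (ball8 hp')).2 u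
      have h3 := P.tr p (ball8 hp) p' (ball8 hp') X X' (hX.trans hX'.symm)
      have e3 : P1 b x u = X.1 := by rw [← hpx, ← hX, P1_Θ b (ball8 hp)]
      have e4 : P1 b' x u = X'.1 := by rw [← hpx', ← hX', P1_Θ b' (ball8 hp')]
      rw [hX] at h3
      rw [e3] at h1
      rw [e4] at h2
      have h4 := hom x u
      have h5 : 0 ≤ D.om.val x u (D.J x u) :=
        (by positivity : 0 ≤ ct * ‖u‖ ^ 2).trans (hct' x u)
      have h6 : ‖u‖ ^ 2 ≤ (c * ε * (‖X.1‖ + ‖X'.1‖)) ^ 2 := pow_le_pow_left₀ (norm_nonneg _) h3 2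
      have h7 : (‖X.1‖ + ‖X'.1‖) ^ 2 ≤ 2 * (‖X.1‖ ^ 2 + ‖X'.1‖ ^ 2) := by
        nlinarith [sq_nonneg (‖X.1‖ - ‖X'.1‖)]
      calc cut x₀ r x * D.om.val x u (D.J x u) ≤ 1 * D.om.val x u (D.J x u) :=
            mul_le_mul_of_nonneg_right (cut_le _ _ _) h5
        _ ≤ B * ‖u‖ ^ 2 := by rw [one_mul]; exact h4
        _ ≤ B * (c * ε * (‖X.1‖ + ‖X'.1‖)) ^ 2 := mul_le_mul_of_nonneg_left h6 hB.le
        _ = B * (c * ε) ^ 2 * (‖X.1‖ + ‖X'.1‖) ^ 2 := by ring
        _ ≤ B * (c * ε) ^ 2 * (2 * (‖X.1‖ ^ 2 + ‖X'.1‖ ^ 2)) :=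
            mul_le_mul_of_nonneg_left h7 (by positivity)
        _ = 6 * B * (c * ε) ^ 2 * (‖X.1‖ ^ 2 / 3 + ‖X'.1‖ ^ 2 / 3) := by ring
        _ ≤ _ := mul_le_mul_of_nonneg_left (add_le_add h1 h2) (by positivity)
    · rw [cut_zero hr0 hx, zero_mul]
      exact mul_nonneg (by positivity) (add_nonneg (pf_nn b P.m f2_nn x u)
        (pf_nn b' P.m' f2_nn x u))
  have hT := T_mono S hχ hA hpt
  rw [hTχ, S.smul _ _ (cf_add hpf1 hpf2), S.add _ _ hpf1 hpf2] at hT
  have hμr : μ.real (ball x₀ (ρ / (16 * c ^ 2 + 1))) ≤ ∫ x, cut x₀ r x ∂μ := by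
    have h1 : ball x₀ (ρ / (16 * c ^ 2 + 1)) ⊆ ball x₀ (r / 2) := by
      refine ball_subset_ball ?_
      have : r / 2 = ρ / (16 * c ^ 2) := by
        rw [hr, hρε]; field_simp; norm_num
      rw [this]
      exact div_le_div_of_nonneg_left hρ.le (by positivity) (by linarith)
    have h2 : Integrable (cut x₀ r) μ := (cut_cont x₀ r).integrable_of_hasCompactSupport
      (cut_comp hr0)
    have h3 : ∫ x, (ball x₀ (ρ / (16 * c ^ 2 + 1))).indicator (fun _ => (1 : ℝ)) x ∂μ =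
        μ.real (ball x₀ (ρ / (16 * c ^ 2 + 1))) := by
      rw [integral_indicator measurableSet_ball, setIntegral_const, smul_eq_mul, mul_one]
    rw [← h3]
    refine integral_mono ?_ h2 fun x => ?_
    · rw [integrable_indicator_iff measurableSet_ball]
      exact integrableOn_const measure_ball_lt_top.ne
    · by_cases hx : x ∈ ball x₀ (ρ / (16 * c ^ 2 + 1))
      · rw [indicator_of_mem hx, cut_one hr0 (h1 hx)]
      · rw [indicator_of_notMem hx]
        exact cut_nn _ _ _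
  set m : ℝ := μ.real V with hm
  have hm0 : 0 ≤ m := measureReal_nonneg
  have h1 : μ.real (ball x₀ (ρ / (16 * c ^ 2 + 1))) ≤
      6 * B * (c * ε) ^ 2 * ((C₁ * ((c / ε) ^ 2 * m)) ^ 2 + (C₁ * ((c / ε) ^ 2 * m)) ^ 2) :=
    (hμr.trans hT).trans (mul_le_mul_of_nonneg_left (add_le_add hc1 hc2) (by positivity))
  calc ρ ^ 2 * μ.real (ball x₀ (ρ / (16 * c ^ 2 + 1))) ≤ ρ ^ 2 *
        (6 * B * (c * ε) ^ 2 * ((C₁ * ((c / ε) ^ 2 * m)) ^ 2 + (C₁ * ((c / ε) ^ 2 * m)) ^ 2)) :=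
        mul_le_mul_of_nonneg_left h1 (by positivity)
    _ = 12 * B * C₁ ^ 2 * c ^ 8 * m ^ 2 := by
        rw [hρε]
        field_simp
        ring

/-- `CO`: lower density bound -/
theorem CO (hBX : BXS_statement) : CO_statement := by
  intro D
  obtain ⟨κ, hκ, C, hC, ρ₀, hρ₀, h⟩ := mass_ineq hBX D
  refine ⟨1 / (8 * C * κ ^ 4), by positivity, ρ₀, hρ₀, fun S μ hμ x hx ρ hρ hρρ hW => ?_⟩
  have hlf : IsLocallyFiniteMeasure μ := hμ.1
  by_contra hcon
  rw [not_le] at hcon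
  have h1 : μ.real (ball x ρ) < 1 / (8 * C * κ ^ 4) * ρ ^ 2 := by
    rw [Measure.real]
    exact (ENNReal.lt_ofReal_iff_toReal_lt measure_ball_lt_top.ne).1 hcon
  have h2 := density hκ hC x hρ (fun y hy r hr hrρ => h S μ hμ y r hr (by linarith) (by
    refine (ball_subset_ball' ?_).trans hW
    rw [mem_ball] at hy
    linarith)) h1
  exact (mass_pos hμ hx (by positivity : 0 < ρ / 4)).ne' h2

end Vale.Agent.P247L.H683
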