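import Vale.Agent.P247.H574.Sta2

/-!
# P247, local structure of integral currents which are closed only on an open set

`ICur D` below is a positive functional on all compactly supported continuous two-forms of `ℝ⁴`
which is closed and integral only inside the set `W`.  No periodicity and no class is assumed.
The statements are the local versions of those of `Vale.Agent.P247.H574`.
-/

open scoped ContDiff Topology
open Set MeasureTheory Filter Metric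

noncomputable section

namespace Vale.Agent.P247L

open Vale.Agent.P247.H74 Vale.Agent.P247.H574

/-- the slicing property of the functional `T` in the box `b` -/
def IntIn {D : Data} (T : (R4 → F2) → ℝ) (b : Box D) : Prop :=
  ∃ ν : ℂ → Measure ℂ,
    (∀ᵐ z ∂volume.restrict (ball (0 : ℂ) 1), IntM (ν z)) ∧
    ∀ f : ℂ × ℂ → ℝ, Continuous f → HasCompactSupport f → tsupport f ⊆ PD 1 →
      IntegrableOn (fun z => ∫ y, f (z, y) ∂(ν z)) (ball 0 1) ∧
      ∀ φ, IsPush b f φ → T φ = ∫ z in ball (0 : ℂ) 1, ∫ y, f (z, y) ∂(ν z)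

/-- A positive functional on the compactly supported continuous two-forms on `ℝ⁴`, closed and
integral inside `W`. -/
structure ICur (D : Data) where
  W : Set R4
  T : (R4 → F2) → ℝ
  add : ∀ φ ψ, CF φ → CF ψ → T (φ + ψ) = T φ + T ψ
  smul : ∀ (c : ℝ) φ, CF φ → T (c • φ) = c * T φ
  closed : ∀ l : R4 → R4 →L[ℝ] ℝ, ContDiff ℝ ∞ l → HasCompactSupport l → tsupport l ⊆ W →
    T (dd l) = 0
  pos : ∀ φ, CF φ → (∀ x u, 0 ≤ φ x u (D.J x u)) → 0 ≤ T φ
  int : ∀ b : Box D, b.Θ '' PD 2 ⊆ W → IntIn T b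

/-- the support -/
def ICur.supp {D : Data} (S : ICur D) : Set R4 :=
  {x | ∀ ε > 0, ∃ φ, CF φ ∧ tsupport φ ⊆ ball x ε ∧ S.T φ ≠ 0}

/-- `μ` is the measure `T ∧ om` -/
def IsMass {D : Data} (S : ICur D) (μ : Measure R4) : Prop :=
  IsLocallyFiniteMeasure μ ∧ ∀ f : R4 → ℝ, Continuous f → HasCompactSupport f →
    S.T (fun x => f x • cf2 D.om x) = ∫ x, f x ∂μ

/-- `MASS`: the mass measure exists, controls all forms and has the support of `T`. -/
def MASS_statement : Prop := ∀ (D : Data) (S : ICur D), ∃ μ : Measure R4, IsMass S μ ∧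
  (∃ C, ∀ φ, CF φ → |S.T φ| ≤ C * ∫ x, ‖φ x‖ ∂μ) ∧ ∀ x, x ∈ S.supp ↔ ∀ ε > 0, 0 < μ (ball x ε)

/-- `CO`: lower density bound, with constants which depend on `D` only. -/
def CO_statement : Prop := ∀ D : Data, ∃ c > 0, ∃ ρ₀ > 0, ∀ (S : ICur D) (μ : Measure R4),
  IsMass S μ → ∀ x ∈ S.supp, ∀ ρ, 0 < ρ → ρ ≤ ρ₀ → ball x (2 * ρ) ⊆ S.W →
    ENNReal.ofReal (c * ρ ^ 2) ≤ μ (ball x ρ)

/-- a good box for `T`: inside `W`, no mass near the vertical part of the boundary -/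
def GoodBox {D : Data} (S : ICur D) (b : Box D) (ρ : ℝ) : Prop :=
  0 < ρ ∧ ρ < 1 ∧ (∀ z ∈ closedBall (0 : ℂ) 1, ∀ y ∈ closedBall (0 : ℂ) 1, ρ ≤ ‖y‖ →
    b.Θ (z, y) ∉ S.supp) ∧ b.Θ '' PD 2 ⊆ S.W

/-- `GB`: good boxes exist at the interior points of `W`. -/
def GB_statement : Prop := ∀ (D : Data) (S : ICur D) (x : R4), S.W ∈ 𝓝 x → ∀ v h : R4, ∀ δ > 0,
  (∀ a b : ℂ, cm D x a v + cm D x b h = 0 → a = 0 ∧ b = 0) →
  ∃ (b : Box D) (ρ : ℝ), b.Θ (0, 0) = x ∧ GoodBox S b ρ ∧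
    ∃ c : ℂ, ∃ l : ℂ, c ≠ 0 ∧ ‖l‖ ≤ δ ∧ fderiv ℝ b.Θ (0, 0) (0, 1) = cm D x c (v + cm D x l h)

/-- `MGX`: in a good box the current is a multigraph, up to a vertical part. -/
def MGX_statement : Prop := ∀ (D : Data) (S : ICur D) (b : Box D) (ρ : ℝ), GoodBox S b ρ →
  ∃ (N : ℕ) (Y P : ℂ → Fin N → ℂ) (R : Measure (ℂ × ℂ)), MG2 N b.m b.A ρ Y P R ∧
    ∀ φ, CF φ → tsupport φ ⊆ b.Θ '' (ball (0 : ℂ) 1 ×ˢ ball (0 : ℂ) 1) →
      S.T φ = (∫ z in ball (0 : ℂ) 1,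
        ∑ i, φ (b.Θ (z, Y z i)) (tan1 b z (Y z i) (P z i)) (tan2 b z (Y z i) (P z i))) +
        ∫ p, φ (b.Θ p) (fderiv ℝ b.Θ p (0, 1)) (fderiv ℝ b.Θ p (0, Complex.I)) ∂(R)

/-- `T` is near `x` the sum of finitely many `J`-discs through `x`, injective and disjoint
outside `x`, with multiplicities. -/
def LocStr {D : Data} (S : ICur D) (x : R4) : Prop :=
  ∃ (N : ℕ) (u : Fin N → ℂ → R4) (k : Fin N → ℕ) (ε : ℝ), Brs D S.supp x N u ε ∧
    (∀ l, 1 ≤ k l) ∧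
    ∀ φ, CF φ → tsupport φ ⊆ ball x ε → S.T φ = ∑ l, (k l : ℝ) * brI (u l) φ

/-- `LS`: the local structure theorem at the interior points of `W`. -/
def LS_statement : Prop := ∀ (D : Data) (S : ICur D), ∀ x ∈ S.supp, S.W ∈ 𝓝 x → LocStr S x

end Vale.Agent.P247L
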