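import Vale.Agent.P247L.LX

/-!
# P247: the local structure of integral currents, local hypothesis
-/

set_option linter.all false

open scoped BigOperators ContDiff Topology Manifold
open Set Filter Metric MeasureTheory

noncomputable section

namespace Vale.Agent.P247L

open Vale.Agent.P204.Mfd
open Vale.Agent.P247.SCY
open Vale.Agent.P247.H74 (R4 Data CForm e)
open Vale.Agent.P247.H574 (F2 Good CF dd Box PD IsPush Brs brI JDisc)
open Vale.Agent.P247X

variable {X : Type} [Cl4 X] {w : Tri X} {t : LocT w}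

/-- the slices in all boxes of the chart `t` are sums of Dirac measures -/
def IntAt (t : LocT w) (T : HS.Form X 2 → ℝ) : Prop :=
  ∀ b : Box t.D, b.Θ '' PD 2 ⊆ t.κ.target → ∃ ν : ℂ → Measure ℂ,
    (∀ᵐ z ∂volume.restrict (ball (0 : ℂ) 1), Vale.Agent.P247.H574.IntM (ν z)) ∧
    ∀ f : ℂ × ℂ → ℝ, Continuous f → HasCompactSupport f → tsupport f ⊆ PD 1 →
      IntegrableOn (fun z => ∫ y, f (z, y) ∂(ν z)) (ball 0 1) ∧
      ∀ φ ψ, IsPush b f φ → IsPb t φ ψ → T ψ = ∫ z in ball (0 : ℂ) 1, ∫ y, f (z, y) ∂(ν z)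

/-- closed positive currents which are integral in the chart `t` -/
structure ILoc (t : LocT w) (T : HS.Form X 2 → ℝ) : Prop extends PCur (Jw w) T where
  int : IntAt t T

theorem icurX_iff {T : HS.Form X 2 → ℝ} :
    ICurX w T ↔ PCur (Jw w) T ∧ ∀ t : LocT w, IntAt t T :=
  ⟨fun h => ⟨h.toPCur, h.int⟩, fun h => ⟨h.1, h.2⟩⟩

namespace Cut

variable (c : Cut t)

/-- the current in the chart -/
def curl {T : HS.Form X 2 → ℝ} (hT : ILoc t T) : ICur t.D where
  W := c.W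
  T := fun φ => T (pb t (c.sm φ))
  add := fun φ ψ hφ hψ => by
    have : c.sm (φ + ψ) = c.sm φ + c.sm ψ := by
      funext y; simp only [sm, Pi.add_apply, sm_ad]
    rw [this, pb_add]
    exact hT.add _ _ (c.cont_pb hφ) (c.cont_pb hψ)
  smul := fun r φ hφ => by
    have : c.sm (r • φ) = r • c.sm φ := by
      funext y; simp only [sm, Pi.smul_apply, smul_comm r]
    rw [this, pb_smul]
    exact hT.smul _ _ (c.cont_pb hφ)
  closed := fun l hl hc hW => by
    rw [c.sm_eq fun y hy => dd_zero fun h => hy (hW h)]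
    obtain ⟨h1, h2⟩ := exact_pb t hl hc (hW.trans c.W_sub)
    exact hT.closed _ h1 h2
  pos := fun φ hφ hp => hT.pos _ (c.cont_pb hφ) (pb_pos t
    (fun y u => by simp [sm, hφ.alt]) fun y _ u => mul_nonneg (c.nn y) (hp y u))
  int := fun b hb => by
    obtain ⟨ν, h1, h2⟩ := hT.int b (hb.trans c.W_sub)
    refine ⟨ν, h1, fun f hf hf' hs => ⟨(h2 f hf hf' hs).1, fun φ hφ => ?_⟩⟩
    show T (pb t (c.sm φ)) = _
    rw [c.sm_eq fun y hy => hφ.off y fun h => hy (hb h)]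
    exact (h2 f hf hf' hs).2 φ _ hφ (isPb_pb t hφ.cf.alt)

variable {T : HS.Form X 2 → ℝ} (hT : ILoc t T)

theorem curl_pf {φ : HS.Form X 2} (hφ : Cont φ) {V : Set R4} (hV : V ⊆ c.W)
    (hs : SuppIn φ (t.κ.source ∩ t.κ ⁻¹' V)) :
    CF (pf t φ) ∧ tsupport (pf t φ) ⊆ V ∧ (c.curl hT).T (pf t φ) = T φ := by
  obtain ⟨h1, h2, h3⟩ := cf_pf t hφ inter_subset_left hs
  have h4 : tsupport (pf t φ) ⊆ V := h2.trans (by rintro _ ⟨x, hx, rfl⟩; exact hx.2)
  refine ⟨h1, h4, ?_⟩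
  show T (pb t (c.sm (pf t φ))) = T φ
  rw [c.sm_eq fun y hy => image_eq_zero_of_notMem_tsupport fun h => hy (hV (h4 h)), h3]

theorem mem_suppl {x : X} (hx : x ∈ t.κ.source) (hW : t.κ x ∈ c.W) (h : x ∈ suppT T) :
    t.κ x ∈ (c.curl hT).supp := by
  intro ε hε
  obtain ⟨φ, h1, h2, h3⟩ := h (t.κ.source ∩ t.κ ⁻¹' (c.W ∩ ball (t.κ x) ε))
    ((t.κ.isOpen_inter_preimage (c.opn.inter isOpen_ball)).mem_nhds ⟨hx, hW, mem_ball_self hε⟩)
  obtain ⟨e1, e2, e3⟩ := c.curl_pf hT h1 inter_subset_left h2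
  exact ⟨_, e1, e2.trans inter_subset_right, by rw [e3]; exact h3⟩

theorem supp_subl {y : R4} (h : y ∈ (c.curl hT).supp) :
    y ∈ t.κ.target ∧ t.κ.symm y ∈ suppT T := by
  have hy : y ∈ tsupport c.χ := by
    by_contra hn
    obtain ⟨ε, hε, hb⟩ := Metric.isOpen_iff.1 (isClosed_tsupport c.χ).isOpen_compl y hn
    obtain ⟨φ, h1, h2, h3⟩ := h ε hε
    have h4 : c.sm φ = (0 : ℝ) • c.sm φ := by
      funext z
      rw [Pi.smul_apply, z_sm]
      by_cases hz : z ∈ tsupport φ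
      · exact c.sm_zero φ (hb (h2 hz))
      · rw [sm, image_eq_zero_of_notMem_tsupport hz, sm_z]
    apply h3
    show T (pb t (c.sm φ)) = 0
    rw [h4, pb_smul, hT.smul _ _ (c.cont_pb h1), zero_mul]
  refine ⟨c.sub hy, fun U hU => ?_⟩
  obtain ⟨ε, hε, hb⟩ := Metric.mem_nhds_iff.1
    ((t.κ.continuousAt_symm (c.sub hy)).preimage_mem_nhds hU)
  obtain ⟨φ, h1, h2, h3⟩ := h ε hε
  refine ⟨_, c.cont_pb h1, suppIn_pb t (C := tsupport c.χ ∩ tsupport φ)
    (c.cpt.isCompact.inter_right (isClosed_tsupport φ)) (inter_subset_left.trans c.sub)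
    (fun z hz => ?_) ?_, h3⟩
  · by_cases hz' : z ∈ tsupport φ
    · exact c.sm_zero φ fun h => hz ⟨h, hz'⟩
    · rw [sm, image_eq_zero_of_notMem_tsupport hz', sm_z]
  · rintro _ ⟨z, hz, rfl⟩
    exact hb (h2 hz.2)

end Cut

/-- the local structure from the integrality of the slices in one chart -/
theorem LSXloc {T : HS.Form X 2 → ℝ} (hP : PCur (Jw w) T) (t : LocT w) (hI : IntAt t T) :
    ∀ x ∈ suppT T, x ∈ t.κ.source → LocStrX (Jw w) T x := by
  intro x hx hxt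
  have hT : ILoc t T := ⟨hP, hI⟩
  obtain ⟨c, hc⟩ := exists_Cut t (t.κ.map_source hxt)
  obtain ⟨N, u, k, ε, hB, hk, hrep⟩ := LS t.D (c.curl hT) (t.κ x) (c.mem_suppl hT hxt hc hx)
    (c.opn.mem_nhds hc)
  refine ⟨N, fun l => t.κ.symm ∘ u l, k, _, brsX_of_brs t hxt hB (fun y hy => c.supp_subl hT hy)
    c.opn hc fun y hy hW hy' => c.mem_suppl hT hy hW hy', hk, fun φ hφ hs => ?_⟩
  obtain ⟨e1, e2, e3⟩ := c.curl_pf hT hφ inter_subset_left hs
  rw [← e3, hrep _ e1 (e2.trans inter_subset_right)]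
  refine Finset.sum_congr rfl fun l _ => ?_
  rw [brX_symm t (hB.disc l).smooth fun z hz => (c.supp_subl hT (hB.mem l z hz)).1]

end Vale.Agent.P247L
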