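import Vale.Agent.P247L.MSheets
import Vale.Agent.P247.H899.Riesz

/-!
# The gradient of the sheets
-/

open scoped ContDiff Topology ComplexConjugate
open Set MeasureTheory Filter Metric

noncomputable section

namespace Vale.Agent.P247L.H899

open Vale.Agent.P247.H74 Vale.Agent.P247.H574 Vale.Agent.P247.H264 Vale.Agent.P247.H899

/-! ## The measure carried by the sheets -/

/-- the measure carried by the sheets -/
def tau {N : ℕ} (Y : ℂ → Fin N → ℂ) : Measure (ℂ × ℂ) :=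
  ∑ i, Measure.map (fun z => (z, Y z i)) (volume.restrict (ball (0 : ℂ) 1))

section

variable {N : ℕ} {Y : ℂ → Fin N → ℂ}

instance : IsFiniteMeasure (volume.restrict (ball (0 : ℂ) 1)) :=
  isFiniteMeasure_restrict.2 measure_ball_lt_top.ne

instance : IsFiniteMeasure (tau Y) := by
  unfold tau
  infer_instance

lemma meas_graph (hY : ∀ i, Measurable fun z => Y z i) (i : Fin N) :
    Measurable fun z : ℂ => (z, Y z i) := measurable_id.prodMk (hY i)

lemma tau_integrable {E : Type*} [NormedAddCommGroup E] {f : ℂ × ℂ → E}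
    (hY : ∀ i, Measurable fun z => Y z i) (hf : Integrable f (tau Y)) (i : Fin N) :
    Integrable (fun z => f (z, Y z i)) (volume.restrict (ball (0 : ℂ) 1)) := by
  have h1 := (integrable_finsetSum_measure.1 hf) i (Finset.mem_univ i)
  have h2 := (integrable_map_measure h1.aestronglyMeasurable
    (meas_graph hY i).aemeasurable).1 h1
  exact h2

lemma tau_integral {E : Type*} [NormedAddCommGroup E] [NormedSpace ℝ E] {f : ℂ × ℂ → E}
    (hY : ∀ i, Measurable fun z => Y z i) (hf : Integrable f (tau Y)) :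
    ∫ p, f p ∂(tau Y) = ∫ z in ball (0 : ℂ) 1, ∑ i, f (z, Y z i) := by
  have h0 : ∀ i ∈ (Finset.univ : Finset (Fin N)), Integrable f
      (Measure.map (fun z => (z, Y z i)) (volume.restrict (ball (0 : ℂ) 1))) := fun i hi =>
    (integrable_finsetSum_measure.1 hf) i hi
  rw [tau, integral_finsetSum_measure h0, integral_finsetSum _ fun i _ => tau_integrable hY hf i]
  refine Finset.sum_congr rfl fun i hi => ?_
  rw [integral_map (meas_graph hY i).aemeasurable (h0 i hi).aestronglyMeasurable]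

lemma tau_ae (hY : ∀ i, Measurable fun z => Y z i) {Q : ℂ × ℂ → Prop}
    (h : ∀ᵐ p ∂(tau Y), Q p) : ∀ᵐ z ∂volume.restrict (ball (0 : ℂ) 1), ∀ i, Q (z, Y z i) := by
  rw [ae_all_iff]
  intro i
  have h1 : ∀ᵐ p ∂(Measure.map (fun z => (z, Y z i)) (volume.restrict (ball (0 : ℂ) 1))), Q p := by
    have h2 : Measure.map (fun z => (z, Y z i)) (volume.restrict (ball (0 : ℂ) 1)) ≤ tau Y := by
      refine Measure.le_iff.2 fun s _ => ?_
      rw [tau, Measure.finsetSum_apply]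
      exact Finset.single_le_sum (f := fun i => Measure.map (fun z => (z, Y z i))
        (volume.restrict (ball (0 : ℂ) 1)) s) (fun _ _ => bot_le) (Finset.mem_univ i)
    exact (Measure.absolutelyContinuous_of_le h2).ae_le h
  exact ae_of_ae_map (meas_graph hY i).aemeasurable h1

lemma tau_supp {ρ : ℝ} (hY : ∀ i, Measurable fun z => Y z i) (hρ : ∀ z i, ‖Y z i‖ ≤ ρ) :
    ∀ᵐ p ∂(tau Y), ‖p.1‖ < 1 ∧ ‖p.2‖ ≤ ρ := by
  have hm : MeasurableSet {p : ℂ × ℂ | ‖p.1‖ < 1 ∧ ‖p.2‖ ≤ ρ} :=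
    (measurableSet_lt measurable_fst.norm measurable_const).inter
      (measurableSet_le measurable_snd.norm measurable_const)
  have h1 : ∀ i : Fin N, (Measure.map (fun z => (z, Y z i)) (volume.restrict (ball (0 : ℂ) 1)))
      {p : ℂ × ℂ | ‖p.1‖ < 1 ∧ ‖p.2‖ ≤ ρ}ᶜ = 0 := by
    intro i
    rw [Measure.map_apply (meas_graph hY i) hm.compl]
    rw [Measure.restrict_apply ((meas_graph hY i) hm.compl)]
    refine measure_mono_null (t := ∅) (fun z hz => ?_) measure_empty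
    obtain ⟨hz1, hz2⟩ := hz
    rw [mem_ball, dist_zero_right] at hz2
    exact (hz1 ⟨hz2, hρ z i⟩).elim
  rw [ae_iff]
  show tau Y {p : ℂ × ℂ | ‖p.1‖ < 1 ∧ ‖p.2‖ ≤ ρ}ᶜ = 0
  rw [tau, Measure.finsetSum_apply]
  exact Finset.sum_eq_zero fun i _ => h1 i

end

/-! ## more cut-offs -/

lemma exists_chi {K : Set (ℂ × ℂ)} (hK : IsCompact K) {r : ℝ} (hK1 : K ⊆ PD r) :
    ∃ χ : ℂ × ℂ → ℝ, KK r χ ∧ (∀ p ∈ K, χ p = 1) ∧ (∀ p, 0 ≤ χ p) ∧ ∀ p, χ p ≤ 1 := by
  obtain ⟨L, hL, hKL, hLU⟩ := exists_compact_between hK (isOpen_PD r) hK1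
  obtain ⟨f, hf1, hf0, hfs, hfr⟩ := exists_continuous_one_zero_of_isCompact hK
    (isOpen_interior (s := L)).isClosed_compl (disjoint_compl_right_iff_subset.2 hKL)
  refine ⟨f, ⟨f.continuous, hfs, ?_⟩, fun p hp => hf1 hp, fun p => (hfr p).1, fun p => (hfr p).2⟩
  refine (closure_minimal (fun p hp => ?_) hL.isClosed).trans hLU
  by_contra h
  exact hp (hf0 fun h' => h (interior_subset h'))

lemma exists_chi2 : ∃ χ : ℂ × ℂ → ℝ, KK 2 χ ∧ (∀ p ∈ PD 1, χ p = 1) ∧ (∀ p, 0 ≤ χ p) ∧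
    ∀ p, χ p ≤ 1 := by
  obtain ⟨χ, h1, h2, h3, h4⟩ := exists_chi (r := 2) (K := closedBall (0 : ℂ) 1 ×ˢ closedBall (0 : ℂ) 1)
    ((isCompact_closedBall _ _).prod (isCompact_closedBall _ _))
    (prod_mono (closedBall_subset_ball one_lt_two) (closedBall_subset_ball one_lt_two))
  exact ⟨χ, h1, fun p hp => h2 p ⟨ball_subset_closedBall hp.1, ball_subset_closedBall hp.2⟩, h3, h4⟩

variable {D : Data} {S : ICur D} {b : Box D} {ρ : ℝ}

/-! ## the horizontal part -/

lemma KK.kap {a : ℂ × ℂ → ℝ} (ha : KK 1 a) : KK 1 fun p => a p * (1 - ‖b.m p‖ ^ 2) :=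
  ha.mulOn one_le_two (ha.cont.continuousOn.mul
    (continuousOn_const.sub ((b.m_smooth.continuousOn.norm).pow 2)))
    (fun p hp => by rw [hp, zero_mul])

lemma TH_a (a : ℂ × ℂ → ℝ) : TH S b a (fun _ => 0) (fun _ => 0) =
    TL S b fun p => a p * (1 - ‖b.m p‖ ^ 2) := by
  rw [TH, TL]
  congr 2
  funext p
  refine ContinuousLinearMap.ext fun v => ContinuousLinearMap.ext fun w => ?_
  rw [Hm_a]
  simp only [smul_apply, lam_apply, smul_eq_mul]

lemma exists_kap (b : Box D) : ∃ κ₀ : ℝ, 0 < κ₀ ∧ ∀ p : ℂ × ℂ, ‖p.1‖ ≤ 1 → ‖p.2‖ ≤ 1 →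
    κ₀ ≤ 1 - ‖b.m p‖ ^ 2 := by
  have hK : IsCompact (closedBall (0 : ℂ) 1 ×ˢ closedBall (0 : ℂ) 1) :=
    (isCompact_closedBall _ _).prod (isCompact_closedBall _ _)
  have hsub : closedBall (0 : ℂ) 1 ×ˢ closedBall (0 : ℂ) 1 ⊆ PD 2 :=
    prod_mono (closedBall_subset_ball one_lt_two) (closedBall_subset_ball one_lt_two)
  obtain ⟨q, hq, hmin⟩ := hK.exists_isMinOn (f := fun p => 1 - ‖b.m p‖ ^ 2)
    ⟨(0, 0), by simp⟩ (continuousOn_const.sub
      (((b.m_smooth.continuousOn.mono hsub).norm).pow 2))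
  refine ⟨_, one_sub_pos b (hsub hq), fun p h1 h2 => hmin (show p ∈ _ from ⟨?_, ?_⟩)⟩
  · rwa [mem_closedBall, dist_zero_right]
  · rwa [mem_closedBall, dist_zero_right]

variable (S b) in
/-- the mixed part -/
def ell (c : ℂ × ℂ → ℂ) : ℝ := TH S b (fun _ => 0) c (fun _ => 0)

lemma ell_add {c c' : ℂ × ℂ → ℂ} (hc : KK 1 c) (hc' : KK 1 c') :
    ell S b (fun p => c p + c' p) = ell S b c + ell S b c' := by
  have z := KK.zero (r := 2) ℝ
  have h := TH_add (S := S) (b := b) z (hc.mono one_le_two) z z (hc'.mono one_le_two) z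
  simp only [add_zero] at h
  exact h

lemma ell_smul {c : ℂ × ℂ → ℂ} (hc : KK 1 c) (r : ℝ) :
    ell S b (fun p => (r : ℂ) * c p) = r * ell S b c := by
  have z := KK.zero (r := 2) ℝ
  have h := TH_smul (S := S) (b := b) z (hc.mono one_le_two) z r
  simp only [mul_zero] at h
  exact h

lemma KK.cmul {c : ℂ × ℂ → ℂ} {r : ℝ} (hc : KK r c) (w : ℂ) : KK r fun p => w * c p :=
  hc.comp (g := fun x => w * x) (by fun_prop) (mul_zero _)

lemma ell_cmul {c : ℂ × ℂ → ℂ} (hc : KK 1 c) (w : ℂ) :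
    ell S b (fun p => w * c p) = w.re * ell S b c + w.im * ell S b (fun p => Complex.I * c p) := by
  rw [← ell_smul hc, ← ell_smul (hc.cmul _), ← ell_add (hc.cmul _) ((hc.cmul _).cmul _)]
  congr 1
  funext p
  rw [← mul_assoc, ← add_mul]
  congr 1
  exact (Complex.re_add_im w).symm

/-- the space of coefficients -/
def KS : Submodule ℂ (ℂ × ℂ → ℂ) where
  carrier := {f | KK 1 f}
  add_mem' := fun hf hg => KK.add hf hg
  zero_mem' := KK.zero ℂ
  smul_mem' := fun w _ hf => KK.cmul hf w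

variable (S b) in
/-- complexification of `ell` -/
def Lam : KS →ₗ[ℂ] ℂ where
  toFun g := (ell S b g : ℂ) - Complex.I * (ell S b (fun p => Complex.I * (g : ℂ × ℂ → ℂ) p) : ℂ)
  map_add' f g := by
    have e1 : ell S b ((f + g : KS) : ℂ × ℂ → ℂ) = ell S b f + ell S b g := ell_add f.2 g.2
    have e2 : ell S b (fun p => Complex.I * ((f + g : KS) : ℂ × ℂ → ℂ) p) =
        ell S b (fun p => Complex.I * (f : ℂ × ℂ → ℂ) p) +
        ell S b (fun p => Complex.I * (g : ℂ × ℂ → ℂ) p) := by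
      rw [← ell_add (KK.cmul f.2 _) (KK.cmul g.2 _)]
      congr 1
      funext p
      exact mul_add _ _ _
    rw [e1, e2]
    push_cast
    ring
  map_smul' w f := by
    have e1 : ell S b ((w • f : KS) : ℂ × ℂ → ℂ) = w.re * ell S b f +
        w.im * ell S b (fun p => Complex.I * (f : ℂ × ℂ → ℂ) p) := ell_cmul f.2 w
    have e2 : ell S b (fun p => Complex.I * ((w • f : KS) : ℂ × ℂ → ℂ) p) =
        (Complex.I * w).re * ell S b f +
        (Complex.I * w).im * ell S b (fun p => Complex.I * (f : ℂ × ℂ → ℂ) p) := by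
      rw [← ell_cmul f.2]
      congr 1
      funext p
      show Complex.I * (w * (f : ℂ × ℂ → ℂ) p) = _
      ring
    rw [e1, e2]
    simp only [Complex.mul_re, Complex.mul_im, Complex.I_re, Complex.I_im, RingHom.id_apply,
      smul_eq_mul, zero_mul, one_mul, zero_sub, zero_add]
    push_cast
    have hw : w = (w.re : ℂ) + (w.im : ℂ) * Complex.I := (Complex.re_add_im w).symm
    generalize ell S b (f : ℂ × ℂ → ℂ) = x
    generalize ell S b (fun p => Complex.I * (f : ℂ × ℂ → ℂ) p) = y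
    conv_rhs => rw [hw]
    linear_combination ((w.im : ℂ) * y) * Complex.I_sq

lemma Lam_re (g : KS) : (Lam S b g).re = ell S b g := by
  show ((ell S b g : ℂ) - Complex.I * (ell S b _ : ℂ)).re = _
  simp

/-- Cauchy-Schwarz -/
lemma ell_sq_le {χ : ℂ × ℂ → ℝ} (hχ : KK 2 χ) (hχ1 : ∀ p ∈ PD 1, χ p = 1) (hχ0 : ∀ p, 0 ≤ χ p)
    {g : ℂ × ℂ → ℂ} (hg : KK 1 g) :
    ell S b g ^ 2 ≤ 4 * (TH S b (fun p => ‖g p‖ ^ 2) (fun _ => 0) (fun _ => 0)) *
      TH S b (fun _ => 0) (fun _ => 0) χ := by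
  obtain ⟨h, hh, hh1, hh0, hhl⟩ := exists_chi hg.hcs.isCompact hg.sub
  have e12 : (1 : ℝ) ≤ 2 := one_le_two
  have hg2 : KK 1 fun p => ‖g p‖ ^ 2 := hg.comp (g := fun x : ℂ => ‖x‖ ^ 2) (by fun_prop) (by simp)
  have hh2 : KK 1 fun p => h p ^ 2 := hh.comp (g := fun x : ℝ => x ^ 2) (by fun_prop) (by simp)
  have z := KK.zero (r := 2) ℝ
  have zc := KK.zero (r := 2) ℂ
  -- comparison of the vertical parts
  have hB : TH S b (fun _ => 0) (fun _ => 0) (fun p => h p ^ 2) ≤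
      TH S b (fun _ => 0) (fun _ => 0) χ := by
    have hd : KK 2 fun p => χ p + (-1) * h p ^ 2 :=
      hχ.add ((hh2.mono e12).comp (g := fun x : ℝ => (-1) * x) (by fun_prop) (by simp))
    have h1 : 0 ≤ TH S b (fun _ => 0) (fun _ => 0) (fun p => χ p + (-1) * h p ^ 2) := by
      refine TH_nonneg z zc hd fun p s t => ?_
      have h2 : 0 ≤ χ p + (-1) * h p ^ 2 := by
        by_cases hp : p ∈ PD 1
        · rw [hχ1 p hp]
          nlinarith [hh0 p, hhl p]
        · rw [hh.eq_zero hp]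
          have := hχ0 p
          linarith
      have h3 : 0 ≤ (χ p + (-1) * h p ^ 2) * ‖t‖ ^ 2 := mul_nonneg h2 (sq_nonneg _)
      simpa using h3
    have h2 := TH_add (S := S) (b := b) z zc hχ z zc ((hh2.mono e12).comp
      (g := fun x : ℝ => (-1) * x) (by fun_prop) (by simp))
    have h3 := TH_smul (S := S) (b := b) z zc (hh2.mono e12) (-1)
    simp only [add_zero, mul_zero] at h2 h3
    rw [h2, h3] at h1
    linarith
  have hA0 : 0 ≤ TH S b (fun p => ‖g p‖ ^ 2) (fun _ => 0) (fun _ => 0) := by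
    refine TH_nonneg (hg2.mono e12) zc z fun p s t => ?_
    have : 0 ≤ ‖g p‖ ^ 2 * ‖s‖ ^ 2 := by positivity
    simpa using this
  have key : ∀ t : ℝ, 0 ≤ TH S b (fun p => ‖g p‖ ^ 2) (fun _ => 0) (fun _ => 0) * (t * t) +
      (- ell S b g) * t + TH S b (fun _ => 0) (fun _ => 0) (fun p => h p ^ 2) := by
    intro t
    have k1 : KK 2 fun p => t ^ 2 * ‖g p‖ ^ 2 :=
      (hg2.mono e12).comp (g := fun x : ℝ => t ^ 2 * x) (by fun_prop) (by simp)
    have k2 : KK 2 fun p => ((-t : ℝ) : ℂ) * g p := (hg.mono e12).cmul _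
    have k3 : KK 2 fun p => h p ^ 2 := hh2.mono e12
    have h1 : 0 ≤ TH S b (fun p => t ^ 2 * ‖g p‖ ^ 2) (fun p => ((-t : ℝ) : ℂ) * g p)
        (fun p => h p ^ 2) := by
      refine TH_nonneg k1 k2 k3 fun p s u => ?_
      have h2 : (((-t : ℝ) : ℂ) * g p * (conj s * u)).re ≥ - (|t| * ‖g p‖ * ‖s‖ * ‖u‖) := by
        have h3 := (abs_le.1 (Complex.abs_re_le_norm (((-t : ℝ) : ℂ) * g p * (conj s * u)))).1
        rw [norm_mul, norm_mul, norm_mul, Complex.norm_real, Complex.norm_conj, Real.norm_eq_abs,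
          abs_neg] at h3
        linarith
      by_cases hp : g p = 0
      · rw [hp]
        simp only [norm_zero, mul_zero, zero_mul, Complex.zero_re, ne_eq, OfNat.ofNat_ne_zero,
          not_false_eq_true, zero_pow, zero_add, add_zero]
        positivity
      · rw [hh1 p (subset_tsupport g hp)]
        have h4 : 0 ≤ (|t| * ‖g p‖ * ‖s‖ - ‖u‖) ^ 2 := sq_nonneg _
        have h5 : |t| ^ 2 = t ^ 2 := sq_abs t
        have h6 : (|t| * ‖g p‖ * ‖s‖ - ‖u‖) ^ 2 = |t| ^ 2 * ‖g p‖ ^ 2 * ‖s‖ ^ 2 -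
          2 * (|t| * ‖g p‖ * ‖s‖ * ‖u‖) + ‖u‖ ^ 2 := by ring
        rw [h6, h5] at h4
        linarith
    rw [TH_split k1 k2 k3] at h1
    have h2 := TH_smul (S := S) (b := b) (hg2.mono e12) zc z (t ^ 2)
    have h3 : TH S b (fun _ => 0) (fun p => ((-t : ℝ) : ℂ) * g p) (fun _ => 0) = -t * ell S b g :=
      ell_smul hg (-t)
    simp only [mul_zero] at h2
    rw [h2, h3] at h1
    linarith
  have h1 := discrim_le_zero key
  rw [discrim] at h1
  have h2 := mul_le_mul_of_nonneg_left hB (show 0 ≤ 4 *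
    TH S b (fun p => ‖g p‖ ^ 2) (fun _ => 0) (fun _ => 0) by positivity)
  nlinarith [h1, h2]

/-- existence of the gradient -/
theorem exists_grad {N : ℕ} {Y : ℂ → Fin N → ℂ} (hρ : 0 < ρ ∧ ρ < 1)
    (hY : ∀ i, Measurable fun z => Y z i) (hYρ : ∀ z i, ‖Y z i‖ ≤ ρ)
    (hT : ∀ f : ℂ × ℂ → ℝ, KK 1 f → TL S b f = ∫ z in ball (0 : ℂ) 1, ∑ i, f (z, Y z i)) :
    ∃ G : ℂ × ℂ → ℂ, StronglyMeasurable G ∧ MemLp G 2 (tau Y) ∧ ∀ c, KK 1 c →
      Integrable (fun p => 2 * (c p * G p).re * (1 - ‖b.m p‖ ^ 2)) (tau Y) ∧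
      ell S b c = ∫ p, 2 * (c p * G p).re * (1 - ‖b.m p‖ ^ 2) ∂(tau Y) := by
  classical
  obtain ⟨χ, hχ, hχ1, hχ0, -⟩ := exists_chi2
  set M := TH S b (fun _ => 0) (fun _ => 0) χ with hM
  have z := KK.zero (r := 2) ℝ
  have zc := KK.zero (r := 2) ℂ
  have hM0 : 0 ≤ M := by
    refine TH_nonneg z zc hχ fun p s t => ?_
    have := mul_nonneg (hχ0 p) (sq_nonneg ‖t‖)
    simpa using this
  have hsup := tau_supp hY hYρ
  -- bound of the horizontal part
  have hA : ∀ g : ℂ × ℂ → ℂ, KK 1 g → TH S b (fun p => ‖g p‖ ^ 2) (fun _ => 0) (fun _ => 0) ≤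
      ∫ p, ‖g p‖ ^ 2 ∂(tau Y) := by
    intro g hg
    have hg2 : KK 1 fun p => ‖g p‖ ^ 2 :=
      hg.comp (g := fun x : ℂ => ‖x‖ ^ 2) (by fun_prop) (by simp)
    have hi : ∀ f : ℂ × ℂ → ℝ, KK 1 f → Integrable f (tau Y) := fun f hf =>
      hf.cont.integrable_of_hasCompactSupport hf.hcs
    rw [TH_a, hT _ hg2.kap, ← tau_integral hY (hi _ hg2.kap)]
    refine integral_mono_ae (hi _ hg2.kap) (hi _ hg2) (Eventually.of_forall fun p => ?_)
    have h1 : 1 - ‖b.m p‖ ^ 2 ≤ 1 := by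
      have := sq_nonneg ‖b.m p‖
      linarith
    exact mul_le_of_le_one_right (sq_nonneg _) h1
  obtain ⟨P, hP2, hPm, hPr⟩ := riesz_of_bound (tau Y) KS
    (fun f hf => by
      have hf' : KK 1 f := hf
      exact hf'.cont.memLp_of_hasCompactSupport hf'.hcs) (Lam S b) (2 * Real.sqrt M) (by
      intro f
      obtain ⟨θ, hθ1, hθ⟩ : ∃ θ : ℂ, ‖θ‖ = 1 ∧ θ * Lam S b f = ‖Lam S b f‖ := by
        by_cases h0 : Lam S b f = 0
        · exact ⟨1, norm_one, by rw [h0]; simp⟩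
        · have hn : (‖Lam S b f‖ : ℂ) ≠ 0 := by exact_mod_cast norm_ne_zero_iff.2 h0
          refine ⟨conj (Lam S b f) / ‖Lam S b f‖, ?_, ?_⟩
          · rw [norm_div, Complex.norm_conj, Complex.norm_real, norm_norm]
            exact div_self (norm_ne_zero_iff.2 h0)
          · rw [div_mul_eq_mul_div, Complex.conj_mul', sq, mul_div_assoc, div_self hn, mul_one]
      have h1 : ‖Lam S b f‖ = ell S b ((θ • f : KS) : ℂ × ℂ → ℂ) := by
        rw [← Lam_re, map_smul, smul_eq_mul, hθ, Complex.ofReal_re]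
      have h2 := ell_sq_le (S := S) (b := b) hχ hχ1 hχ0 (θ • f : KS).2
      rw [← h1] at h2
      have h3 := hA _ (θ • f : KS).2
      have h4 : ∫ p, ‖((θ • f : KS) : ℂ × ℂ → ℂ) p‖ ^ 2 ∂(tau Y) =
          ∫ p, ‖(f : ℂ × ℂ → ℂ) p‖ ^ 2 ∂(tau Y) := by
        refine integral_congr_ae (Eventually.of_forall fun p => ?_)
        show ‖θ * (f : ℂ × ℂ → ℂ) p‖ ^ 2 = ‖(f : ℂ × ℂ → ℂ) p‖ ^ 2
        rw [norm_mul, hθ1, one_mul]
      rw [h4] at h3
      have h5 : ‖Lam S b f‖ ^ 2 ≤ 4 * (∫ p, ‖(f : ℂ × ℂ → ℂ) p‖ ^ 2 ∂(tau Y)) * M :=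
        h2.trans (mul_le_mul_of_nonneg_right (by linarith) hM0)
      have h6 : 0 ≤ ∫ p, ‖(f : ℂ × ℂ → ℂ) p‖ ^ 2 ∂(tau Y) :=
        integral_nonneg fun p => sq_nonneg _
      refine abs_le_of_sq_le_sq' ?_ (by positivity) |>.2
      rw [mul_pow, mul_pow, Real.sq_sqrt hM0, Real.sq_sqrt h6]
      linarith)
  -- divide by the density
  set κ : ℂ × ℂ → ℝ := fun p => 1 - ‖(PD 2).indicator b.m p‖ ^ 2 with hκ
  have hκm : Measurable κ := by
    have h1 : Measurable ((PD 2).indicator b.m) := by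
      have : (PD 2).indicator b.m = (PD 2).piecewise b.m (fun _ => 0) := by
        funext p
        simp [indicator, piecewise]
      rw [this]
      exact ContinuousOn.measurable_piecewise b.m_smooth.continuousOn continuousOn_const
        (isOpen_PD 2).measurableSet
    exact measurable_const.sub (h1.norm.pow_const 2)
  have hκ1 : ∀ p ∈ PD 2, κ p = 1 - ‖b.m p‖ ^ 2 := fun p hp => by
    simp only [hκ, indicator_of_mem hp]
  have hκpos : ∀ p, 0 < κ p := by
    intro p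
    by_cases hp : p ∈ PD 2
    · rw [hκ1 p hp]; exact one_sub_pos b hp
    · simp only [hκ, indicator_of_notMem hp]; norm_num
  have hsupPD : ∀ p : ℂ × ℂ, ‖p.1‖ < 1 ∧ ‖p.2‖ ≤ ρ → p ∈ PD 2 := by
    intro p hp
    refine ⟨?_, ?_⟩
    · rw [mem_ball, dist_zero_right]; linarith [hp.1]
    · rw [mem_ball, dist_zero_right]; linarith [hp.2, hρ.2]
  obtain ⟨κ₀, hκ₀, hκb⟩ := exists_kap b
  refine ⟨fun p => P p / (2 * κ p), ?_, ?_, fun c hc => ?_⟩
  · exact (hPm.measurable.div (measurable_const.mul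
      (Complex.measurable_ofReal.comp hκm))).stronglyMeasurable
  · refine hP2.of_le_mul (c := (2 * κ₀)⁻¹) ?_ ?_
    · exact (hPm.measurable.div (measurable_const.mul
        (Complex.measurable_ofReal.comp hκm))).aestronglyMeasurable
    · filter_upwards [hsup] with p hp
      have h1 : κ₀ ≤ κ p := by
        rw [hκ1 p (hsupPD p hp)]
        exact hκb p hp.1.le (hp.2.trans hρ.2.le)
      have h2 : ‖(2 * (κ p : ℂ))‖ = 2 * κ p := by
        rw [norm_mul, Complex.norm_real, Real.norm_of_nonneg (hκpos p).le]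
        simp
      rw [norm_div, h2, div_eq_inv_mul]
      refine mul_le_mul_of_nonneg_right ?_ (norm_nonneg _)
      exact inv_anti₀ (by positivity) (by linarith)
  · obtain ⟨h1, h2⟩ := hPr ⟨c, hc⟩
    have h3 : ell S b c = (∫ p, c p * P p ∂(tau Y)).re := by
      rw [← h2, Lam_re]
    have h4 : (fun p => 2 * (c p * (P p / (2 * κ p))).re * (1 - ‖b.m p‖ ^ 2)) =ᵐ[tau Y]
        fun p => (c p * P p).re := by
      filter_upwards [hsup] with p hp
      have h5 := hκ1 p (hsupPD p hp)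
      rw [← h5]
      have h6 : c p * (P p / (2 * (κ p : ℂ))) = ((2 * κ p)⁻¹ : ℝ) * (c p * P p) := by
        push_cast
        rw [div_eq_mul_inv]
        ring
      rw [h6, Complex.re_ofReal_mul]
      have h7 := (hκpos p).ne'
      field_simp
    have h5 : Integrable (fun p => (c p * P p).re) (tau Y) := h1.re
    refine ⟨h5.congr h4.symm, ?_⟩
    rw [integral_congr_ae h4, h3]
    exact (integral_re h1).symm

end Vale.Agent.P247L.H899
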