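import Vale.Agent.P247L.MSlice

/-!
# The sheets of the current in a good box
-/

open scoped ContDiff Topology ComplexConjugate
open Set MeasureTheory Filter Metric

noncomputable section

namespace Vale.Agent.P247L.H899

open Vale.Agent.P247.H74 Vale.Agent.P247.H574 Vale.Agent.P247.H264 Vale.Agent.P247.H899

/-- exterior derivative on `ℂ × ℂ` -/
def dal (al : ℂ × ℂ → (ℂ × ℂ) →L[ℝ] ℝ) (p : ℂ × ℂ) : (ℂ × ℂ) →L[ℝ] (ℂ × ℂ) →L[ℝ] ℝ :=
  fderiv ℝ al p - (fderiv ℝ al p).flip

lemma dal_apply (al : ℂ × ℂ → (ℂ × ℂ) →L[ℝ] ℝ) (p v w : ℂ × ℂ) :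
    dal al p v w = fderiv ℝ al p v w - fderiv ℝ al p w v := by
  simp only [dal, sub_apply, ContinuousLinearMap.flip_apply]

section

variable {D : Data} (b : Box D)

lemma dd_push1_eq {al : ℂ × ℂ → (ℂ × ℂ) →L[ℝ] ℝ} (hal : ContDiffOn ℝ ∞ al (PD 2))
    {K : Set (ℂ × ℂ)} (hK : IsCompact K) (hK2 : K ⊆ PD 2) (h0 : ∀ p, p ∉ K → al p = 0) :
    dd (push1 b al) = push2 b (dal al) := by
  funext x
  by_cases hx : x ∈ b.Θ '' PD 2
  · obtain ⟨p, hp, rfl⟩ := hx
    refine f2_ext b hp fun v w => ?_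
    rw [push2_apply b _ hp, dd_push1 b hal hK hK2 h0 hp, dal_apply]
  · rw [push2_off b _ hx]
    have hc := (isCompact_image b hK hK2).isClosed
    have h1 : push1 b al =ᶠ[𝓝 x] fun _ => 0 := by
      filter_upwards [hc.isOpen_compl.mem_nhds (fun h => hx (image_mono hK2 h))] with y hy
      exact push1_zero_off b h0 (fun h => hy (image_mono inter_subset_left h))
    have h2 : fderiv ℝ (push1 b al) x = 0 := by
      rw [h1.fderiv_eq]; exact hasFDerivAt_const (0 : R4 →L[ℝ] ℝ) x |>.fderiv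
    refine ext_F2 fun u v => ?_
    show (fderiv ℝ (push1 b al) x) u v - (fderiv ℝ (push1 b al) x) v u = 0
    rw [h2]
    show (0 : ℝ) - 0 = 0
    ring

lemma dal_cf {al : ℂ × ℂ → (ℂ × ℂ) →L[ℝ] ℝ} (hal : ContDiffOn ℝ ∞ al (PD 2))
    {K : Set (ℂ × ℂ)} (hK : IsCompact K) (hK2 : K ⊆ PD 2) (h0 : ∀ p, p ∉ K → al p = 0) :
    CF (push2 b (dal al)) ∧ tsupport (push2 b (dal al)) ⊆ b.Θ '' K := by
  have hd : ContinuousOn (fderiv ℝ al) (PD 2) :=
    (hal.fderiv_of_isOpen (m := ∞) (isOpen_PD 2) (by simp)).continuousOn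
  refine push2_cf b ?_ hK hK2 (fun p hp => ?_) (fun p _ v => ?_)
  · refine continuousOn_bilin fun v w => ?_
    simp only [dal_apply]
    exact ((hd.clm_apply continuousOn_const).clm_apply continuousOn_const).sub
      ((hd.clm_apply continuousOn_const).clm_apply continuousOn_const)
  · have h1 : al =ᶠ[𝓝 p] fun _ => 0 := by
      filter_upwards [hK.isClosed.isOpen_compl.mem_nhds hp] with q hq using h0 q hq
    have h2 : fderiv ℝ al p = 0 := by
      rw [h1.fderiv_eq]; exact (hasFDerivAt_const (0 : (ℂ × ℂ) →L[ℝ] ℝ) p).fderiv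
    refine ContinuousLinearMap.ext fun v => ContinuousLinearMap.ext fun w => ?_
    rw [dal_apply, h2]
    simp
  · rw [dal_apply, sub_self]

theorem T_dal (S : ICur D) (hW : b.Θ '' PD 2 ⊆ S.W) {al : ℂ × ℂ → (ℂ × ℂ) →L[ℝ] ℝ}
    (hal : ContDiffOn ℝ ∞ al (PD 2))
    {K : Set (ℂ × ℂ)} (hK : IsCompact K) (hK2 : K ⊆ PD 2) (h0 : ∀ p, p ∉ K → al p = 0) :
    S.T (push2 b (dal al)) = 0 := by
  obtain ⟨h1, h2⟩ := push1_contDiff b hal hK hK2 h0
  rw [← dd_push1_eq b hal hK hK2 h0]
  refine S.closed _ h1 h2 ?_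
  refine (closure_minimal (fun x hx => ?_) (isCompact_image b hK hK2).isClosed).trans
    ((image_mono hK2).trans hW)
  by_contra h
  exact hx (push1_zero_off b h0 (fun h' => h (image_mono inter_subset_left h')))

end

variable {D : Data} {S : ICur D} {b : Box D} {ρ : ℝ}

/-- smooth compactly supported functions in the good region -/
lemma exists_cut {r : ℝ} (hr : r < 1) : ∃ ζ : ℂ → ℝ, Continuous ζ ∧ (∀ z, ‖z‖ ≤ r → ζ z = 1) ∧
    ∃ r' < 1, ∀ z, r' ≤ ‖z‖ → ζ z = 0 := by
  refine ⟨fun z => max 0 (min 1 ((1 + r - 2 * ‖z‖) / (1 - r))), by fun_prop, fun z hz => ?_,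
    (1 + r) / 2, by linarith, fun z hz => ?_⟩
  · have h1 : 0 < 1 - r := by linarith
    have h2 : 1 ≤ (1 + r - 2 * ‖z‖) / (1 - r) := by
      rw [le_div_iff₀ h1]; linarith
    simp only
    rw [min_eq_left h2, max_eq_right zero_le_one]
  · have h1 : 0 < 1 - r := by linarith
    have h2 : (1 + r - 2 * ‖z‖) / (1 - r) ≤ 0 := by
      rw [div_le_iff₀ h1]; linarith
    simp only
    rw [max_eq_left]
    exact (min_le_right _ _).trans h2

/-- one-forms `ζ(z) ψ(y) λ(dz)` -/
def alf (ζ ψ : ℂ → ℝ) (L : ℂ →L[ℝ] ℝ) (p : ℂ × ℂ) : (ℂ × ℂ) →L[ℝ] ℝ :=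
  (ζ p.1 * ψ p.2) • L.comp (ContinuousLinearMap.fst ℝ ℂ ℂ)

lemma fderiv_alf {ζ ψ : ℂ → ℝ} (hζ : ContDiff ℝ ∞ ζ) (hψ : ContDiff ℝ ∞ ψ) (L : ℂ →L[ℝ] ℝ)
    (p v w : ℂ × ℂ) : fderiv ℝ (alf ζ ψ L) p v w =
      (fderiv ℝ ζ p.1 v.1 * ψ p.2 + ζ p.1 * fderiv ℝ ψ p.2 v.2) * L w.1 := by
  have h1 : HasFDerivAt (fun p : ℂ × ℂ => ζ p.1) ((fderiv ℝ ζ p.1).comp
      (ContinuousLinearMap.fst ℝ ℂ ℂ)) p :=
    ((hζ.differentiable (by simp) _).hasFDerivAt).comp p (hasFDerivAt_fst (p := p))
  have h2 : HasFDerivAt (fun p : ℂ × ℂ => ψ p.2) ((fderiv ℝ ψ p.2).comp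
      (ContinuousLinearMap.snd ℝ ℂ ℂ)) p :=
    ((hψ.differentiable (by simp) _).hasFDerivAt).comp p (hasFDerivAt_snd (p := p))
  have h3 := (h1.mul h2).smul_const (L.comp (ContinuousLinearMap.fst ℝ ℂ ℂ))
  have h4 : HasFDerivAt (alf ζ ψ L) _ p := h3
  rw [h4.fderiv]
  show (ζ p.1 * fderiv ℝ ψ p.2 v.2 + ψ p.2 * fderiv ℝ ζ p.1 v.1) * L w.1 = _
  ring

theorem exists_sheets (hG : GoodBox S b ρ) : ∃ (N : ℕ) (Y : ℂ → Fin N → ℂ),
    (∀ i, Measurable fun z => Y z i) ∧ (∀ z i, ‖Y z i‖ ≤ ρ) ∧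
    ∀ f : ℂ × ℂ → ℝ, KK 1 f → TL S b f = ∫ z in ball (0 : ℂ) 1, ∑ i, f (z, Y z i) := by
  classical
  have hρ : 0 < ρ ∧ ρ < 1 := ⟨hG.1, hG.2.1⟩
  obtain ⟨s, hs, hf⟩ := exists_slices hG
  -- the number of sheets
  set n : ℂ → ℝ := fun z => ((s z).card : ℝ) with hn
  have hcard : ∀ᵐ z ∂volume.restrict (ball (0 : ℂ) 1),
      ((s z).map fun y => (bmp hρ y : ℝ)).sum = n z := by
    filter_upwards [hs] with z hz
    rw [Multiset.map_congr rfl (fun y hy => bmp_one hρ (hz y hy))]
    simp [hn]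
  have hnint : ∀ r < 1, IntegrableOn n (ball 0 r) := by
    intro r hr
    obtain ⟨ζ, hζc, hζ1, r', hr', hζ0⟩ := exists_cut hr
    have hK : KK 1 (fun p : ℂ × ℂ => ζ p.1 * bmp hρ p.2) := by
      refine KK.of_prod ((hζc.comp continuous_fst).mul ((bmp hρ).continuous.comp continuous_snd))
        hr' (bmp_rOut hρ) ?_
      rintro p (h | h)
      · rw [hζ0 _ h.le, zero_mul]
      · rw [bmp_off hρ h.le, mul_zero]
    have h1 := (hf _ hK).1
    have h2 : IntegrableOn (fun z => ((s z).map fun y => ζ z * (bmp hρ y : ℝ)).sum) (ball 0 r) :=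
      h1.mono_set (ball_subset_ball hr.le)
    refine h2.congr ?_
    have h3 : ∀ᵐ z ∂volume.restrict (ball (0 : ℂ) r),
        ((s z).map fun y => (bmp hρ y : ℝ)).sum = n z :=
      ae_restrict_of_ae_restrict_of_subset (ball_subset_ball hr.le) hcard
    filter_upwards [h3, ae_restrict_mem measurableSet_ball] with z hz hzb
    rw [mem_ball, dist_zero_right] at hzb
    rw [hζ1 z hzb.le]
    simp only [one_mul]
    exact hz
  obtain ⟨c, hc⟩ : ∃ c : ℝ, ∀ᵐ z ∂volume.restrict (ball (0 : ℂ) 1), n z = c := by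
    refine exists_const_loc hnint ?_
    intro v hv ζ hζ hζc hζt
    -- the one-form
    obtain ⟨L, hL⟩ : ∃ L : ℂ →L[ℝ] ℝ, ∀ (E : ℂ →L[ℝ] ℝ) (x y : ℂ), E x * L y - E y * L x =
        E v * (x.re * y.im - x.im * y.re) := by
      have hE : ∀ (E : ℂ →L[ℝ] ℝ) (x : ℂ), E x = x.re * E 1 + x.im * E Complex.I := by
        intro E x
        have e : x = x.re • (1 : ℂ) + x.im • Complex.I := by apply Complex.ext <;> simp
        conv_lhs => rw [e]
        rw [map_add, map_smul, map_smul, smul_eq_mul, smul_eq_mul]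
      rcases hv with rfl | rfl
      · refine ⟨Complex.imCLM, fun E x y => ?_⟩
        rw [hE E x, hE E y]
        simp only [Complex.imCLM_apply]
        ring
      · refine ⟨-Complex.reCLM, fun E x y => ?_⟩
        rw [hE E x, hE E y]
        simp only [neg_apply, Complex.reCLM_apply]
        ring
    have hψ : ContDiff ℝ ∞ (bmp hρ : ℂ → ℝ) := (bmp hρ).contDiff
    have hal : ContDiff ℝ ∞ (alf ζ (bmp hρ) L) :=
      ((hζ.comp contDiff_fst).mul (hψ.comp contDiff_snd)).smul contDiff_const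
    set K : Set (ℂ × ℂ) := tsupport ζ ×ˢ tsupport (bmp hρ : ℂ → ℝ) with hKdef
    have hKc : IsCompact K := hζc.isCompact.prod (bmp hρ).hasCompactSupport.isCompact
    have hK1 : K ⊆ PD 1 := prod_mono hζt (bmp_tsupport hρ)
    have hK2 : K ⊆ PD 2 := hK1.trans (PD_mono one_le_two)
    have hz0 : ∀ p : ℂ × ℂ, p ∉ K → ζ p.1 = 0 ∨ bmp hρ p.2 = 0 := by
      intro p hp
      by_contra h
      push Not at h
      exact hp ⟨subset_tsupport _ h.1, subset_tsupport _ h.2⟩
    have h0 : ∀ p, p ∉ K → alf ζ (bmp hρ) L p = 0 := by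
      intro p hp
      rw [alf]
      rcases hz0 p hp with h | h <;> rw [h] <;> simp
    have h1 := T_dal b S hG.2.2.2 hal.contDiffOn hKc hK2 h0
    have hfd : Continuous fun z => fderiv ℝ ζ z v :=
      (hζ.continuous_fderiv (by simp)).clm_apply continuous_const
    have hfd0 : ∀ z, z ∉ tsupport ζ → fderiv ℝ ζ z v = 0 := by
      intro z hz
      have : fderiv ℝ ζ z = 0 := image_eq_zero_of_notMem_tsupport fun h =>
        hz (tsupport_fderiv_subset ℝ h)
      rw [this]; rfl
    have hfK : KK 1 fun p : ℂ × ℂ => fderiv ℝ ζ p.1 v * bmp hρ p.2 := by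
      have hs : tsupport (fun p : ℂ × ℂ => fderiv ℝ ζ p.1 v * bmp hρ p.2) ⊆ K := by
        refine closure_minimal (fun p hp => ?_) hKc.isClosed
        by_contra h
        refine hp ?_
        by_cases h3 : p.1 ∈ tsupport ζ
        · have h4 : p.2 ∉ tsupport (bmp hρ : ℂ → ℝ) := fun h5 => h ⟨h3, h5⟩
          simp only
          rw [image_eq_zero_of_notMem_tsupport h4, mul_zero]
        · simp only
          rw [hfd0 _ h3, zero_mul]
      exact ⟨(hfd.comp continuous_fst).mul ((bmp hρ).continuous.comp continuous_snd),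
        hKc.of_isClosed_subset (isClosed_tsupport _) hs, hs.trans hK1⟩
    have h2 : TL S b (fun p => fderiv ℝ ζ p.1 v * bmp hρ p.2) = 0 := by
      rw [← h1]
      refine T_congr S hfK.isPush.cf (dal_cf b hal.contDiffOn hKc hK2 h0).1 fun x hx => ?_
      by_cases hx' : x ∈ b.Θ '' PD 2
      · obtain ⟨p, hp, rfl⟩ := hx'
        refine f2_ext b hp fun u w => ?_
        rw [push2_apply b _ hp, push2_apply b _ hp, dal_apply, fderiv_alf hζ hψ,
          fderiv_alf hζ hψ]
        simp only [smul_apply, lam_apply, smul_eq_mul]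
        by_cases hp1 : p ∈ PD 1
        · have hy := good_lt hG hp1 hx
          have h3 : fderiv ℝ (bmp hρ : ℂ → ℝ) p.2 = 0 := by
            rw [(show (bmp hρ : ℂ → ℝ) =ᶠ[𝓝 p.2] fun _ => 1 from
              bmp_eventually hρ hy.le).fderiv_eq]
            simp
          rw [h3, bmp_one hρ hy.le]
          have := hL (fderiv ℝ ζ p.1) u.1 w.1
          simp only [zero_apply, mul_zero, add_zero, mul_one]
          linarith
        · have h3 : p ∉ K := fun h => hp1 (hK1 h)
          by_cases h4 : p.1 ∈ tsupport ζ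
          · have h5 : p.2 ∉ tsupport (bmp hρ : ℂ → ℝ) := fun h5 => h3 ⟨h4, h5⟩
            have h6 : fderiv ℝ (bmp hρ : ℂ → ℝ) p.2 = 0 := image_eq_zero_of_notMem_tsupport
              fun h => h5 (tsupport_fderiv_subset ℝ h)
            rw [h6, image_eq_zero_of_notMem_tsupport h5]
            simp
          · have h6 : fderiv ℝ ζ p.1 = 0 := image_eq_zero_of_notMem_tsupport
              fun h => h4 (tsupport_fderiv_subset ℝ h)
            rw [h6, image_eq_zero_of_notMem_tsupport h4]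
            simp
      · rw [push2_off b _ hx', push2_off b _ hx']
    rw [(hf _ hfK).2] at h2
    rw [← h2, ← setIntegral_eq_integral_of_forall_compl_eq_zero (s := ball (0 : ℂ) 1)
      (fun z hz => by rw [hfd0 z (fun h => hz (hζt h)), mul_zero])]
    refine integral_congr_ae ?_
    filter_upwards [hcard] with z hz
    rw [Multiset.sum_map_mul_left, hz, mul_comm]
  have hne : (ae (volume.restrict (ball (0 : ℂ) 1))).NeBot := by
    rw [ae_neBot, ne_eq, Measure.restrict_eq_zero]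
    exact (measure_ball_pos volume (0 : ℂ) one_pos).ne'
  obtain ⟨z₀, hz₀⟩ := hc.exists
  set N : ℕ := (s z₀).card with hN
  have hcN : c = N := hz₀.symm
  -- modify on a null set
  set s' : ℂ → Multiset ℂ := fun z => if (s z).card = N then s z else Multiset.replicate N 0
    with hs'
  have hs'c : ∀ z, (s' z).card = N := by
    intro z
    simp only [hs']
    split_ifs with h
    · exact h
    · exact Multiset.card_replicate _ _
  have hss : ∀ᵐ z ∂volume.restrict (ball (0 : ℂ) 1), s' z = s z := by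
    filter_upwards [hc] with z hz
    rw [hcN] at hz
    have : (s z).card = N := by
      have h1 : ((s z).card : ℝ) = N := hz
      exact_mod_cast h1
    simp only [hs']
    rw [if_pos this]
  have hmeas : ∀ F : ℂ → ℝ, Continuous F →
      AEMeasurable (fun z => ((s' z).map F).sum) (volume.restrict (ball (0 : ℂ) 1)) := by
    intro F hF
    have h1 : ∀ k : ℕ, AEMeasurable (fun z => ((s z).map fun y =>
        max 0 ((1 - 1 / ((k : ℝ) + 1)) - ‖z‖) * (F y * bmp hρ y)).sum)
        (volume.restrict (ball (0 : ℂ) 1)) := by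
      intro k
      have hK : KK 1 (fun p : ℂ × ℂ => max 0 ((1 - 1 / ((k : ℝ) + 1)) - ‖p.1‖) *
          (F p.2 * bmp hρ p.2)) := by
        have hb : Continuous fun p : ℂ × ℂ => (bmp hρ p.2 : ℝ) :=
          (bmp hρ).continuous.comp continuous_snd
        refine KK.of_prod (r := 1 - 1 / ((k : ℝ) + 1)) (s := (bmp hρ).rOut) ?_
          (by
            have : 0 < 1 / ((k : ℝ) + 1) := by positivity
            linarith) (bmp_rOut hρ) ?_
        · exact (by fun_prop : Continuous fun p : ℂ × ℂ =>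
            max 0 ((1 - 1 / ((k : ℝ) + 1)) - ‖p.1‖)).mul ((hF.comp continuous_snd).mul hb)
        · rintro p (h | h)
          · rw [max_eq_left (by linarith), zero_mul]
          · rw [bmp_off hρ h.le, mul_zero, mul_zero]
      exact (hf _ hK).1.aestronglyMeasurable.aemeasurable
    have h2 : AEMeasurable (fun z => (1 - ‖z‖) * ((s z).map F).sum)
        (volume.restrict (ball (0 : ℂ) 1)) := by
      refine aemeasurable_of_tendsto_metrizable_ae atTop h1 ?_
      filter_upwards [hs, ae_restrict_mem measurableSet_ball] with z hz hzb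
      rw [mem_ball, dist_zero_right] at hzb
      have h3 : ∀ k : ℕ, ((s z).map fun y =>
          max 0 ((1 - 1 / ((k : ℝ) + 1)) - ‖z‖) * (F y * bmp hρ y)).sum =
          max 0 ((1 - 1 / ((k : ℝ) + 1)) - ‖z‖) * ((s z).map F).sum := by
        intro k
        rw [Multiset.sum_map_mul_left]
        congr 2
        refine Multiset.map_congr rfl fun y hy => ?_
        rw [bmp_one hρ (hz y hy), mul_one]
      simp only [h3]
      refine Tendsto.mul_const _ ?_
      have h4 : Tendsto (fun k : ℕ => max 0 ((1 - 1 / ((k : ℝ) + 1)) - ‖z‖)) atTop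
          (𝓝 (max 0 ((1 - 0) - ‖z‖))) :=
        tendsto_const_nhds.max ((tendsto_const_nhds.sub
          tendsto_one_div_add_atTop_nhds_zero_nat).sub tendsto_const_nhds)
      rwa [sub_zero, max_eq_right (by linarith)] at h4
    have h3 : AEMeasurable (fun z => (1 - ‖z‖)⁻¹ * ((1 - ‖z‖) * ((s z).map F).sum))
        (volume.restrict (ball (0 : ℂ) 1)) :=
      ((measurable_const.sub measurable_norm).inv.aemeasurable).mul h2
    refine h3.congr ?_
    filter_upwards [hss, ae_restrict_mem measurableSet_ball] with z hz hzb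
    rw [mem_ball, dist_zero_right] at hzb
    rw [hz, inv_mul_cancel_left₀ (by linarith)]
  obtain ⟨Y₀, hY₀, hsY⟩ := exists_enum hs'c hmeas
  -- the final choice
  let Y : ℂ → Fin N → ℂ := fun z i => if ‖(hY₀ i).mk _ z‖ ≤ ρ then (hY₀ i).mk _ z else 0
  have hYY : ∀ᵐ z ∂volume.restrict (ball (0 : ℂ) 1), ∀ i, Y z i = Y₀ z i := by
    rw [ae_all_iff]
    intro i
    filter_upwards [(hY₀ i).ae_eq_mk, hs, hss] with z hz hza hzs
    have h1 : Y₀ z i ∈ s z := by
      rw [← hzs, hsY z]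
      exact Multiset.mem_map_of_mem _ (Finset.mem_univ i)
    have h2 := hza _ h1
    have h3 : (hY₀ i).mk _ z = Y₀ z i := hz.symm
    simp only [Y]
    rw [h3, if_pos h2]
  refine ⟨N, Y, fun i => ?_, fun z i => ?_, fun f hfK => ?_⟩
  · exact Measurable.ite (measurableSet_le (hY₀ i).measurable_mk.norm measurable_const)
      (hY₀ i).measurable_mk measurable_const
  · simp only [Y]
    split_ifs with h
    · exact h
    · rw [norm_zero]; exact hρ.1.le
  · rw [(hf f hfK).2]
    refine integral_congr_ae ?_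
    filter_upwards [hYY, hss] with z hz hzs
    rw [← hzs, hsY z, Multiset.map_map]
    simp only [hz]
    rfl

end Vale.Agent.P247L.H899
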