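import Vale.Agent.P247L.MLoc
import Vale.Agent.P247.H899.Const
import Vale.Agent.P247.H899.Enum

/-!
# The slices of the current in a good box
-/

open scoped ContDiff Topology ComplexConjugate
open Set MeasureTheory Filter Metric

noncomputable section

namespace Vale.Agent.P247L.H899

open Vale.Agent.P247.H74 Vale.Agent.P247.H574 Vale.Agent.P247.H264 Vale.Agent.P247.H899

/-! ## Sums of Dirac measures -/

lemma int_sum_dirac (s : Multiset ℂ) (f : ℂ → ℝ) :
    Integrable f ((s.map Measure.dirac).sum) ∧ ∫ y, f y ∂((s.map Measure.dirac).sum) =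
      (s.map f).sum := by
  induction s using Multiset.induction_on with
  | empty => simp
  | cons a m ih =>
    have h1 : Integrable f (Measure.dirac a) := integrable_dirac (by simp)
    rw [Multiset.map_cons, Multiset.sum_cons, Multiset.map_cons, Multiset.sum_cons]
    refine ⟨h1.add_measure ih.1, ?_⟩
    rw [integral_add_measure h1 ih.1, integral_dirac, ih.2]

lemma one_le_sum_dirac {s : Multiset ℂ} {y : ℂ} (hy : y ∈ s) {A : Set ℂ} (hA : y ∈ A) :
    1 ≤ (s.map Measure.dirac).sum A := by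
  obtain ⟨t, rfl⟩ := Multiset.exists_cons_of_mem hy
  rw [Multiset.map_cons, Multiset.sum_cons, Measure.add_apply]
  have h1 : (1 : ENNReal) ≤ Measure.dirac y A := by
    have := Measure.le_dirac_apply (a := y) (s := A)
    rwa [indicator_of_mem hA] at this
  exact h1.trans (le_add_of_nonneg_right bot_le)

/-! ## cut-offs -/

/-- a smooth cut-off in the vertical variable -/
def bmp {ρ : ℝ} (h : 0 < ρ ∧ ρ < 1) : ContDiffBump (0 : ℂ) :=
  ⟨(2 * ρ + 1) / 3, (ρ + 2) / 3, by linarith [h.1], by linarith [h.2]⟩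

lemma bmp_rIn {ρ : ℝ} (h : 0 < ρ ∧ ρ < 1) : ρ < (bmp h).rIn := by
  show ρ < (2 * ρ + 1) / 3
  linarith [h.2]

lemma bmp_rOut {ρ : ℝ} (h : 0 < ρ ∧ ρ < 1) : (bmp h).rOut < 1 := by
  show (ρ + 2) / 3 < 1
  linarith [h.2]

lemma bmp_one {ρ : ℝ} (h : 0 < ρ ∧ ρ < 1) {y : ℂ} (hy : ‖y‖ ≤ ρ) : bmp h y = 1 :=
  (bmp h).one_of_mem_closedBall (by
    rw [mem_closedBall, dist_zero_right]; exact hy.trans (bmp_rIn h).le)

lemma bmp_eventually {ρ : ℝ} (h : 0 < ρ ∧ ρ < 1) {y : ℂ} (hy : ‖y‖ ≤ ρ) :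
    ∀ᶠ w in 𝓝 y, bmp h w = 1 := by
  have h1 : y ∈ ball (0 : ℂ) (bmp h).rIn := by
    rw [mem_ball, dist_zero_right]; exact hy.trans_lt (bmp_rIn h)
  filter_upwards [isOpen_ball.mem_nhds h1] with w hw
  exact (bmp h).one_of_mem_closedBall (ball_subset_closedBall hw)

lemma bmp_off {ρ : ℝ} (h : 0 < ρ ∧ ρ < 1) {y : ℂ} (hy : (bmp h).rOut ≤ ‖y‖) : bmp h y = 0 :=
  (bmp h).zero_of_le_dist (by rwa [dist_zero_right])

lemma bmp_tsupport {ρ : ℝ} (h : 0 < ρ ∧ ρ < 1) : tsupport (bmp h) ⊆ ball (0 : ℂ) 1 := by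
  rw [(bmp h).tsupport_eq]
  exact closedBall_subset_ball (bmp_rOut h)

lemma KK.of_prod {E : Type*} [NormedAddCommGroup E] {f : ℂ × ℂ → E} (hf : Continuous f)
    {r s : ℝ} (hr : r < 1) (hs : s < 1) (h0 : ∀ p : ℂ × ℂ, r < ‖p.1‖ ∨ s < ‖p.2‖ → f p = 0) :
    KK 1 f := by
  have hK : IsCompact (closedBall (0 : ℂ) r ×ˢ closedBall (0 : ℂ) s) :=
    (isCompact_closedBall _ _).prod (isCompact_closedBall _ _)
  have h1 : tsupport f ⊆ closedBall (0 : ℂ) r ×ˢ closedBall (0 : ℂ) s := by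
    refine closure_minimal (fun p hp => ?_) hK.isClosed
    by_contra h
    refine hp (h0 p ?_)
    rw [mem_prod, mem_closedBall, dist_zero_right, mem_closedBall, dist_zero_right] at h
    by_contra h2
    push Not at h2
    exact h ⟨h2.1, h2.2⟩
  exact ⟨hf, hK.of_isClosed_subset (isClosed_tsupport f) h1,
    h1.trans (prod_mono (closedBall_subset_ball hr) (closedBall_subset_ball hs))⟩

variable {D : Data} {S : ICur D} {b : Box D} {ρ : ℝ}

/-! ## the functional on multiples of the horizontal area form -/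

variable (S b) in
/-- the current on `f dx ∧ dy` -/
def TL (f : ℂ × ℂ → ℝ) : ℝ := S.T (push2 b fun p => f p • lam)

lemma KK.isPush {f : ℂ × ℂ → ℝ} (hf : KK 1 f) : IsPush b f (push2 b fun p => f p • lam) :=
  (exists_isPush b hf.cont hf.hcs (hf.sub.trans (PD_mono one_le_two))).1

lemma KK.eq_zero {E : Type*} [TopologicalSpace E] [Zero E] {f : ℂ × ℂ → E} {r : ℝ}
    (hf : KK r f) {p : ℂ × ℂ} (hp : p ∉ PD r) : f p = 0 :=
  image_eq_zero_of_notMem_tsupport fun h => hp (hf.sub h)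

lemma TL_congr (hG : GoodBox S b ρ) {f g : ℂ × ℂ → ℝ} (hf : KK 1 f) (hg : KK 1 g)
    (h : ∀ p, ‖p.2‖ < ρ → f p = g p) : TL S b f = TL S b g := by
  refine T_congr S hf.isPush.cf hg.isPush.cf fun x hx => ?_
  by_cases hx' : x ∈ b.Θ '' PD 2
  · obtain ⟨p, hp, rfl⟩ := hx'
    refine f2_ext b hp fun v w => ?_
    rw [push2_apply b _ hp, push2_apply b _ hp]
    by_cases h1 : p ∈ PD 1
    · rw [h p (good_lt hG h1 hx)]
    · rw [hf.eq_zero h1, hg.eq_zero h1]
  · rw [push2_off b _ hx', push2_off b _ hx']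

/-- the slices -/
theorem exists_slices (hG : GoodBox S b ρ) : ∃ s : ℂ → Multiset ℂ,
    (∀ᵐ z ∂volume.restrict (ball (0 : ℂ) 1), ∀ y ∈ s z, ‖y‖ ≤ ρ) ∧
    ∀ f : ℂ × ℂ → ℝ, KK 1 f →
      IntegrableOn (fun z => ((s z).map fun y => f (z, y)).sum) (ball 0 1) ∧
      TL S b f = ∫ z in ball (0 : ℂ) 1, ((s z).map fun y => f (z, y)).sum := by
  classical
  have hρ : 0 < ρ ∧ ρ < 1 := ⟨hG.1, hG.2.1⟩
  obtain ⟨ν, hν, hf⟩ := S.int b hG.2.2.2
  set r₁ : ℝ := (bmp hρ).rOut with hr₁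
  have hr1 : r₁ < 1 := bmp_rOut hρ
  let s : ℂ → Multiset ℂ := fun z =>
    if h : ∃ s : Multiset ℂ, (ν z).restrict (ball 0 r₁) = (s.map Measure.dirac).sum
    then h.choose else 0
  have hs : ∀ᵐ z ∂volume.restrict (ball (0 : ℂ) 1),
      (ν z).restrict (ball 0 r₁) = ((s z).map Measure.dirac).sum := by
    filter_upwards [hν] with z hz
    have h := hz r₁ hr1
    show _ = ((dite _ _ _ : Multiset ℂ).map Measure.dirac).sum
    rw [dif_pos h]
    exact h.choose_spec
  -- integrals of functions which vanish off the small ball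
  have hint : ∀ᵐ z ∂volume.restrict (ball (0 : ℂ) 1), ∀ g : ℂ → ℝ,
      (∀ y, r₁ ≤ ‖y‖ → g y = 0) → ∫ y, g y ∂(ν z) = ((s z).map g).sum := by
    filter_upwards [hs] with z hz g hg
    rw [← setIntegral_eq_integral_of_forall_compl_eq_zero (s := ball (0 : ℂ) r₁), hz,
      (int_sum_dirac _ _).2]
    intro y hy
    refine hg y ?_
    rwa [mem_ball, dist_zero_right, not_lt] at hy
  have hball : ∀ᵐ z ∂volume.restrict (ball (0 : ℂ) 1), ∀ y ∈ s z, y ∈ ball (0 : ℂ) r₁ := by
    filter_upwards [hs] with z hz y hy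
    by_contra hyb
    have h1 := one_le_sum_dirac hy (A := (ball (0 : ℂ) r₁)ᶜ) hyb
    rw [← hz, Measure.restrict_apply measurableSet_ball.compl, compl_inter_self,
      measure_empty] at h1
    exact absurd h1 (by simp)
  -- the atoms are in the good region
  have hk : ∀ k : ℕ, ∀ᵐ z ∂volume.restrict (ball (0 : ℂ) 1),
      ((s z).map fun y => max 0 ((1 - 1 / ((k : ℝ) + 1)) - ‖z‖) *
        max 0 (min (‖y‖ - ρ) (r₁ - ‖y‖))).sum = 0 := by
    intro k
    set f : ℂ × ℂ → ℝ := fun p => max 0 ((1 - 1 / ((k : ℝ) + 1)) - ‖p.1‖) *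
        max 0 (min (‖p.2‖ - ρ) (r₁ - ‖p.2‖)) with hfdef
    have hfk : KK 1 f := by
      refine KK.of_prod (r := 1 - 1 / ((k : ℝ) + 1)) (s := r₁) (by fun_prop)
        (by
          have : 0 < 1 / ((k : ℝ) + 1) := by positivity
          linarith) hr1 ?_
      rintro p (h | h)
      · simp only [hfdef]
        rw [max_eq_left (by linarith), zero_mul]
      · simp only [hfdef]
        rw [max_eq_left (a := (0 : ℝ)) (b := min (‖p.2‖ - ρ) (r₁ - ‖p.2‖))
          ((min_le_right _ _).trans (by linarith)), mul_zero]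
    have h0 : TL S b f = 0 := by
      rw [TL_congr hG hfk (KK.zero ℝ) (fun p hp => ?_)]
      · refine T_off S (KK.zero ℝ).isPush.cf fun x _ => ?_
        have h1 := push2_zero_off b (β := fun _ => (0 : ℝ) • lam) (K := ∅) (x := x)
          (fun p _ => by
            refine ContinuousLinearMap.ext fun v => ContinuousLinearMap.ext fun w => ?_
            simp) (by simp)
        exact h1
      · simp only [hfdef]
        rw [max_eq_left (a := (0 : ℝ)) (b := min (‖p.2‖ - ρ) (r₁ - ‖p.2‖))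
          ((min_le_left _ _).trans (by linarith)), mul_zero]
    obtain ⟨h1, h2⟩ := hf f hfk.cont hfk.hcs hfk.sub
    have h3 := h2 _ hfk.isPush
    have h4 : S.T (push2 b fun p => f p • lam) = 0 := h0
    rw [h4] at h3
    have h5 : 0 ≤ᵐ[volume.restrict (ball (0 : ℂ) 1)] fun z => ∫ y, f (z, y) ∂(ν z) :=
      Eventually.of_forall fun z => integral_nonneg fun y =>
        mul_nonneg (le_max_left _ _) (le_max_left _ _)
    have h6 := (integral_eq_zero_iff_of_nonneg_ae h5 h1).1 h3.symm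
    filter_upwards [h6, hint] with z hz hzi
    rw [← hzi (fun y => f (z, y)) (fun y hy => ?_)]
    · exact hz
    · simp only [hfdef]
      rw [max_eq_left (a := (0 : ℝ)) (b := min (‖y‖ - ρ) (r₁ - ‖y‖))
          ((min_le_right _ _).trans (by linarith)), mul_zero]
  have hatom : ∀ᵐ z ∂volume.restrict (ball (0 : ℂ) 1), ∀ y ∈ s z, ‖y‖ ≤ ρ := by
    filter_upwards [ae_all_iff.2 hk, hball, ae_restrict_mem measurableSet_ball] with z hz hzb hz1 y hy
    rw [mem_ball, dist_zero_right] at hz1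
    obtain ⟨k, hk1⟩ := exists_nat_one_div_lt (show 0 < 1 - ‖z‖ by linarith)
    have hpos : 0 < max 0 ((1 - 1 / ((k : ℝ) + 1)) - ‖z‖) := lt_max_of_lt_right (by linarith)
    have h1 := hz k
    have h2 : ∀ x ∈ (s z).map (fun y => max 0 ((1 - 1 / ((k : ℝ) + 1)) - ‖z‖) *
        max 0 (min (‖y‖ - ρ) (r₁ - ‖y‖))), 0 ≤ x := by
      intro x hx
      obtain ⟨w, _, rfl⟩ := Multiset.mem_map.1 hx
      exact mul_nonneg (le_max_left _ _) (le_max_left _ _)
    have h3 := Multiset.single_le_sum h2 _ (Multiset.mem_map_of_mem _ hy)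
    rw [h1] at h3
    have h4 : max 0 (min (‖y‖ - ρ) (r₁ - ‖y‖)) ≤ 0 := by
      by_contra h5
      push Not at h5
      exact absurd h3 (not_le.2 (mul_pos hpos h5))
    have h5 := (le_max_right (0 : ℝ) (min (‖y‖ - ρ) (r₁ - ‖y‖))).trans h4
    have h6 := hzb y hy
    rw [mem_ball, dist_zero_right] at h6
    by_contra h7
    push Not at h7
    exact absurd h5 (not_le.2 (lt_min (by linarith) (by linarith)))
  refine ⟨s, hatom, fun f hfK => ?_⟩
  -- cut off
  set g : ℂ × ℂ → ℝ := fun p => f p * bmp hρ p.2 with hgdef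
  have hgc : Continuous g := hfK.cont.mul ((bmp hρ).continuous.comp continuous_snd)
  have hgK : KK 1 g := hfK.of_zero hgc fun p hp => by rw [hgdef]; simp only; rw [hp, zero_mul]
  have h1 : TL S b f = TL S b g := TL_congr hG hfK hgK fun p hp => by
    rw [hgdef]; simp only; rw [bmp_one hρ hp.le, mul_one]
  obtain ⟨h2, h3⟩ := hf g hgK.cont hgK.hcs hgK.sub
  have h4 : (fun z => ∫ y, g (z, y) ∂(ν z)) =ᵐ[volume.restrict (ball (0 : ℂ) 1)]
      fun z => ((s z).map fun y => f (z, y)).sum := by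
    filter_upwards [hint, hatom] with z hz hza
    rw [hz (fun y => g (z, y)) (fun y hy => ?_)]
    · congr 1
      refine Multiset.map_congr rfl fun y hy => ?_
      rw [hgdef]; simp only; rw [bmp_one hρ (hza y hy), mul_one]
    · rw [hgdef]; simp only; rw [bmp_off hρ hy, mul_zero]
  refine ⟨h2.congr h4, ?_⟩
  rw [h1]
  show S.T _ = _
  rw [h3 _ hgK.isPush]
  exact integral_congr_ae h4

end Vale.Agent.P247L.H899
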