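import Vale.Agent.P247L.Defs
import Vale.Agent.P247.H264.Mass

/-!
# P247, local currents: the mass measure (port of `H264.Mass`)
-/

open scoped ContDiff Topology ENNReal
open Set MeasureTheory Filter Metric

noncomputable section

namespace Vale.Agent.P247L.H264

open Vale.Agent.P247.H74 Vale.Agent.P247.H574 Vale.Agent.P247.H264

theorem ICur.zero {D : Data} (S : ICur D) : S.T 0 = 0 := by
  have h : CF (0 : R4 → F2) := ⟨continuous_const, HasCompactSupport.zero, fun x u => rfl⟩
  have h1 := S.smul 0 0 h
  have e : (0 : ℝ) • (0 : R4 → F2) = 0 := by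
    funext x
    exact ext_F2 fun u v => by show (0 : ℝ) * 0 = 0; ring
  rw [e, zero_mul] at h1
  exact h1

theorem ICur.neg {D : Data} (S : ICur D) {φ : R4 → F2} (h : CF φ) : S.T (-φ) = -S.T φ := by
  have := S.smul (-1) φ h
  have e : (-1 : ℝ) • φ = -φ := by
    funext x
    exact ext_F2 fun u v => by show (-1 : ℝ) * φ x u v = -φ x u v; ring
  rw [e] at this
  rw [this]; ring

theorem ICur.sub {D : Data} (S : ICur D) {φ ψ : R4 → F2} (h : CF φ) (h' : CF ψ) :
    S.T (φ - ψ) = S.T φ - S.T ψ := by
  have e : φ - ψ = φ + (-ψ) := by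
    funext x
    exact ext_F2 fun u v => by show φ x u v - ψ x u v = φ x u v + -ψ x u v; ring
  rw [e, S.add _ _ h (CF.neg' h'), ICur.neg S h', sub_eq_add_neg]

variable {D : Data} (S : ICur D)

/-- the positive functional `f ↦ T (f • om)` -/
def massFun : CompactlySupportedContinuousMap R4 ℝ →ₚ[ℝ] ℝ :=
  PositiveLinearMap.mk₀
    { toFun := fun f => S.T (fun x => f x • cf2 D.om x)
      map_add' := fun f g => by
        have h := S.add _ _ (CF.mul_cf2 (f := f) f.continuous f.hasCompactSupport D.om)
          (CF.mul_cf2 (f := g) g.continuous g.hasCompactSupport D.om)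
        refine Eq.trans ?_ h
        congr 1
        funext x
        refine ext_F2 fun u v => ?_
        show (f x + g x) * _ = f x * _ + g x * _
        ring
      map_smul' := fun c f => by
        have h := S.smul c _ (CF.mul_cf2 (f := f) f.continuous f.hasCompactSupport D.om)
        refine Eq.trans ?_ h
        congr 1
        funext x
        refine ext_F2 fun u v => ?_
        show (c * f x) * _ = c * (f x * _)
        ring }
    (fun f hf => by
      refine S.pos _ (CF.mul_cf2 f.continuous f.hasCompactSupport D.om) (fun x u => ?_)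
      have h1 : 0 ≤ f x := hf x
      show 0 ≤ f x * cf2 D.om x u (D.J x u)
      refine mul_nonneg h1 ?_
      rw [cf2_apply]
      rcases eq_or_ne u 0 with rfl | hu
      · simp [CForm.val]
      · exact (D.tame x u hu).le)

/-- the mass measure -/
def massM : Measure R4 := RealRMK.rieszMeasure (massFun S)

instance : (massM S).Regular := by unfold massM; infer_instance

theorem isMass_massM : IsMass S (massM S) := by
  refine ⟨inferInstance, fun f hf hs => ?_⟩
  exact (RealRMK.integral_rieszMeasure (massFun S) ⟨⟨f, hf⟩, hs⟩).symm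

theorem mass_bound : ∃ C, 0 < C ∧ ∀ μ : Measure R4, IsMass S μ → ∀ φ, CF φ →
    |S.T φ| ≤ C * ∫ x, ‖φ x‖ ∂μ := by
  obtain ⟨B, hB0, hB⟩ := exists_norm_J_le D
  obtain ⟨c, hc, ht⟩ := exists_tame D
  refine ⟨B / c, by positivity, fun μ hμ φ hφ => ?_⟩
  have hn : Continuous fun x => ‖φ x‖ := CF.norm_cont hφ
  have hns : HasCompactSupport fun x => ‖φ x‖ := CF.norm_supp hφ
  have hψ : CF (fun x => ‖φ x‖ • cf2 D.om x) := CF.mul_cf2 hn hns D.om
  have hψ' := CF.smul' hψ (B / c)
  have key : ∀ s : ℝ, |s| = 1 → 0 ≤ S.T (s • φ + (B / c) • fun x => ‖φ x‖ • cf2 D.om x) := by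
    intro s hs
    refine S.pos _ (CF.add' (CF.smul' hφ s) hψ') (fun x u => ?_)
    show 0 ≤ s * φ x u (D.J x u) + B / c * (‖φ x‖ * cf2 D.om x u (D.J x u))
    have h1 : |φ x u (D.J x u)| ≤ ‖φ x‖ * ‖u‖ * (B * ‖u‖) := by
      rw [← Real.norm_eq_abs]
      refine ((φ x).le_opNorm₂ u (D.J x u)).trans ?_
      refine mul_le_mul_of_nonneg_left ?_ (by positivity)
      exact ((D.J x).le_opNorm u).trans (mul_le_mul_of_nonneg_right (hB x) (norm_nonneg _))
    have h2 : B * ‖φ x‖ * ‖u‖ ^ 2 ≤ B / c * (‖φ x‖ * cf2 D.om x u (D.J x u)) := by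
      have h3 := mul_le_mul_of_nonneg_left (ht x u) (show 0 ≤ B / c * ‖φ x‖ by positivity)
      calc B * ‖φ x‖ * ‖u‖ ^ 2 = B / c * ‖φ x‖ * (c * ‖u‖ ^ 2) := by field_simp
        _ ≤ _ := h3
        _ = _ := by ring
    have h3 : |s * φ x u (D.J x u)| ≤ B * ‖φ x‖ * ‖u‖ ^ 2 := by
      rw [abs_mul, hs, one_mul]
      refine h1.trans (le_of_eq (by ring))
    have := neg_le_of_abs_le h3
    linarith
  have h1 := key 1 (by simp)
  have h2 := key (-1) (by simp)
  rw [S.add _ _ (CF.smul' hφ _) hψ', S.smul _ _ hφ, S.smul _ _ hψ, hμ.2 _ hn hns] at h1 h2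
  rw [abs_le]
  constructor <;> linarith

theorem mem_supp_iff (μ : Measure R4) (hμ : IsMass S μ) (x : R4) :
    x ∈ S.supp ↔ ∀ ε > 0, 0 < μ (ball x ε) := by
  have := hμ.1
  constructor
  · intro hx ε hε
    obtain ⟨φ, hφ, hs, hT⟩ := hx ε hε
    obtain ⟨C, hC, hb⟩ := mass_bound S
    by_contra h0
    have h0' : μ (ball x ε) = 0 := by simpa using h0
    have h1 : ∫ y, ‖φ y‖ ∂μ = 0 := by
      have : ∀ᵐ y ∂μ, ‖φ y‖ = 0 := by
        have h2 : ∀ᵐ y ∂μ, y ∉ ball x ε := by
          rw [ae_iff]
          refine measure_mono_null (fun a ha => ?_) h0'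
          exact not_not.1 ha
        filter_upwards [h2] with y hy
        rw [image_eq_zero_of_notMem_tsupport (fun h => hy (hs h))]
        exact @norm_zero F2 _
      rw [integral_congr_ae this, integral_zero]
    have h2 := hb μ hμ φ hφ
    rw [h1, mul_zero] at h2
    exact hT (abs_nonpos_iff.1 h2)
  · intro h ε hε
    have hε4 : ε / 4 < ε / 2 := by linarith
    obtain ⟨f, hf1, hf0, hfs, hfr⟩ := exists_continuous_one_zero_of_isCompact
      (isCompact_closedBall x (ε / 4)) (isOpen_ball (x := x) (ε := ε / 2)).isClosed_compl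
      (disjoint_compl_right_iff_subset.2 (closedBall_subset_ball hε4))
    refine ⟨fun y => f y • cf2 D.om y, CF.mul_cf2 f.continuous hfs D.om, ?_, ?_⟩
    · refine (closure_mono (t := ball x (ε / 2)) (fun y hy => ?_)).trans ?_
      · by_contra h'
        refine hy (ext_F2 fun u v => ?_)
        show f y * cf2 D.om y u v = 0
        rw [hf0 h']
        simp
      · exact (closure_ball_subset_closedBall).trans (closedBall_subset_ball (by linarith))
    · rw [hμ.2 _ f.continuous hfs]
      have h1 : 0 < μ (closedBall x (ε / 4)) :=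
        (h (ε / 4) (by positivity)).trans_le (measure_mono ball_subset_closedBall)
      have h2 : μ (closedBall x (ε / 4)) < ⊤ := (isCompact_closedBall _ _).measure_lt_top
      have h3 : (μ (closedBall x (ε / 4))).toReal ≤ ∫ y, f y ∂μ := by
        have : ∫ y, (closedBall x (ε / 4)).indicator (1 : R4 → ℝ) y ∂μ ≤ ∫ y, f y ∂μ := by
          refine integral_mono_of_nonneg (Eventually.of_forall fun y => indicator_nonneg (fun _ _ => zero_le_one) _)
            (f.continuous.integrable_of_hasCompactSupport hfs) (Eventually.of_forall fun y => ?_)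
          by_cases hy : y ∈ closedBall x (ε / 4)
          · simp only [hy, indicator_of_mem, Pi.one_apply]
            rw [hf1 hy]; simp
          · simp only [hy, not_false_eq_true, indicator_of_notMem]
            exact (hfr y).1
        rwa [integral_indicator_one isClosed_closedBall.measurableSet] at this
      have h4 : 0 < (μ (closedBall x (ε / 4))).toReal := ENNReal.toReal_pos h1.ne' h2.ne
      linarith

/-- **MASS** -/
theorem MASS : MASS_statement := by
  intro D S
  obtain ⟨C, _, hC⟩ := mass_bound S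
  exact ⟨massM S, isMass_massM S, ⟨C, hC _ (isMass_massM S)⟩, mem_supp_iff S _ (isMass_massM S)⟩

end Vale.Agent.P247L.H264
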