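import Vale.Agent.P247L.T3

/-!
# P247: pull-back and push-forward of forms along a transplant chart
-/

set_option linter.all false

open scoped BigOperators ContDiff Topology Manifold
open Set Filter Metric

noncomputable section

namespace Vale.Agent.P247L

open Vale.Agent.P204 Vale.Agent.P204.T4 Vale.Agent.P204.Mfd Vale.Agent.P247.SCY
open Vale.Agent.P247.H74 (R4 Data CForm e)
open Vale.Agent.P247.H574 (F2 Good w4 CF dd)
open Vale.Agent.P247X

/-- bilinear forms to alternating forms (the identity on alternating bilinear forms) -/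
def cF : F2 →L[ℝ] L2 :=
  ContinuousLinearMap.pi fun k : Fin 6 =>
    (ContinuousLinearMap.apply ℝ ℝ (eb ((![1, 2, 3, 2, 3, 3] : Fin 6 → Fin 4) k))).comp
      (ContinuousLinearMap.apply ℝ (R4 →L[ℝ] ℝ) (eb ((![0, 0, 0, 1, 1, 2] : Fin 6 → Fin 4) k)))

theorem ev_cF {φ : F2} (h : ∀ u, φ u u = 0) (u v : V4) : ev (cF φ) u v = φ u v := by
  have hs : ∀ a b, φ a b = - φ b a := by
    intro a b
    have := h (a + b)
    simp only [map_add, ContinuousLinearMap.add_apply, h] at this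
    linarith
  have c0 : cF φ 0 = φ (eb 0) (eb 1) := rfl
  have c1 : cF φ 1 = φ (eb 0) (eb 2) := rfl
  have c2 : cF φ 2 = φ (eb 0) (eb 3) := rfl
  have c3 : cF φ 3 = φ (eb 1) (eb 2) := rfl
  have c4 : cF φ 4 = φ (eb 1) (eb 3) := rfl
  have c5 : cF φ 5 = φ (eb 2) (eb 3) := rfl
  rw [ev_eq, c0, c1, c2, c3, c4, c5]
  conv_rhs => rw [vec_eq u, vec_eq v]
  simp only [map_add, map_smul, ContinuousLinearMap.add_apply, ContinuousLinearMap.smul_apply,
    smul_eq_mul, h]
  rw [hs (eb 1) (eb 0), hs (eb 2) (eb 0), hs (eb 3) (eb 0), hs (eb 2) (eb 1), hs (eb 3) (eb 1),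
    hs (eb 3) (eb 2)]
  ring

/-- the alternating form of a bilinear form -/
def a2 : F2 →L[ℝ] Alt2 := toAltL.comp cF

theorem a2_apply {φ : F2} (h : ∀ u, φ u u = 0) (u v : V4) : a2 φ ![u, v] = φ u v :=
  ev_cF h u v

/-- the bilinear form of an alternating form -/
def b2 : Alt2 →L[ℝ] F2 :=
  (LinearMap.toContinuousLinearMap
    { toFun := bl
      map_add' := fun A B => by ext1 u; ext1 v; simp only [bl_apply, ev_add,
        ContinuousLinearMap.add_apply]
      map_smul' := fun c A => by ext1 u; ext1 v; simp only [bl_apply, ev_smul,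
        ContinuousLinearMap.smul_apply, smul_eq_mul, RingHom.id_apply] } : L2 →L[ℝ] F2).comp compL

theorem b2_apply (A : Alt2) (u v : V4) : b2 A u v = A ![u, v] :=
  (bl_apply _ u v).trans (ev_compL A u v)

theorem b2_self (A : Alt2) (u : V4) : b2 A u u = 0 :=
  (bl_apply _ u u).trans (ev_self _ u)

theorem a2_b2 (A : Alt2) : a2 (b2 A) = A :=
  alt_ext fun u v => by rw [a2_apply (b2_self A), b2_apply]

theorem continuousAt_comp_alt {Y E F : Type*} [TopologicalSpace Y] [NormedAddCommGroup E]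
    [NormedSpace ℝ E] [NormedAddCommGroup F] [NormedSpace ℝ F] {k : ℕ}
    {A : Y → F [⋀^Fin k]→L[ℝ] ℝ} {L : Y → E →L[ℝ] F} {y : Y} (hA : ContinuousAt A y)
    (hL : ContinuousAt L y) : ContinuousAt (fun y => (A y).compContinuousLinearMap (L y)) y :=
  (ContinuousAlternatingMap.continuous_compContinuousLinearMapCLM.continuousAt.comp hL).clm_apply hA

variable {X : Type} [Cl4 X] {w : Tri X} (t : LocT w) {k : ℕ}

/-- the differential of the chart -/
def dk (x : X) : E4 →L[ℝ] R4 := mfderiv (𝓡 4) 𝓘(ℝ, R4) t.κ x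

/-- the differential of the inverse of the chart -/
def dki (y : R4) : R4 →L[ℝ] E4 := mfderiv 𝓘(ℝ, R4) (𝓡 4) t.κ.symm y

theorem smAt {x : X} (hx : x ∈ t.κ.source) : ContMDiffAt (𝓡 4) 𝓘(ℝ, R4) ∞ t.κ x :=
  (t.smooth x hx).contMDiffAt (t.κ.open_source.mem_nhds hx)

theorem smAt_symm {y : R4} (hy : y ∈ t.κ.target) : ContMDiffAt 𝓘(ℝ, R4) (𝓡 4) ∞ t.κ.symm y :=
  (t.smooth_symm y hy).contMDiffAt (t.κ.open_target.mem_nhds hy)

theorem dki_dk {x : X} (hx : x ∈ t.κ.source) (v : E4) : dki t (t.κ x) (dk t x v) = v := by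
  have h1 := mfderiv_comp (I := 𝓡 4) (I' := 𝓘(ℝ, R4)) (I'' := 𝓡 4) x
    ((smAt_symm t (t.κ.map_source hx)).mdifferentiableAt (by simp))
    ((smAt t hx).mdifferentiableAt (by simp))
  have h2 : t.κ.symm ∘ t.κ =ᶠ[𝓝 x] id := t.κ.eventually_left_inverse hx
  rw [h2.mfderiv_eq, mfderiv_id] at h1
  exact (DFunLike.congr_fun h1 v).symm

theorem dk_dki {y : R4} (hy : y ∈ t.κ.target) (v : R4) : dk t (t.κ.symm y) (dki t y v) = v := by
  have h1 := mfderiv_comp (I := 𝓘(ℝ, R4)) (I' := 𝓡 4) (I'' := 𝓘(ℝ, R4)) y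
    ((smAt t (t.κ.map_target hy)).mdifferentiableAt (by simp))
    ((smAt_symm t hy).mdifferentiableAt (by simp))
  have h2 : t.κ ∘ t.κ.symm =ᶠ[𝓝 y] id := t.κ.eventually_right_inverse hy
  rw [h2.mfderiv_eq, mfderiv_id] at h1
  exact (DFunLike.congr_fun h1 v).symm

/-- the chart intertwines the almost complex structures -/
theorem dk_J {x : X} (hx : x ∈ t.κ.source) (v : E4) :
    dk t x (Jat (Jw w) x v) = t.D.J (t.κ x) (dk t x v) := by
  have h1 : dki t (t.κ x) (t.D.J (t.κ x) (dk t x v)) =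
      Jat (Jw w) (t.κ.symm (t.κ x)) (dki t (t.κ x) (dk t x v)) := t.J _ (t.κ.map_source hx) _
  rw [dki_dk t hx, t.κ.left_inv hx] at h1
  have h2 := dk_dki t (t.κ.map_source hx) (t.D.J (t.κ x) (dk t x v))
  rw [t.κ.left_inv hx, h1] at h2
  exact h2

/-- the value of a form, on the model space -/
def vl (α : HS.Form X k) (x : X) : E4 [⋀^Fin k]→L[ℝ] ℝ := α x

/-- pull-back by the chart, extended by zero -/
def ek (B : R4 → R4 [⋀^Fin k]→L[ℝ] ℝ) : HS.Form X k := fun x =>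
  (open Classical in if x ∈ t.κ.source then (B (t.κ x)).compContinuousLinearMap (dk t x) else 0 :
    E4 [⋀^Fin k]→L[ℝ] ℝ)

/-- push-forward by the chart, extended by zero -/
def pk (α : HS.Form X k) (y : R4) : R4 [⋀^Fin k]→L[ℝ] ℝ :=
  open Classical in if y ∈ t.κ.target then
    (vl α (t.κ.symm y)).compContinuousLinearMap (dki t y) else 0

theorem ek_of_mem (B : R4 → R4 [⋀^Fin k]→L[ℝ] ℝ) {x : X} (hx : x ∈ t.κ.source) :
    vl (ek t B) x = (B (t.κ x)).compContinuousLinearMap (dk t x) := if_pos hx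

theorem ek_of_notMem (B : R4 → R4 [⋀^Fin k]→L[ℝ] ℝ) {x : X} (hx : x ∉ t.κ.source) :
    ek t B x = 0 := if_neg hx

theorem ek_zero {B : R4 → R4 [⋀^Fin k]→L[ℝ] ℝ} {C : Set R4} (hB : ∀ y, y ∉ C → B y = 0) {x : X}
    (hx : x ∉ t.κ.symm '' C) : ek t B x = 0 := by
  by_cases h : x ∈ t.κ.source
  · show vl (ek t B) x = 0
    rw [ek_of_mem t B h, hB _ fun hc => hx ⟨_, hc, t.κ.left_inv h⟩]
    ext v; rfl
  · exact ek_of_notMem t B h

theorem pk_of_mem (α : HS.Form X k) {y : R4} (hy : y ∈ t.κ.target) :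
    pk t α y = (vl α (t.κ.symm y)).compContinuousLinearMap (dki t y) := if_pos hy

theorem pk_zero {α : HS.Form X k} {C : Set X} (hα : ∀ x, x ∉ C → α x = 0) {y : R4}
    (hy : y ∉ t.κ '' C) : pk t α y = 0 := by
  by_cases h : y ∈ t.κ.target
  · have h1 : vl α (t.κ.symm y) = 0 := hα _ fun hc => hy ⟨_, hc, t.κ.right_inv h⟩
    rw [pk_of_mem t α h, h1]
    ext v; rfl
  · exact if_neg h

theorem ek_pk {α : HS.Form X k} (hα : ∀ x, x ∉ t.κ.source → α x = 0) : ek t (pk t α) = α := by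
  funext x
  by_cases hx : x ∈ t.κ.source
  · show vl (ek t (pk t α)) x = vl α x
    rw [ek_of_mem t _ hx, pk_of_mem t α (t.κ.map_source hx), t.κ.left_inv hx]
    ext v
    show vl α x (fun i => dki t (t.κ x) (dk t x (v i))) = vl α x v
    simp only [dki_dk t hx]
  · rw [ek_of_notMem t _ hx, hα x hx]

section charts
variable {c : OpenPartialHomeomorph X E4} (hc : c ∈ atlas E4 X)
include hc

theorem cc_smooth {z : E4} (hz : z ∈ c.target) (hz' : c.symm z ∈ t.κ.source) :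
    ContDiffAt ℝ ∞ (t.κ ∘ c.symm) z :=
  ((smAt t hz').comp z ((contMDiffOn_symm_of_mem_maximalAtlas
    (IsManifold.subset_maximalAtlas hc) z hz).contMDiffAt (c.open_target.mem_nhds hz))).contDiffAt

theorem cc_smooth' {y : R4} (hy : y ∈ t.κ.target) (hy' : t.κ.symm y ∈ c.source) :
    ContDiffAt ℝ ∞ (c ∘ t.κ.symm) y :=
  (((contMDiffOn_of_mem_maximalAtlas (IsManifold.subset_maximalAtlas hc) _ hy').contMDiffAt
    (c.open_source.mem_nhds hy')).comp y (smAt_symm t hy)).contDiffAt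

theorem loc_ek (B : R4 → R4 [⋀^Fin k]→L[ℝ] ℝ) {z : E4} (hz : z ∈ c.target)
    (hz' : c.symm z ∈ t.κ.source) : HS.loc c (ek t B) =ᶠ[𝓝 z] fun z =>
      (B ((t.κ ∘ c.symm) z)).compContinuousLinearMap (fderiv ℝ (t.κ ∘ c.symm) z) := by
  filter_upwards [(c.isOpen_inter_preimage_symm t.κ.open_source).mem_nhds ⟨hz, hz'⟩] with z hz
  have h1 := mfderiv_comp (I := 𝓡 4) (I' := 𝓡 4) (I'' := 𝓘(ℝ, R4)) z
    ((smAt t hz.2).mdifferentiableAt (by simp))
    (((contMDiffOn_symm_of_mem_maximalAtlas (IsManifold.subset_maximalAtlas hc) z hz.1).contMDiffAt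
      (c.open_target.mem_nhds hz.1)).mdifferentiableAt (n := ∞) (by simp))
  rw [mfderiv_eq_fderiv] at h1
  show (vl (ek t B) (c.symm z)).compContinuousLinearMap _ = _
  rw [ek_of_mem t B hz.2, h1]
  rfl

theorem pk_loc (α : HS.Form X k) {y : R4} (hy : y ∈ t.κ.target) (hy' : t.κ.symm y ∈ c.source) :
    pk t α =ᶠ[𝓝 y] fun y => (HS.loc c α ((c ∘ t.κ.symm) y)).compContinuousLinearMap
      (fderiv ℝ (c ∘ t.κ.symm) y) := by
  filter_upwards [(t.κ.isOpen_inter_preimage_symm c.open_source).mem_nhds ⟨hy, hy'⟩] with y hy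
  have hz := c.map_source hy.2
  have h1 := mfderiv_comp (I := 𝓘(ℝ, R4)) (I' := 𝓡 4) (I'' := 𝓡 4) (g := c.symm)
    (f := c ∘ t.κ.symm) y
    (((contMDiffOn_symm_of_mem_maximalAtlas (IsManifold.subset_maximalAtlas hc) _ hz).contMDiffAt
      (c.open_target.mem_nhds hz)).mdifferentiableAt (n := ∞) (by simp))
    ((cc_smooth' t hc hy.1 hy.2).differentiableAt (by simp)).mdifferentiableAt
  have h2 : c.symm ∘ c ∘ t.κ.symm =ᶠ[𝓝 y] t.κ.symm := by
    filter_upwards [(t.κ.isOpen_inter_preimage_symm c.open_source).mem_nhds hy] with y hy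
    exact c.left_inv hy.2
  rw [h2.mfderiv_eq, mfderiv_eq_fderiv] at h1
  have h3 : dki t y = _ := h1
  rw [pk_of_mem t α hy.1, h3]
  show _ = ((vl α (c.symm (c (t.κ.symm y)))).compContinuousLinearMap _).compContinuousLinearMap _
  rw [show vl α (c.symm (c (t.κ.symm y))) = vl α (t.κ.symm y) by rw [c.left_inv hy.2]]
  rfl

omit hc in
theorem loc_ek_off {B : R4 → R4 [⋀^Fin k]→L[ℝ] ℝ} {C : Set R4} (hC : IsCompact C)
    (hCt : C ⊆ t.κ.target) (hB : ∀ y, y ∉ C → B y = 0) {z : E4} (hz : z ∈ c.target)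
    (hz' : c.symm z ∉ t.κ.source) : HS.loc c (ek t B) =ᶠ[𝓝 z] fun _ => 0 := by
  have hcl : IsClosed (t.κ.symm '' C) :=
    (hC.image_of_continuousOn (t.κ.continuousOn_symm.mono hCt)).isClosed
  filter_upwards [(c.isOpen_inter_preimage_symm hcl.isOpen_compl).mem_nhds
    ⟨hz, fun ⟨y, hy, h⟩ => hz' (h ▸ t.κ.map_target (hCt hy))⟩] with z hz
  have h1 : vl (ek t B) (c.symm z) = 0 := ek_zero t hB hz.2
  show (vl (ek t B) (c.symm z)).compContinuousLinearMap _ = _
  rw [h1]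
  ext v; rfl

end charts

theorem cont_ek {B : R4 → R4 [⋀^Fin k]→L[ℝ] ℝ} (hB : ContinuousOn B t.κ.target) {C : Set R4}
    (hC : IsCompact C) (hCt : C ⊆ t.κ.target) (h0 : ∀ y, y ∉ C → B y = 0) : Cont (ek t B) := by
  intro c hc z hz
  by_cases hz' : c.symm z ∈ t.κ.source
  · have h1 := cc_smooth t hc hz hz'
    refine (ContinuousAt.congr ?_ (loc_ek t hc B hz hz').symm).continuousWithinAt
    exact continuousAt_comp_alt (ContinuousAt.comp (f := t.κ ∘ c.symm)
      (hB.continuousAt (t.κ.open_target.mem_nhds (t.κ.map_source hz'))) h1.continuousAt)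
      (h1.fderiv_right (m := ∞) (by simp)).continuousAt
  · exact (continuousAt_const.congr (loc_ek_off t hC hCt h0 hz hz').symm).continuousWithinAt

theorem continuousOn_pk {α : HS.Form X k} (hα : Cont α) : ContinuousOn (pk t α) t.κ.target := by
  intro y hy
  have hc := chart_mem_atlas E4 (t.κ.symm y)
  have hy' := mem_chart_source E4 (t.κ.symm y)
  have h1 := cc_smooth' t hc hy hy'
  refine (ContinuousAt.congr ?_ (pk_loc t hc α hy hy').symm).continuousWithinAt
  exact continuousAt_comp_alt (ContinuousAt.comp (f := chartAt E4 (t.κ.symm y) ∘ t.κ.symm)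
    ((hα _ hc).continuousAt ((chartAt E4 (t.κ.symm y)).open_target.mem_nhds
      ((chartAt E4 (t.κ.symm y)).map_source hy'))) h1.continuousAt)
    (h1.fderiv_right (m := ∞) (by simp)).continuousAt

end Vale.Agent.P247L
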