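import Vale.Agent.P247L.Pb

/-!
# P247: test forms of `ℝ⁴` and forms on the manifold
-/

set_option linter.all false

open scoped BigOperators ContDiff Topology Manifold
open Set Filter Metric

noncomputable section

namespace Vale.Agent.P247L

open Vale.Agent.P204 Vale.Agent.P204.T4 Vale.Agent.P204.Mfd Vale.Agent.P247.SCY
open Vale.Agent.P247.H74 (R4 Data CForm e)
open Vale.Agent.P247.H574 (F2 Good w4 CF dd)
open Vale.Agent.P247X

variable {X : Type} [Cl4 X] {w : Tri X} (t : LocT w)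

/-- pull-back of a form on `ℝ⁴`, extended by zero -/
def pb (φ : R4 → F2) : HS.Form X 2 := ek t fun y => a2 (φ y)

/-- push-forward of a form on the manifold, extended by zero -/
def pf (α : HS.Form X 2) : R4 → F2 := fun y => b2 (pk t α y)

theorem pb_apply {φ : R4 → F2} (h : ∀ y u, φ y u u = 0) {x : X} (hx : x ∈ t.κ.source)
    (u v : E4) : vl (pb t φ) x ![u, v] = φ (t.κ x) (dk t x u) (dk t x v) := by
  rw [pb, ek_of_mem t _ hx, comp_apply2, a2_apply (h _)]

theorem isPb_pb {φ : R4 → F2} (h : ∀ y u, φ y u u = 0) : IsPb t φ (pb t φ) :=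
  ⟨fun _ hx => ek_of_notMem t _ hx, fun _ hx u v => pb_apply t h hx u v⟩

theorem isPb_unique {φ : R4 → F2} {ψ ψ' : HS.Form X 2} (h : IsPb t φ ψ) (h' : IsPb t φ ψ') :
    ψ = ψ' := by
  funext x
  by_cases hx : x ∈ t.κ.source
  · ext m
    have : m = ![m 0, m 1] := by funext i; fin_cases i <;> rfl
    rw [this, h.2 x hx, h'.2 x hx]
  · rw [h.1 x hx, h'.1 x hx]

theorem pb_add (φ ψ : R4 → F2) : pb t (φ + ψ) = fun x => pb t φ x + pb t ψ x := by
  funext x
  by_cases hx : x ∈ t.κ.source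
  · show vl (pb t (φ + ψ)) x = vl (pb t φ) x + vl (pb t ψ) x
    simp only [pb, ek_of_mem t _ hx, Pi.add_apply, map_add]
    rfl
  · simp only [pb, ek_of_notMem t _ hx, add_zero]

theorem pb_smul (c : ℝ) (φ : R4 → F2) : pb t (c • φ) = fun x => c • pb t φ x := by
  funext x
  by_cases hx : x ∈ t.κ.source
  · show vl (pb t (c • φ)) x = c • vl (pb t φ) x
    simp only [pb, ek_of_mem t _ hx, Pi.smul_apply, map_smul]
    rfl
  · simp only [pb, ek_of_notMem t _ hx, smul_zero]

theorem pb_zero_of {φ : R4 → F2} {C : Set R4} (h0 : ∀ y, y ∉ C → φ y = 0) {x : X}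
    (hx : x ∉ t.κ.symm '' C) : pb t φ x = 0 :=
  ek_zero t (fun y hy => by rw [h0 y hy, map_zero]) hx

theorem cont_pb {φ : R4 → F2} (hφ : ContinuousOn φ t.κ.target) {C : Set R4} (hC : IsCompact C)
    (hCt : C ⊆ t.κ.target) (h0 : ∀ y, y ∉ C → φ y = 0) : Cont (pb t φ) :=
  cont_ek t (a2.continuous.comp_continuousOn hφ) hC hCt fun y hy => by rw [h0 y hy, map_zero]

theorem suppIn_pb {φ : R4 → F2} {C : Set R4} (hC : IsCompact C) (hCt : C ⊆ t.κ.target)
    (h0 : ∀ y, y ∉ C → φ y = 0) {U : Set X} (hU : t.κ.symm '' C ⊆ U) : SuppIn (pb t φ) U :=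
  ⟨_, hC.image_of_continuousOn (t.κ.continuousOn_symm.mono hCt), hU,
    fun _ hx => pb_zero_of t h0 hx⟩

/-- positivity is preserved -/
theorem pb_pos {φ : R4 → F2} (h : ∀ y u, φ y u u = 0)
    (hp : ∀ y ∈ t.κ.target, ∀ u, 0 ≤ φ y u (t.D.J y u)) (x : X) (v : TangentSpace (𝓡 4) x) :
    0 ≤ pb t φ x ![v, Jw w x v] := by
  by_cases hx : x ∈ t.κ.source
  · have h1 := (pb_apply t h hx v (Jat (Jw w) x v)).trans (congrArg _ (dk_J t hx v))
    exact (hp _ (t.κ.map_source hx) _).trans_eq h1.symm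
  · rw [pb, ek_of_notMem t _ hx]; exact le_rfl

theorem pf_apply (α : HS.Form X 2) {y : R4} (hy : y ∈ t.κ.target) (u v : R4) :
    pf t α y u v = vl α (t.κ.symm y) ![dki t y u, dki t y v] := by
  rw [pf, b2_apply, pk_of_mem t α hy, comp_apply2]

theorem pf_alt (α : HS.Form X 2) (y u : R4) : pf t α y u u = 0 := b2_self _ _

theorem pb_pf {α : HS.Form X 2} (hα : ∀ x, x ∉ t.κ.source → α x = 0) : pb t (pf t α) = α := by
  simp only [pb, pf, a2_b2]
  exact ek_pk t hα

theorem continuousOn_pf {α : HS.Form X 2} (hα : Cont α) : ContinuousOn (pf t α) t.κ.target :=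
  b2.continuous.comp_continuousOn (continuousOn_pk t hα)

theorem pf_zero_of {α : HS.Form X 2} {C : Set X} (hα : ∀ x, x ∉ C → α x = 0) {y : R4}
    (hy : y ∉ t.κ '' C) : pf t α y = 0 := by
  rw [pf, pk_zero t hα hy, map_zero]

/-- a continuous form with support in the domain of the chart is a test form of `ℝ⁴` -/
theorem cf_pf {α : HS.Form X 2} (hα : Cont α) {U : Set X} (hU : U ⊆ t.κ.source)
    (hs : SuppIn α U) : CF (pf t α) ∧ tsupport (pf t α) ⊆ t.κ '' U ∧ pb t (pf t α) = α := by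
  obtain ⟨C, hC, hCU, h0⟩ := hs
  have hK : IsCompact (t.κ '' C) := hC.image_of_continuousOn (t.κ.continuousOn.mono (hCU.trans hU))
  have hts : tsupport (pf t α) ⊆ t.κ '' C :=
    closure_minimal (fun y hy => by_contra fun hn => hy (pf_zero_of t h0 hn)) hK.isClosed
  refine ⟨⟨?_, hK.of_isClosed_subset (isClosed_tsupport _) hts, pf_alt t α⟩,
    hts.trans (image_mono hCU), pb_pf t fun x hx => h0 x fun hc => hx (hU (hCU hc))⟩
  refine (continuousOn_pf t hα).continuous_of_tsupport_subset t.κ.open_target (hts.trans ?_)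
  rintro _ ⟨x, hx, rfl⟩
  exact t.κ.map_source (hU (hCU hx))

theorem smooth_pb {φ : R4 → F2} (hφ : ContDiff ℝ ∞ φ) {C : Set R4} (hC : IsCompact C)
    (hCt : C ⊆ t.κ.target) (h0 : ∀ y, y ∉ C → φ y = 0) : HS.Smooth (pb t φ) := by
  intro c hc z hz
  by_cases hz' : c.symm z ∈ t.κ.source
  · refine (ContDiffAt.congr_of_eventuallyEq ?_ (loc_ek t hc _ hz hz')).contDiffWithinAt
    exact smoothAt_pullform' (α := fun y => a2 (φ y)) (cc_smooth t hc hz hz')
      (toAltL.contDiff.comp (g := toAltL) (f := fun y => cF (φ y)) (contDiff_pi.2 fun k =>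
        (hφ.clm_apply contDiff_const).clm_apply contDiff_const)).contDiffAt
  · exact (contDiffAt_const.congr_of_eventuallyEq (loc_ek_off t hC hCt
      (fun y hy => by rw [h0 y hy, map_zero]) hz hz')).contDiffWithinAt

/-- the components of a functional -/
def cv : (R4 →L[ℝ] ℝ) →L[ℝ] V4 :=
  ContinuousLinearMap.pi fun i : Fin 4 => ContinuousLinearMap.apply ℝ ℝ (eb i)

theorem dp_cv (a : R4 →L[ℝ] ℝ) (v : V4) : dp (cv a) v = a v := by
  have h : ∀ i, cv a i = a (eb i) := fun i => rfl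
  conv_rhs => rw [vec_eq v]
  simp only [dp_eq, h, map_add, map_smul, smul_eq_mul]
  ring

theorem dd_alt (l : R4 → R4 →L[ℝ] ℝ) (y u : R4) : dd l y u u = 0 := by
  simp [P247.H574.dd]

theorem dd_zero {l : R4 → R4 →L[ℝ] ℝ} {y : R4} (hy : y ∉ tsupport l) : dd l y = 0 := by
  have h : fderiv ℝ l y = 0 := by
    by_contra hn
    exact hy (support_fderiv_subset ℝ hn)
  ext1 u; ext1 v
  simp [P247.H574.dd, h]

theorem dd_smooth {l : R4 → R4 →L[ℝ] ℝ} (hl : ContDiff ℝ ∞ l) : ContDiff ℝ ∞ (dd l) := by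
  have h1 : ContDiff ℝ ∞ (fderiv ℝ l) := hl.fderiv_right (m := ∞) (by simp)
  refine h1.sub (contDiff_clm_apply_iff.2 fun u => contDiff_clm_apply_iff.2 fun v => ?_)
  exact (h1.clm_apply contDiff_const).clm_apply contDiff_const

theorem extDeriv_cv {l : R4 → R4 →L[ℝ] ℝ} {y : R4} (hl : DifferentiableAt ℝ l y) :
    extDeriv (fun y => one1 (cv (l y))) y = a2 (dd l y) := by
  have h1 : HasFDerivAt (fun y => cv (l y)) (cv.comp (fderiv ℝ l y)) y :=
    cv.hasFDerivAt.comp y hl.hasFDerivAt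
  rw [extDeriv_one1 h1.differentiableAt]
  refine alt_ext fun u v => ?_
  rw [toAlt_apply, ev_d1 h1.differentiableAt, a2_apply (dd_alt l y), h1.fderiv]
  simp only [ContinuousLinearMap.comp_apply, dp_cv]
  rfl

/-- the pull-back of `d l` is smooth and exact -/
theorem exact_pb {l : R4 → R4 →L[ℝ] ℝ} (hl : ContDiff ℝ ∞ l) (hc : HasCompactSupport l)
    (ht : tsupport l ⊆ t.κ.target) : HS.Smooth (pb t (dd l)) ∧ HS.Exact (pb t (dd l)) := by
  have h0 : ∀ y, y ∉ tsupport l → one1 (cv (l y)) = 0 := fun y hy => by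
    rw [image_eq_zero_of_notMem_tsupport hy, map_zero, map_zero]
  refine ⟨smooth_pb t (dd_smooth hl) hc ht fun y hy => dd_zero hy,
    ek t fun y => one1 (cv (l y)), fun c hc' z hz => ?_, fun c hc' z hz => ?_⟩
  · by_cases hz' : c.symm z ∈ t.κ.source
    · refine (ContDiffAt.congr_of_eventuallyEq ?_ (loc_ek t hc' _ hz hz')).contDiffWithinAt
      have hcc := cc_smooth t hc' hz hz'
      have hD : ContDiffAt ℝ ∞ (fderiv ℝ (t.κ ∘ c.symm)) z := hcc.fderiv_right (m := ∞) (by simp)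
      simp only [one1_comp]
      exact oneE.contDiff.contDiffAt.comp z ((P247.SCY.dpL.contDiff.contDiffAt.comp z
        ((cv.contDiff.comp hl).contDiffAt.comp z hcc)).clm_comp hD)
    · exact (contDiffAt_const.congr_of_eventuallyEq
        (loc_ek_off t hc ht h0 hz hz')).contDiffWithinAt
  · by_cases hz' : c.symm z ∈ t.κ.source
    · have hd : DifferentiableAt ℝ (fun y => one1 (cv (l y))) ((t.κ ∘ c.symm) z) :=
        ((one1.contDiff.comp (cv.contDiff.comp hl)).differentiable (by simp)) _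
      rw [(loc_ek t hc' _ hz hz').extDeriv_eq,
        extDeriv_pullback (r := ∞) hd (cc_smooth t hc' hz hz') minS,
        extDeriv_cv (hl.differentiable (by simp) _), pb, (loc_ek t hc' _ hz hz').self_of_nhds]
    · rw [(loc_ek_off t hc ht h0 hz hz').extDeriv_eq, extDeriv_zero1, pb,
        (loc_ek_off t hc ht (fun y hy => by rw [dd_zero hy, map_zero]) hz hz').self_of_nhds]

end Vale.Agent.P247L
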