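import Vale.Agent.P247.SCY.FG2
import Vale.Agent.P247.SCY.FL3
import Vale.Agent.P247.H74.LA.Ker
import Vale.Agent.P247.H574.Sta2

/-!
# P247, transplant charts: data from a periodic definite triple in components
-/

set_option linter.all false

open scoped BigOperators ContDiff Topology
open Set Filter Metric

noncomputable section

namespace Vale.Agent.P247L

open Vale.Agent.P204 Vale.Agent.P204.T4 Vale.Agent.P204.Mfd Vale.Agent.P247.SCY
open Vale.Agent.P247.H74 (R4 Data CForm e)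
open Vale.Agent.P247.H574 (F2 Good w4)

/-- the pairing of a covector and a vector -/
def dpL : V4 →L[ℝ] V4 →L[ℝ] ℝ :=
  ∑ i : Fin 4, (ContinuousLinearMap.proj i : V4 →L[ℝ] ℝ).smulRight
    (ContinuousLinearMap.proj i : V4 →L[ℝ] ℝ)

theorem dpL_apply (a v : V4) : dpL a v = dp a v := by
  simp [dpL, dp, ContinuousLinearMap.sum_apply]

/-- the bilinear form of a two-covector -/
def bl (K : L2) : F2 :=
  ∑ i : Fin 4, ∑ j : Fin 4, ent K i j • (ContinuousLinearMap.proj i : V4 →L[ℝ] ℝ).smulRight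
    (ContinuousLinearMap.proj j : V4 →L[ℝ] ℝ)

theorem bl_apply (K : L2) (u v : V4) : bl K u v = ev K u v := by
  simp [bl, ev, ContinuousLinearMap.sum_apply, mul_assoc]

theorem ev_d1 {γ : V4 → V4} {x : V4} (h : DifferentiableAt ℝ γ x) (u v : V4) :
    ev (d1 γ x) u v = dp (fderiv ℝ γ x u) v - dp (fderiv ℝ γ x v) u := by
  have h1 : ∀ i j, pd i (fun y => γ y j) x = fderiv ℝ γ x (eb i) j := by
    intro i j
    unfold pd
    rw [fderiv_apply h]; rfl
  have h2 : ∀ u : V4, fderiv ℝ γ x u = u 0 • fderiv ℝ γ x (eb 0) + u 1 • fderiv ℝ γ x (eb 1) +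
      u 2 • fderiv ℝ γ x (eb 2) + u 3 • fderiv ℝ γ x (eb 3) := by
    intro u
    conv_lhs => rw [vec_eq u]
    simp only [map_add, map_smul]
  rw [h2 u, h2 v]
  simp only [ev, GX.ent_d1, h1, dp, Fin.sum_univ_four, Pi.add_apply, Pi.smul_apply, smul_eq_mul]
  ring

/-- periodic maps -/
def PerZ {E : Type*} (f : V4 → E) : Prop :=
  ∀ (n : Fin 4 → ℤ) (x : R4), f (fun i => x i + n i) = f x

/-- the closed form `K + d γ` -/
def mkC (K : L2) (γ : V4 → V4) (hs : ContDiff ℝ ∞ γ) (hp : PerZ γ) : CForm where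
  κ := bl K
  κ_self := fun u => by rw [bl_apply, ev_self]
  lam := fun y => dpL (γ y)
  lam_smooth := dpL.contDiff.comp hs
  lam_per := fun n x => by rw [hp]

theorem mkC_val (K : L2) (γ : V4 → V4) (hs : ContDiff ℝ ∞ γ) (hp : PerZ γ) (x u v : V4) :
    (mkC K γ hs hp).val x u v = ev (K + d1 γ x) u v := by
  have hd : DifferentiableAt ℝ γ x := hs.differentiable (by simp) x
  have h1 : fderiv ℝ (fun y => dpL (γ y)) x = dpL.comp (fderiv ℝ γ x) :=
    (dpL.hasFDerivAt.comp x hd.hasFDerivAt).fderiv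
  show bl K u v + fderiv ℝ (fun y => dpL (γ y)) x u v - fderiv ℝ (fun y => dpL (γ y)) x v u = _
  rw [h1, ev_add, ev_d1 hd, bl_apply]
  simp only [ContinuousLinearMap.comp_apply, dpL_apply]
  ring

theorem perZ_d1 {γ : V4 → V4} (hp : PerZ γ) : PerZ (d1 γ) := by
  intro n x
  have h1 : ∀ i j, pd i (fun y => γ y j) (fun i => x i + n i) = pd i (fun y => γ y j) x := by
    intro i j
    unfold pd
    have h2 : (fun y => γ y j) = fun y => (fun y => γ y j) (y + fun i => (n i : ℝ)) := by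
      funext y
      exact (congrFun (hp n y) j).symm
    have h3 := fderiv_comp_add_right (𝕜 := ℝ) (f := fun y : V4 => γ y j) (x := x)
      (fun i => (n i : ℝ))
    rw [← h2] at h3
    rw [h3]
    rfl
  simp only [d1, h1]

/-- matrices as continuous linear maps -/
def clmL : M4 →L[ℝ] (V4 →L[ℝ] V4) :=
  LinearMap.toContinuousLinearMap
    { toFun := clm, map_add' := clm_add, map_smul' := clm_smul }

theorem clmL_apply (M : M4) (v : V4) : clmL M v = app M v := rfl

/-- the matrix of `tam` on the span of the pair -/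
def cm2 (A B C : L2) : Fin 2 → Fin 2 → ℝ := fun j k =>
  sg A B C * (Real.sqrt (dsc B C))⁻¹ * ![![Q B C, -Q B B], ![Q C C, -Q B C]] j k

section alg
variable {s : ℝ} {A B C : L2}

theorem ev_tam_B (A B C : L2) (u v : V4) :
    ev B u (app (tam A B C) v) = cm2 A B C 0 0 * ev B u v + cm2 A B C 0 1 * ev C u v := by
  unfold tam
  rw [app_smulM, ev_smul_right, ev_antisymm B u, ev_Jm, ev_antisymm B v u, ev_antisymm C v u]
  simp only [cm2, Matrix.cons_val_zero, Matrix.cons_val_one, Matrix.cons_val]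
  ring

theorem ev_tam_C (A B C : L2) (u v : V4) :
    ev C u (app (tam A B C) v) = cm2 A B C 1 0 * ev B u v + cm2 A B C 1 1 * ev C u v := by
  unfold tam
  rw [app_smulM, ev_smul_right, ev_antisymm C u, ev_Jm', ev_antisymm B v u, ev_antisymm C v u]
  simp only [cm2, Matrix.cons_val_zero, Matrix.cons_val_one, Matrix.cons_val]
  ring

theorem cm2_sq (h : Def3 s A B C) (j l : Fin 2) :
    ∑ k, cm2 A B C j k * cm2 A B C k l = if j = l then -1 else 0 := by
  have hd := h.dsc_pos
  have h1 : (Real.sqrt (dsc B C))⁻¹ * (Real.sqrt (dsc B C))⁻¹ * dsc B C = 1 := by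
    rw [← mul_inv, Real.mul_self_sqrt hd.le, inv_mul_cancel₀ hd.ne']
  have h2 := sg_sq A B C
  set r := (Real.sqrt (dsc B C))⁻¹
  unfold dsc at h1
  fin_cases j <;> fin_cases l <;>
    simp only [cm2, Fin.sum_univ_two, Fin.zero_eta, Fin.mk_one, Matrix.cons_val_zero,
      Matrix.cons_val_one, Matrix.cons_val, Fin.isValue, if_true, zero_ne_one, one_ne_zero,
      if_false]
  · linear_combination (-1 : ℝ) * h1 - r * r * (Q B B * Q C C - Q B C ^ 2) * h2
  · ring
  · ring
  · linear_combination (-1 : ℝ) * h1 - r * r * (Q B B * Q C C - Q B C ^ 2) * h2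

theorem nd_tam (h : Def3 s A B C) {u v : V4} (hu : u ≠ 0) (h0 : ev B u v = 0)
    (h1 : ev C u v = 0) : ∃ a b : ℝ, v = a • u + b • app (tam A B C) u := by
  obtain ⟨p, q, e1, e2, e3, e4⟩ := P247.LA.dual_pair (bl B u) (bl C u) (by
    intro a b hab
    by_contra hne
    have h2 := h 0 a b (Or.inr (by tauto))
    have h3 : Q ((0 : ℝ) • A + a • B + b • C) ((0 : ℝ) • A + a • B + b • C) ≠ 0 := by
      intro h4; rw [h4, mul_zero] at h2; exact lt_irrefl _ h2
    refine hu (nondeg h3 fun w => ?_)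
    have h5 := hab w
    rw [bl_apply, bl_apply] at h5
    rw [ev_add, ev_add, ev_smul, ev_smul, ev_smul]
    simp only [ev_eq, Pi.zero_apply] at h5 ⊢
    linear_combination h5)
  refine P247.LA.ker_span (bl B u) (bl C u) e1 e2 e3 e4 ?_ ?_ ?_ ?_ ?_ ?_ ?_
  · rw [bl_apply, ev_self]
  · rw [bl_apply, ev_self]
  · rw [bl_apply]; exact ev_anti (isCx_tam h) (pull_tam_B h) u
  · rw [bl_apply]; exact ev_anti (isCx_tam h) (pull_tam_C h) u
  · intro a b hab
    have h2 := tam_pos h hu
    have h3 : ev A u (a • u + b • app (tam A B C) u) = 0 := by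
      rw [hab]; simp [ev_eq]
    rw [ev_add_right, ev_smul_right, ev_smul_right, ev_self, mul_zero, zero_add] at h3
    have hb : b = 0 := (mul_eq_zero.1 h3).resolve_right h2.ne'
    rw [hb, zero_smul, add_zero] at hab
    exact ⟨(smul_eq_zero.1 hab).resolve_right hu, hb⟩
  · rw [bl_apply]; exact h0
  · rw [bl_apply]; exact h1

theorem sg_eventually (h : Def3 s A B C) {α β γ : V4 → L2} {y : V4}
    (hα : ContinuousAt α y) (hβ : ContinuousAt β y) (hγ : ContinuousAt γ y)
    (eα : α y = A) (eβ : β y = B) (eγ : γ y = C) :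
    ∀ᶠ z in 𝓝 y, sg (α z) (β z) (γ z) = sg A B C := by
  have hd := h.dsc_pos
  have hent : ∀ i j, Continuous fun A : L2 => ent A i j := fun i j =>
    (GX.contDiff_ent i j).continuous
  have hdn : Continuous fun B : L2 => (![B 5, -B 4, B 3, B 2, -B 1, B 0] : L2) := by fun_prop
  have hJ : ContinuousAt (fun z => Jm (β z) (γ z)) y := by
    refine continuousAt_pi.2 fun i => continuousAt_pi.2 fun j => ?_
    have h1 : Continuous fun p : L2 × L2 => Real.sqrt (dsc p.1 p.2) := by
      unfold dsc Q; fun_prop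
    have h2 : Continuous fun p : L2 × L2 => 2 * Nm p.1 p.2 i j +
        Q p.1 p.2 * (if i = j then 1 else 0) := by
      refine (continuous_const.mul ?_).add (Continuous.mul ?_ continuous_const)
      · exact continuous_finsetSum _ fun k _ =>
          ((hent i k).comp (hdn.comp continuous_fst)).mul ((hent k j).comp continuous_snd)
      · unfold Q; fun_prop
    have h3 : ContinuousAt (fun z => (β z, γ z)) y := hβ.prodMk hγ
    refine ContinuousAt.mul (ContinuousAt.inv₀ (ContinuousAt.comp (f := fun z => (β z, γ z))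
      h1.continuousAt h3) ?_) (ContinuousAt.comp (f := fun z => (β z, γ z)) h2.continuousAt h3)
    rw [eβ, eγ]; exact (Real.sqrt_pos.2 hd).ne'
  have hev : ContinuousAt (fun y => ev (α y) (eb 0) (app (Jm (β y) (γ y)) (eb 0))) y := by
    have h2 : Continuous fun p : L2 × M4 => ev p.1 (eb 0) (app p.2 (eb 0)) := by
      simp only [ev_eq, app_eq]
      fun_prop
    exact ContinuousAt.comp (f := fun y => (α y, Jm (β y) (γ y)))
      (g := fun p : L2 × M4 => ev p.1 (eb 0) (app p.2 (eb 0))) h2.continuousAt (hα.prodMk hJ)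
  rcases tame_sign (isCx_Jm hd) h (pull_Jm_B hd) (pull_Jm_C hd) with h1 | h1
  · have h2 := h1 _ eb0_ne
    have : ∀ᶠ z in 𝓝 y, 0 < ev (α z) (eb 0) (app (Jm (β z) (γ z)) (eb 0)) :=
      hev.eventually (lt_mem_nhds (by simp only [eα, eβ, eγ]; exact h2))
    filter_upwards [this] with z hz
    unfold sg
    rw [if_pos hz, if_pos h2]
  · have h2 := h1 _ eb0_ne
    have : ∀ᶠ z in 𝓝 y, ev (α z) (eb 0) (app (Jm (β z) (γ z)) (eb 0)) < 0 :=
      hev.eventually (gt_mem_nhds (by simp only [eα, eβ, eγ]; linarith))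
    filter_upwards [this] with z hz
    unfold sg
    rw [if_neg (by linarith), if_neg (by linarith)]

end alg

theorem cm2_smooth {α β γ : V4 → L2} (hα : ContDiff ℝ ∞ α) (hβ : ContDiff ℝ ∞ β)
    (hγ : ContDiff ℝ ∞ γ) (h : ∀ y, Def3 1 (α y) (β y) (γ y)) :
    ContDiff ℝ ∞ fun y => cm2 (α y) (β y) (γ y) := by
  refine contDiff_pi.2 fun j => contDiff_pi.2 fun k => contDiff_iff_contDiffAt.2 fun y => ?_
  have hβ' : ∀ i, ContDiff ℝ ∞ (fun y => β y i) := fun i => contDiff_pi.1 hβ i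
  have hγ' : ∀ i, ContDiff ℝ ∞ (fun y => γ y i) := fun i => contDiff_pi.1 hγ i
  have hQ : ∀ {a b : V4 → L2}, (∀ i, ContDiff ℝ ∞ (fun y => a y i)) →
      (∀ i, ContDiff ℝ ∞ (fun y => b y i)) → ContDiff ℝ ∞ fun y => Q (a y) (b y) := by
    intro a b ha hb
    unfold Q
    fun_prop (disch := assumption)
  have h1 : ContDiff ℝ ∞ (fun y => dsc (β y) (γ y)) :=
    ((hQ hβ' hβ').mul (hQ hγ' hγ')).sub ((hQ hβ' hγ').pow 2)
  have hd := (h y).dsc_pos
  have h3 : ContDiffAt ℝ ∞ (fun y => (Real.sqrt (dsc (β y) (γ y)))⁻¹) y :=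
    (h1.contDiffAt.sqrt hd.ne').inv (Real.sqrt_pos.2 hd).ne'
  have h4 : ContDiffAt ℝ ∞ (fun z => sg (α z) (β z) (γ z)) y :=
    contDiffAt_const.congr_of_eventuallyEq (sg_eventually (h y) hα.continuous.continuousAt
      hβ.continuous.continuousAt hγ.continuous.continuousAt rfl rfl rfl)
  refine (h4.mul h3).mul (ContDiff.contDiffAt ?_)
  fin_cases j <;> fin_cases k
  · exact hQ hβ' hγ'
  · exact (hQ hβ' hβ').neg
  · exact hQ hγ' hγ'
  · exact (hQ hβ' hγ').neg

/-- Data from a periodic perturbation of a constant triple in a unitary frame. -/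
theorem exists_data (K : Fin 3 → L2) (γ : Fin 3 → V4 → V4) (hs : ∀ j, ContDiff ℝ ∞ (γ j))
    (hp : ∀ j, PerZ (γ j))
    (hd : ∀ y, Def3 1 (K 2 + d1 (γ 2) y) (K 0 + d1 (γ 0) y) (K 1 + d1 (γ 1) y))
    (h0 : K 0 5 = 0) (h1 : K 1 5 = 0) (hk : 0 < Q (K 0) (K 0)) (h2 : 0 < K 2 5) :
    ∃ D : Data, Good D ∧
      (∀ j : Fin 2, ∀ y u v, (D.η j).val y u v = ev (K j.castSucc + d1 (γ j.castSucc) y) u v) ∧
      (∀ y u v, D.om.val y u v = ev (K 2 + d1 (γ 2) y) u v) ∧
      ∀ y u, D.J y u =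
        app (tam (K 2 + d1 (γ 2) y) (K 0 + d1 (γ 0) y) (K 1 + d1 (γ 1) y)) u := by
  set G : Fin 3 → V4 → L2 := fun j y => K j + d1 (γ j) y with hG
  have sG : ∀ j, ContDiff ℝ ∞ (G j) := fun j => contDiff_const.add (GX.contDiff_d1 (hs j))
  have pG : ∀ j, PerZ (G j) := fun j n x => by simp only [hG, perZ_d1 (hp j) n x]
  set C : Fin 3 → CForm := fun j => mkC (K j) (γ j) (hs j) (hp j) with hC
  have vC : ∀ j y u v, (C j).val y u v = ev (G j y) u v := fun j y u v => mkC_val _ _ _ _ y u v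
  have kC : ∀ j u v, (C j).κ u v = ev (K j) u v := fun j u v => bl_apply _ _ _
  refine ⟨{ J := fun y => clmL (tam (G 2 y) (G 0 y) (G 1 y))
            J_smooth := clmL.contDiff.comp (contDiff_iff_contDiffAt.2 fun y =>
              tam_smoothAt (hd y) (sG 2).contDiffAt (sG 0).contDiffAt (sG 1).contDiffAt
                rfl rfl rfl)
            J_per := fun n x => by rw [pG 2, pG 0, pG 1]
            J_sq := fun x u => isCx_tam (hd x) u
            η := ![C 0, C 1], om := C 2
            c := fun y => cm2 (G 2 y) (G 0 y) (G 1 y)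
            c_smooth := cm2_smooth (sG 2) (sG 0) (sG 1) hd
            c_per := fun n x => by rw [pG 2, pG 0, pG 1]
            η_J := ?_, nd := ?_, c_sq := fun x => cm2_sq (hd x)
            tame := fun x u hu => by rw [vC]; exact tam_pos (hd x) hu
            cls := ?_, kne := ?_ }, ⟨?_, ?_⟩, ?_, fun y u v => vC 2 y u v, fun y u => rfl⟩
  · intro j x u v
    rw [Fin.sum_univ_two]
    fin_cases j
    · show (C 0).val x u _ = _ * (C 0).val x u v + _ * (C 1).val x u v
      rw [vC, vC, vC]; exact ev_tam_B _ _ _ u v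
    · show (C 1).val x u _ = _ * (C 0).val x u v + _ * (C 1).val x u v
      rw [vC, vC, vC]; exact ev_tam_C _ _ _ u v
  · intro x u v hu h
    have e0 : (C 0).val x u v = 0 := h 0
    have e1 : (C 1).val x u v = 0 := h 1
    rw [vC] at e0 e1
    exact nd_tam (hd x) hu e0 e1
  · intro j
    fin_cases j
    · show (C 0).κ _ _ = 0
      rw [kC]; exact (ev_eb (K 0)).2.2.2.2.2.trans h0
    · show (C 1).κ _ _ = 0
      rw [kC]; exact (ev_eb (K 1)).2.2.2.2.2.trans h1
  · show (C 0).κ _ _ * (C 0).κ _ _ - (C 0).κ _ _ * (C 0).κ _ _ ≠ 0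
    simp only [kC, ev_eq, e, Pi.single_apply]
    simp only [Q, h0] at hk
    simp
    intro h
    nlinarith
  · intro x
    have h3 := hd x 0 1 0 (Or.inr (Or.inl one_ne_zero))
    rw [Q_comb] at h3
    show 0 < w4 (fun u v => (C 0).val x u v) (fun u v => (C 0).val x u v)
    obtain ⟨a0, a1, a2, a3, a4, a5⟩ := ev_eb (G 0 x)
    have h4 : w4 (fun u v => (C 0).val x u v) (fun u v => (C 0).val x u v) =
        Q (G 0 x) (G 0 x) := by
      simp only [w4, vC, Q]
      rw [← a0, ← a1, ← a2, ← a3, ← a4, ← a5]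
      rfl
    rw [h4]
    simpa using h3
  · show 0 < (C 2).κ _ _
    rw [kC]; exact h2.trans_eq (ev_eb (K 2)).2.2.2.2.2.symm
  · intro j y u v
    fin_cases j
    · exact vC 0 y u v
    · exact vC 1 y u v

end Vale.Agent.P247L
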