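import Vale.Agent.P247L.T1

/-!
# P247, transplant charts: periodic extension of an almost constant triple
-/

set_option linter.all false

open scoped BigOperators ContDiff Topology
open Set Filter Metric

noncomputable section

namespace Vale.Agent.P247L

open Vale.Agent.P204 Vale.Agent.P204.T4 Vale.Agent.P204.Mfd Vale.Agent.P247.SCY
open Vale.Agent.P247.H74 (R4 Data CForm e)
open Vale.Agent.P247.H574 (F2 Good w4)

/-- the nearest lattice point -/
def rd (y : V4) : V4 := fun i => (round (y i) : ℝ)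

/-- periodisation -/
def pz (γ : V4 → V4) (y : V4) : V4 := γ (y - rd y)

theorem perZ_pz (γ : V4 → V4) : PerZ (pz γ) := by
  intro n x
  unfold pz
  congr 1
  funext i
  simp [rd, round_add_intCast]

theorem pz_ev {γ : V4 → V4} (h : ∀ y, 3 / 8 ≤ ‖y‖ → γ y = 0) (y0 : V4) :
    pz γ =ᶠ[𝓝 y0] fun y => γ (y - rd y0) := by
  filter_upwards [ball_mem_nhds y0 (by norm_num : (0 : ℝ) < 1 / 16)] with y hy
  have hy' : ∀ i, |y i - y0 i| < 1 / 16 := fun i =>
    (norm_le_pi_norm (y - y0) i).trans_lt (mem_ball_iff_norm.1 hy)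
  by_cases hc : ∀ i, |y0 i - round (y0 i)| < 7 / 16
  · have : rd y = rd y0 := by
      funext i
      have h1 := abs_lt.1 (hy' i)
      have h2 := abs_lt.1 (hc i)
      have : round (y i) = round (y0 i) := by
        rw [round_eq (y i), Int.floor_eq_iff]
        constructor <;> linarith [h1.1, h1.2, h2.1, h2.2]
      simp only [rd, this]
    simp only [pz, this]
  · push Not at hc
    obtain ⟨i, hi⟩ := hc
    have key : ∀ n : ℤ, 3 / 8 ≤ |y i - n| := by
      intro n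
      have h1 := round_le (y0 i) n
      have h2 : |y0 i - n| ≤ |y i - y0 i| + |y i - n| := by
        have := abs_sub (y i - n) (y i - y0 i)
        rw [show y i - n - (y i - y0 i) = y0 i - n by ring] at this
        linarith
      linarith [hy' i]
    unfold pz
    rw [h _ ((key _).trans (norm_le_pi_norm (y - rd y) i)),
      h _ ((key _).trans (norm_le_pi_norm (y - rd y0) i))]

theorem pz_smooth {γ : V4 → V4} (hs : ContDiff ℝ ∞ γ) (h : ∀ y, 3 / 8 ≤ ‖y‖ → γ y = 0) :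
    ContDiff ℝ ∞ (pz γ) := contDiff_iff_contDiffAt.2 fun y0 =>
  ((hs.comp (contDiff_id.sub contDiff_const)).contDiffAt).congr_of_eventuallyEq (pz_ev h y0)

theorem d1_pz {γ : V4 → V4} (h : ∀ y, 3 / 8 ≤ ‖y‖ → γ y = 0) (y : V4) :
    d1 (pz γ) y = d1 γ (y - rd y) := by
  rw [GX.d1_congr (pz_ev h y)]
  have h1 : ∀ i j, pd i (fun z => γ (z - rd y) j) y = pd i (fun z => γ z j) (y - rd y) := by
    intro i j
    unfold pd
    rw [fderiv_comp_sub (𝕜 := ℝ) (f := fun z : V4 => γ z j) (x := y) (rd y)]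
  simp only [d1, h1]

theorem norm_sub_rd (y : V4) : ‖y - rd y‖ ≤ 1 := by
  rw [pi_norm_le_iff_of_nonneg zero_le_one]
  intro i
  exact (abs_sub_round (y i)).trans (by norm_num)

theorem rd_zero {y : V4} (hy : ‖y‖ < 1 / 4) : rd y = 0 := by
  funext i
  have h1 := abs_lt.1 ((norm_le_pi_norm y i).trans_lt hy)
  have : round (y i) = 0 := by
    rw [round_eq_zero_iff]
    constructor <;> linarith [h1.1, h1.2]
  simp [rd, this]

/-- definiteness is an open condition -/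
theorem def3_open {T : Fin 3 → L2} (h : Def3 1 (T 2) (T 0) (T 1)) : ∃ η > 0, ∀ c : ℝ, 0 < c →
    ∀ G : Fin 3 → L2, (∀ j, ‖G j - c • T j‖ ≤ c * η) → Def3 1 (G 2) (G 0) (G 1) := by
  set F : (Fin 3 → L2) × (ℝ × ℝ × ℝ) → ℝ := fun q =>
    Q (q.2.1 • q.1 2 + q.2.2.1 • q.1 0 + q.2.2.2 • q.1 1)
      (q.2.1 • q.1 2 + q.2.2.1 • q.1 0 + q.2.2.2 • q.1 1) with hF
  have hc : Continuous F := by
    simp only [hF, Q, Pi.add_apply, Pi.smul_apply, smul_eq_mul]
    fun_prop
  have hne : ∀ a : ℝ × ℝ × ℝ, a ≠ 0 ↔ (a.1 ≠ 0 ∨ a.2.1 ≠ 0 ∨ a.2.2 ≠ 0) := by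
    rintro ⟨a, b, c⟩
    simp only [ne_eq, Prod.mk_eq_zero]
    tauto
  have h1 : ∀ᶠ G in 𝓝 T, ∀ a ∈ sphere (0 : ℝ × ℝ × ℝ) 1, 0 < F (G, a) := by
    refine (isCompact_sphere _ _).eventually_forall_of_forall_eventually fun a ha => ?_
    refine hc.continuousAt.eventually (lt_mem_nhds ?_)
    have h2 : a ≠ 0 := by
      intro h0; rw [h0] at ha; simp at ha
    have := h a.1 a.2.1 a.2.2 ((hne a).1 h2)
    rwa [one_mul] at this
  obtain ⟨η, hη, h2⟩ := Metric.eventually_nhds_iff.1 h1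
  refine ⟨η / 2, by positivity, fun c hc0 G hG a b d habd => ?_⟩
  have h3 : dist (fun j => c⁻¹ • G j) T < η := by
    rw [dist_eq_norm]
    refine lt_of_le_of_lt ((pi_norm_le_iff_of_nonneg (by positivity : 0 ≤ η / 2)).2 fun j => ?_)
      (by linarith)
    have h4 : ((fun j => c⁻¹ • G j) - T) j = c⁻¹ • (G j - c • T j) := by
      simp [smul_sub, smul_smul, inv_mul_cancel₀ hc0.ne']
    rw [h4, norm_smul, Real.norm_eq_abs, abs_of_pos (inv_pos.2 hc0), inv_mul_le_iff₀ hc0]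
    exact hG j
  have h4 : ((a, b, d) : ℝ × ℝ × ℝ) ≠ 0 := (hne _).2 habd
  set r := ‖((a, b, d) : ℝ × ℝ × ℝ)‖ with hr
  have hr0 : 0 < r := norm_pos_iff.2 h4
  have h5 := h2 h3 (r⁻¹ • (a, b, d)) (by
    rw [mem_sphere_zero_iff_norm, norm_smul, Real.norm_eq_abs, abs_of_pos (inv_pos.2 hr0), ← hr,
      inv_mul_cancel₀ hr0.ne'])
  have h6 : F (fun j => c⁻¹ • G j, r⁻¹ • (a, b, d)) = (r⁻¹ * c⁻¹) ^ 2 *
      Q (a • G 2 + b • G 0 + d • G 1) (a • G 2 + b • G 0 + d • G 1) := by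
    simp only [hF, Q, Pi.add_apply, Pi.smul_apply, smul_eq_mul, Prod.smul_mk]
    ring
  rw [h6] at h5
  rw [one_mul]
  exact (pos_iff_pos_of_mul_pos h5).1 (by positivity)

theorem closed_sub_const {B : V4 → L2} (h : Closed B) (K : L2) : Closed fun y => B y - K := by
  intro x i j k
  have h1 : ∀ i j k, pd i (fun y => ent (B y - K) j k) x = pd i (fun y => ent (B y) j k) x := by
    intro i j k
    have h2 : (fun y => ent (B y - K) j k) = fun y => ent (B y) j k - ent K j k := by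
      funext y
      fin_cases j <;> fin_cases k <;> simp [ent] <;> ring
    unfold pd
    rw [h2, fderiv_sub_const]
  rw [h1, h1, h1]
  exact h x i j k

/-- a cut-off function -/
theorem exists_cut : ∃ (χ : V4 → ℝ) (M : ℝ), 0 ≤ M ∧ ContDiff ℝ ∞ χ ∧ (∀ y, |χ y| ≤ 1) ∧
    (∀ y, ‖y‖ ≤ 1 → ‖grad χ y‖ ≤ M) ∧ (∀ y, ‖y‖ ≤ 1 / 4 → χ y = 1) ∧
    ∀ y, 3 / 8 ≤ ‖y‖ → χ y = 0 := by
  let b : ContDiffBump (0 : V4) := ⟨1 / 4, 3 / 8, by norm_num, by norm_num⟩
  have hc : Continuous (grad b) :=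
    continuous_pi fun i => (GX.contDiff_pd (f := b) b.contDiff i).continuous
  obtain ⟨M, hM⟩ := (isCompact_closedBall (0 : V4) 1).exists_bound_of_continuousOn hc.continuousOn
  refine ⟨b, M, (norm_nonneg _).trans (hM 0 (by simp)), b.contDiff, fun y => ?_,
    fun y hy => hM y (mem_closedBall_zero_iff.2 hy),
    fun y hy => b.one_of_mem_closedBall (mem_closedBall_zero_iff.2 hy),
    fun y hy => b.zero_of_le_dist (by rw [dist_zero_right]; exact hy)⟩
  rw [abs_of_nonneg b.nonneg]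
  exact b.le_one

/-- An almost constant closed triple on the unit ball extends from the ball of radius `1 / 4` to
periodic data. -/
theorem exists_ext {T : Fin 3 → L2} (hT : Def3 1 (T 2) (T 0) (T 1)) (h0 : T 0 5 = 0)
    (h1 : T 1 5 = 0) (h2 : 0 < T 2 5) : ∃ δ > 0, ∀ c : ℝ, 0 < c → ∀ B : Fin 3 → V4 → L2,
    (∀ j, ContDiff ℝ ∞ (B j)) → (∀ j, Closed (B j)) →
    (∀ j y, ‖y‖ ≤ 1 → ‖B j y - c • T j‖ ≤ c * δ) →
    ∃ D : Data, Good D ∧ ∀ y : V4, ‖y‖ < 1 / 4 →
      (∀ j : Fin 2, ∀ u v, (D.η j).val y u v = ev (B j.castSucc y) u v) ∧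
      (∀ u v, D.om.val y u v = ev (B 2 y) u v) ∧
      ∀ u, D.J y u = app (tam (B 2 y) (B 0 y) (B 1 y)) u := by
  obtain ⟨η, hη, hop⟩ := def3_open hT
  obtain ⟨χ, M, hM0, hχ, hχ1, hM, hone, hzero⟩ := exists_cut
  refine ⟨η / (8 * M + 1), by positivity, fun c hc B hB hcl hbd => ?_⟩
  set δ := η / (8 * M + 1) with hδ
  have hδ0 : 0 < δ := by positivity
  choose β hβ hdβ hβb using fun j => exists_prim_bd (α := fun y => B j y - c • T j)
    ((hB j).sub contDiff_const) (closed_sub_const (hcl j) _)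
  set γ : Fin 3 → V4 → V4 := fun j y => χ y • β j y with hγ
  have sγ : ∀ j, ContDiff ℝ ∞ (γ j) := fun j => hχ.smul (hβ j)
  have zγ : ∀ j y, 3 / 8 ≤ ‖y‖ → γ j y = 0 := fun j y hy => by
    simp only [hγ, hzero y hy, zero_smul]
  have dγ : ∀ j y, d1 (γ j) y = wd (grad χ y) (β j y) + χ y • (B j y - c • T j) := by
    intro j y
    rw [hγ, EMF.d1_smul (hχ.differentiable (by simp) y) ((hβ j).differentiable (by simp) y), hdβ]
  have bγ : ∀ j y, ‖y‖ ≤ 1 → ‖d1 (γ j) y‖ ≤ c * η := by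
    intro j y hy
    have e1 : ‖β j y‖ ≤ 4 * (c * δ) := by
      refine (hβb j y (c * δ) fun t ht => hbd j _ ?_).trans ?_
      · rw [norm_smul, Real.norm_eq_abs, abs_of_nonneg ht.1]
        exact mul_le_one₀ ht.2 (norm_nonneg _) hy
      · have : 0 ≤ c * δ := by positivity
        nlinarith
    have e2 : ‖wd (grad χ y) (β j y)‖ ≤ 2 * M * (4 * (c * δ)) :=
      (T4.norm_wd_le _ _).trans (mul_le_mul (by linarith [hM y hy]) e1 (norm_nonneg _)
        (by positivity))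
    have e3 : ‖χ y • (B j y - c • T j)‖ ≤ 1 * (c * δ) := by
      rw [norm_smul]
      exact mul_le_mul (hχ1 y) (hbd j y hy) (norm_nonneg _) zero_le_one
    have e4 : η = δ * (8 * M + 1) := by rw [hδ]; field_simp
    rw [dγ, e4]
    refine (norm_add_le _ _).trans ?_
    linarith
  have hk : 0 < Q (c • T 0) (c • T 0) := by
    have h3 := hT 0 c 0 (Or.inr (Or.inl hc.ne'))
    simpa using h3
  obtain ⟨D, hD, e1, e2, e3⟩ := exists_data (fun j => c • T j) (fun j => pz (γ j))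
    (fun j => pz_smooth (sγ j) (zγ j)) (fun j => perZ_pz _)
    (fun y => hop c hc (fun j => c • T j + d1 (pz (γ j)) y) fun j => by
      rw [add_sub_cancel_left, d1_pz (zγ j)]
      exact bγ j _ (norm_sub_rd y))
    (by simp [h0]) (by simp [h1]) hk (by simpa using mul_pos hc h2)
  refine ⟨D, hD, fun y hy => ?_⟩
  have key : ∀ j, c • T j + d1 (pz (γ j)) y = B j y := by
    intro j
    rw [d1_pz (zγ j), rd_zero hy, sub_zero]
    have h3 : γ j =ᶠ[𝓝 y] β j := by
      filter_upwards [(isOpen_ball (x := (0 : V4)) (ε := 1 / 4)).mem_nhds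
        (mem_ball_zero_iff.2 hy)] with z hz
      simp only [hγ, hone z (mem_ball_zero_iff.1 hz).le, one_smul]
    rw [GX.d1_congr h3, hdβ, add_sub_cancel]
  exact ⟨fun j u v => by rw [e1, key], fun u v => by rw [e2, key],
    fun u => by rw [e3, key, key, key]⟩

end Vale.Agent.P247L
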